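import Vale.Agent.P139.KU.Rec

/-!
# Leading asymptotics of `J a c ρ` as `ρ → ∞` on the real axis
-/

noncomputable section

open MeasureTheory Set Filter Topology Complex

namespace Vale.Agent.P139.KU

/-- `∫ e^{-ρ s} s^{β-1} (1+s)^m ≤ C ρ^{-β}` for `ρ ≥ 1`. -/
lemma majorant_integral_le {β : ℝ} (m : ℝ) (hβ : 0 < β) :
    ∃ C : ℝ, 0 ≤ C ∧ ∀ ρ : ℝ, 1 ≤ ρ →
      ∫ s in Ioi (0 : ℝ), Real.exp (-(ρ * s)) * s ^ (β - 1) * (1 + s) ^ m ≤ C * ρ ^ (-β) := by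
  refine ⟨∫ x in Ioi (0 : ℝ), Real.exp (-(1 * x)) * x ^ (β - 1) * (1 + x) ^ |m|, ?_, ?_⟩
  · apply setIntegral_nonneg measurableSet_Ioi
    intro s hs
    have hs' : (0 : ℝ) < s := hs
    positivity
  · intro ρ hρ
    have hρ0 : (0 : ℝ) < ρ := by linarith
    have hsub := integral_comp_mul_left_Ioi
      (fun x : ℝ => Real.exp (-x) * (x / ρ) ^ (β - 1) * (1 + x / ρ) ^ m) 0 hρ0
    have e1 : (fun x : ℝ => (fun x : ℝ => Real.exp (-x) * (x / ρ) ^ (β - 1) * (1 + x / ρ) ^ m)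
        (ρ * x)) = fun s : ℝ => Real.exp (-(ρ * s)) * s ^ (β - 1) * (1 + s) ^ m := by
      funext s
      have : ρ * s / ρ = s := by field_simp
      simp only [this]
    rw [e1, mul_zero] at hsub
    rw [hsub, smul_eq_mul, ← integral_const_mul, mul_comm _ (ρ ^ (-β)), ← integral_const_mul]
    have hint := (majorant_integrable |m| hβ one_pos).const_mul (ρ ^ (-β))
    refine integral_mono_of_nonneg ?_ hint ?_
    · refine (ae_restrict_iff' measurableSet_Ioi).mpr (Eventually.of_forall fun x hx => ?_)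
      have hx' : (0 : ℝ) < x := hx
      simp only [Pi.zero_apply]
      positivity
    · refine (ae_restrict_iff' measurableSet_Ioi).mpr (Eventually.of_forall fun x hx => ?_)
      have hx' : (0 : ℝ) < x := hx
      have h1 : (1 + x / ρ) ^ m ≤ (1 + x) ^ |m| := by
        have hxr : x / ρ ≤ x := div_le_self hx'.le hρ
        have h0 : (0 : ℝ) < x / ρ := by positivity
        calc (1 + x / ρ) ^ m ≤ (1 + x / ρ) ^ |m| :=
              Real.rpow_le_rpow_of_exponent_le (by linarith) (le_abs_self _)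
          _ ≤ (1 + x) ^ |m| := Real.rpow_le_rpow (by linarith) (by linarith) (abs_nonneg _)
      have h2 : ρ⁻¹ * (x / ρ) ^ (β - 1) = ρ ^ (-β) * x ^ (β - 1) := by
        rw [Real.div_rpow hx'.le hρ0.le, Real.rpow_sub hρ0, Real.rpow_one, Real.rpow_neg hρ0.le]
        field_simp
      show ρ⁻¹ * (Real.exp (-x) * (x / ρ) ^ (β - 1) * (1 + x / ρ) ^ m) ≤
        ρ ^ (-β) * (Real.exp (-(1 * x)) * x ^ (β - 1) * (1 + x) ^ |m|)
      calc ρ⁻¹ * (Real.exp (-x) * (x / ρ) ^ (β - 1) * (1 + x / ρ) ^ m)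
          = (ρ⁻¹ * (x / ρ) ^ (β - 1)) * Real.exp (-x) * (1 + x / ρ) ^ m := by ring
        _ = (ρ ^ (-β) * x ^ (β - 1)) * Real.exp (-x) * (1 + x / ρ) ^ m := by rw [h2]
        _ ≤ (ρ ^ (-β) * x ^ (β - 1)) * Real.exp (-x) * (1 + x) ^ |m| := by gcongr
        _ = _ := by rw [one_mul]; ring

/-- Size of `J`: `‖J a c ρ‖ ≤ C ρ^{-Re a}` for `ρ ≥ 1`. -/
theorem norm_J_rpow_le {a : ℂ} (c : ℂ) (ha : 0 < a.re) :
    ∃ C : ℝ, 0 ≤ C ∧ ∀ ρ : ℝ, 1 ≤ ρ → ‖J a c ρ‖ ≤ C * ρ ^ (-a.re) := by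
  obtain ⟨C, hC0, hC⟩ := majorant_integral_le |c.re| ha
  refine ⟨Real.exp (|c.im| * (Real.pi / 2)) * C, by positivity, fun ρ hρ => ?_⟩
  have hρ0 : (0 : ℝ) < ρ := by linarith
  have h := norm_J_le (ζ := (ρ : ℂ)) c ha (by simpa using hρ0)
  rw [ofReal_re] at h
  calc ‖J a c ρ‖ ≤ _ := h
    _ ≤ Real.exp (|c.im| * (Real.pi / 2)) * (C * ρ ^ (-a.re)) := by
        gcongr
        exact hC ρ hρ
    _ = _ := by ring

/-- Mean value bound of `(1+is)^c - 1`. -/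
lemma norm_one_add_cpow_sub_one_le (c : ℂ) {s : ℝ} (hs : 0 ≤ s) :
    ‖(1 + I * (s : ℂ)) ^ c - 1‖ ≤
      ‖c‖ * Real.exp (|c.im| * (Real.pi / 2)) * (1 + s) ^ |c.re - 1| * s := by
  have hder : ∀ x ∈ Icc (0 : ℝ) s, HasDerivWithinAt (fun x : ℝ => (1 + I * (x : ℂ)) ^ c)
      (c * (1 + I * (x : ℂ)) ^ (c - 1) * I) (Icc 0 s) x := by
    intro x _
    have h0 : HasDerivAt (fun z : ℂ => 1 + I * z) I (x : ℂ) := by
      simpa using ((hasDerivAt_id (x : ℂ)).const_mul I).const_add 1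
    have h1 := (h0.cpow_const (c := c) (one_add_slit x)).comp_ofReal
    exact h1.hasDerivWithinAt
  have hb : ∀ x ∈ Ico (0 : ℝ) s, ‖c * (1 + I * (x : ℂ)) ^ (c - 1) * I‖ ≤
      ‖c‖ * Real.exp (|c.im| * (Real.pi / 2)) * (1 + s) ^ |c.re - 1| := by
    intro x hx
    rw [norm_mul, norm_mul, norm_I, mul_one]
    have h1 := norm_one_add_cpow_le (c - 1) hx.1
    simp only [sub_im, one_im, sub_zero, sub_re, one_re] at h1
    calc ‖c‖ * ‖(1 + I * (x : ℂ)) ^ (c - 1)‖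
        ≤ ‖c‖ * (Real.exp (|c.im| * (Real.pi / 2)) * (1 + x) ^ |c.re - 1|) := by gcongr
      _ ≤ ‖c‖ * (Real.exp (|c.im| * (Real.pi / 2)) * (1 + s) ^ |c.re - 1|) := by
          have : (1 + x) ^ |c.re - 1| ≤ (1 + s) ^ |c.re - 1| :=
            Real.rpow_le_rpow (by linarith [hx.1]) (by linarith [hx.2]) (abs_nonneg _)
          gcongr
      _ = _ := by ring
  have h := norm_image_sub_le_of_norm_deriv_le_segment' hder hb s (right_mem_Icc.mpr hs)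
  simpa using h

/-- Leading asymptotics with error: `‖J a c ρ - Γ(a) ρ^{-a}‖ ≤ C ρ^{-Re a - 1}`, `ρ ≥ 1`. -/
theorem norm_J_sub_le {a : ℂ} (c : ℂ) (ha : 0 < a.re) :
    ∃ C : ℝ, 0 ≤ C ∧ ∀ ρ : ℝ, 1 ≤ ρ →
      ‖J a c ρ - (ρ : ℂ) ^ (-a) * Complex.Gamma a‖ ≤ C * ρ ^ (-(a.re + 1)) := by
  have ha1 : 0 < a.re + 1 := by linarith
  obtain ⟨C, hC0, hC⟩ := majorant_integral_le |c.re - 1| ha1
  refine ⟨‖c‖ * Real.exp (|c.im| * (Real.pi / 2)) * C, by positivity, fun ρ hρ => ?_⟩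
  have hρ0 : (0 : ℝ) < ρ := by linarith
  have hG : ∫ s in Ioi (0 : ℝ), (s : ℂ) ^ (a - 1) * cexp (-(ρ * s)) =
      (1 / (ρ : ℂ)) ^ a * Complex.Gamma a :=
    Complex.integral_cpow_mul_exp_neg_mul_Ioi ha (by simpa using hρ0)
  have hG' : ∫ s in Ioi (0 : ℝ), ker a 0 ρ s = (ρ : ℂ) ^ (-a) * Complex.Gamma a := by
    have e : (1 / (ρ : ℂ)) ^ a = (ρ : ℂ) ^ (-a) := by
      rw [one_div, Complex.inv_cpow, Complex.cpow_neg]
      rw [Complex.arg_ofReal_of_nonneg hρ0.le]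
      exact Real.pi_pos.ne
    rw [← e, ← hG]
    apply setIntegral_congr_fun measurableSet_Ioi
    intro s _
    simp only [ker, cpow_zero, mul_one]
    ring
  have h0 : 0 < ((ρ : ℂ)).re := by simpa using hρ0
  unfold J
  rw [← hG', ← integral_sub (integrableOn_ker c ha h0) (integrableOn_ker 0 ha h0)]
  have hint := (majorant_integrable |c.re - 1| ha1 hρ0).const_mul
    (‖c‖ * Real.exp (|c.im| * (Real.pi / 2)))
  calc ‖∫ s in Ioi (0 : ℝ), (ker a c ρ s - ker a 0 ρ s)‖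
      ≤ ∫ s in Ioi (0 : ℝ), ‖c‖ * Real.exp (|c.im| * (Real.pi / 2)) *
        (Real.exp (-(ρ * s)) * s ^ (a.re + 1 - 1) * (1 + s) ^ |c.re - 1|) := by
        refine norm_integral_le_of_norm_le hint ?_
        refine (ae_restrict_iff' measurableSet_Ioi).mpr (Eventually.of_forall fun s hs => ?_)
        have hs' : (0 : ℝ) < s := hs
        have e1 : ker a c ρ s - ker a 0 ρ s = cexp (-(ρ * s)) * (s : ℂ) ^ (a - 1) *
            ((1 + I * (s : ℂ)) ^ c - 1) := by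
          simp only [ker, cpow_zero]; ring
        rw [e1, norm_mul, norm_mul, Complex.norm_exp, Complex.norm_cpow_eq_rpow_re_of_pos hs']
        have e2 : (-((ρ : ℂ) * (s : ℂ))).re = -(ρ * s) := by simp
        rw [e2, sub_re, one_re]
        have e3 : s ^ (a.re + 1 - 1) = s ^ (a.re - 1) * s := by
          rw [show a.re + 1 - 1 = (a.re - 1) + 1 by ring, Real.rpow_add hs', Real.rpow_one]
        calc Real.exp (-(ρ * s)) * s ^ (a.re - 1) * ‖(1 + I * (s : ℂ)) ^ c - 1‖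
            ≤ Real.exp (-(ρ * s)) * s ^ (a.re - 1) *
              (‖c‖ * Real.exp (|c.im| * (Real.pi / 2)) * (1 + s) ^ |c.re - 1| * s) := by
              gcongr
              exact norm_one_add_cpow_sub_one_le c hs'.le
          _ = _ := by rw [e3]; ring
    _ = ‖c‖ * Real.exp (|c.im| * (Real.pi / 2)) * ∫ s in Ioi (0 : ℝ),
        (Real.exp (-(ρ * s)) * s ^ (a.re + 1 - 1) * (1 + s) ^ |c.re - 1|) :=
        integral_const_mul _ _
    _ ≤ ‖c‖ * Real.exp (|c.im| * (Real.pi / 2)) * (C * ρ ^ (-(a.re + 1))) := by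
        gcongr
        exact hC ρ hρ
    _ = _ := by ring

/-- `J a c ρ ≠ 0` for all large real `ρ`. -/
theorem J_ne_zero_of_large {a : ℂ} (c : ℂ) (ha : 0 < a.re) :
    ∃ ρ₀ : ℝ, 1 ≤ ρ₀ ∧ ∀ ρ : ℝ, ρ₀ ≤ ρ → J a c ρ ≠ 0 := by
  obtain ⟨C, hC0, hC⟩ := norm_J_sub_le c ha
  have hG : 0 < ‖Complex.Gamma a‖ := norm_pos_iff.mpr (Complex.Gamma_ne_zero_of_re_pos ha)
  refine ⟨max 1 (C / ‖Complex.Gamma a‖ + 1), le_max_left _ _, fun ρ hρ h0 => ?_⟩
  have h1 : 1 ≤ ρ := (le_max_left _ _).trans hρ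
  have hρ0 : (0 : ℝ) < ρ := by linarith
  have h2 : C / ‖Complex.Gamma a‖ + 1 ≤ ρ := (le_max_right _ _).trans hρ
  have h := hC ρ h1
  rw [h0, zero_sub, norm_neg, norm_mul, Complex.norm_cpow_eq_rpow_re_of_pos hρ0, neg_re,
    neg_add, Real.rpow_add hρ0, Real.rpow_neg_one] at h
  have hp : 0 < ρ ^ (-a.re) := Real.rpow_pos_of_pos hρ0 _
  have h3 : ‖Complex.Gamma a‖ ≤ C * ρ⁻¹ := by
    have : ρ ^ (-a.re) * ‖Complex.Gamma a‖ ≤ ρ ^ (-a.re) * (C * ρ⁻¹) := by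
      calc _ ≤ _ := h
        _ = _ := by ring
    exact le_of_mul_le_mul_left this hp
  have h4 : ‖Complex.Gamma a‖ * ρ ≤ C := by
    have := mul_le_mul_of_nonneg_right h3 hρ0.le
    rwa [mul_assoc, inv_mul_cancel₀ hρ0.ne', mul_one] at this
  have h5 : C < ρ * ‖Complex.Gamma a‖ := by
    rw [← div_lt_iff₀ hG]; linarith
  linarith

end Vale.Agent.P139.KU
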