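import Vale.Agent.P139.KU.Evans
import Vale.Agent.P139.KU.Lead

/-!
# Nondegeneracy: `F0` and its radial derivative never vanish together
-/

noncomputable section

open MeasureTheory Set Filter Topology Complex ComplexConjugate

namespace Vale.Agent.P139.KU

/-- If `J a c` and `J (a+1) c` vanish at one point, all derivatives vanish there. -/
lemma J_all_zero {a ζ : ℂ} (c : ℂ) (ha : 0 < a.re) (hζ : 0 < ζ.re) (h0 : J a c ζ = 0)
    (h1 : J (a + 1) c ζ = 0) (n : ℕ) : J (a + n) c ζ = 0 ∧ J (a + n + 1) c ζ = 0 := by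
  induction n with
  | zero => simpa using ⟨h0, h1⟩
  | succ n ih =>
    obtain ⟨i1, i2⟩ := ih
    have han : 0 < (a + n).re := by simp; positivity
    have h := J_low c han hζ
    rw [i1, i2, mul_zero, mul_zero, zero_add] at h
    have hζ0 : I * ζ ≠ 0 := by
      refine mul_ne_zero Complex.I_ne_zero ?_
      rintro rfl; simp at hζ
    have h2 : J (a + n + 2) c ζ = 0 := (mul_eq_zero.1 h.symm).resolve_left hζ0
    push_cast
    rw [← add_assoc]
    exact ⟨i2, by rw [add_assoc, one_add_one_eq_two]; exact h2⟩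

/-- `J a c` and `J (a+1) c` have no common zero. -/
theorem J_ne_or {a : ℂ} (c : ℂ) (ha : 0 < a.re) {ρ : ℝ} (hρ : 0 < ρ) :
    J a c ρ ≠ 0 ∨ J (a + 1) c ρ ≠ 0 := by
  by_contra hcon
  push Not at hcon
  obtain ⟨h0, h1⟩ := hcon
  have hζ : 0 < (ρ : ℂ).re := by simpa using hρ
  have hall := J_all_zero c ha hζ h0 h1
  set U : Set ℂ := {z | 0 < z.re} with hU
  have hUo : IsOpen U := isOpen_lt continuous_const Complex.continuous_re
  have hd : DifferentiableOn ℂ (fun z => J a c z) U := fun z hz =>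
    (hasDerivAt_J c ha hz).differentiableAt.differentiableWithinAt
  obtain ⟨ε, hε, hball⟩ := Metric.isOpen_iff.1 hUo ρ hζ
  have hz : ∀ z ∈ Metric.ball (ρ : ℂ) ε, J a c z = 0 := by
    intro z hz
    have h := Complex.taylorSeries_eq_on_ball (hd.mono hball) hz
    rw [← h]
    refine (tsum_congr fun n => ?_).trans tsum_zero
    rw [show (fun z => J a c z) = J a c from rfl, iteratedDeriv_J c n ha hζ, (hall n).1]
    simp
  have han : AnalyticOnNhd ℂ (fun z => J a c z) U := hd.analyticOnNhd hUo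
  have hUc : IsPreconnected U := (convex_halfSpace_re_gt 0).isPreconnected
  have hev : (fun z => J a c z) =ᶠ[𝓝 (ρ : ℂ)] 0 := by
    filter_upwards [Metric.ball_mem_nhds (ρ : ℂ) hε] with z hz'
    exact hz z hz'
  have hEq := han.eqOn_zero_of_preconnected_of_eventuallyEq_zero hUc hζ hev
  obtain ⟨ρ₀, h1', h2⟩ := J_ne_zero_of_large c ha
  refine h2 ρ₀ le_rfl ?_
  exact hEq (show ((ρ₀ : ℝ) : ℂ) ∈ U by
    rw [hU]; show 0 < ((ρ₀ : ℝ) : ℂ).re; rw [Complex.ofReal_re]; linarith)

/-- `S` and its derivative have no common zero. -/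
theorem S_ne_or {a : ℂ} (b : ℂ) (ha : -1 < a.re) {ρ : ℝ} (hρ : 0 < ρ) :
    S a b ρ ≠ 0 ∨ a * S (a + 1) (b + 1) ρ ≠ 0 := by
  by_contra hcon
  push Not at hcon
  obtain ⟨h0, h1⟩ := hcon
  have hζ : 0 < (ρ : ℂ).re := by simpa using hρ
  rcases eq_or_ne a 0 with rfl | ha0
  · rw [S_zero b hζ] at h0
    exact one_ne_zero h0
  have ha1 : 0 < (a + 1).re := by simp; linarith
  have hG : Gamma (a + 1) ≠ 0 := Complex.Gamma_ne_zero_of_re_pos ha1
  have h1' := (mul_eq_zero.1 h1).resolve_left ha0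
  rw [S_eq_of_pos (b + 1) ha1 hζ, show b + 1 - (a + 1) - 1 = b - a - 1 by ring] at h1'
  have hJ1 : J (a + 1) (b - a - 1) ρ = 0 := (div_eq_zero_iff.1 h1').resolve_right hG
  rw [S, hJ1, mul_zero, zero_add] at h0
  have hIζ : I * (ρ : ℂ) ≠ 0 := mul_ne_zero Complex.I_ne_zero (by exact_mod_cast hρ.ne')
  have hJ2 : J (a + 2) (b - a - 1) ρ = 0 :=
    (mul_eq_zero.1 ((div_eq_zero_iff.1 h0).resolve_right hG)).resolve_left hIζ
  rcases J_ne_or (b - a - 1) ha1 hρ with h | h
  · exact h hJ1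
  · apply h
    rw [add_assoc, one_add_one_eq_two]
    exact hJ2

theorem G_ne_or {a : ℂ} (b : ℂ) (ha : -1 < a.re) {r : ℝ} (hr : 0 < r) :
    G a b r ≠ 0 ∨ dG a b r ≠ 0 := by
  rcases S_ne_or b ha (ρ := r ^ 2 / 4) (by positivity) with h | h
  · left; exact h
  · right
    unfold dG
    have : (r : ℂ) ≠ 0 := by exact_mod_cast hr.ne'
    rw [mul_assoc]
    exact mul_ne_zero (by simpa using this) h

/-- `F0` and `F0'` never vanish together. -/
theorem F0_ne_or {d l : ℕ} {w : ℝ} {lam : ℂ} (h : -1 < lam.re + l / 2) {r : ℝ} (hr : 0 < r) :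
    F0 d l w lam r ≠ 0 ∨ F0' d l w lam r ≠ 0 :=
  G_ne_or _ (by rwa [aE_re]) hr

theorem F0s_ne_or {d l : ℕ} {w : ℝ} {lam : ℂ} (h : -1 < lam.re + l / 2) {r : ℝ} (hr : 0 < r) :
    F0s d l w lam r ≠ 0 ∨ F0s' d l w lam r ≠ 0 := by
  have := F0_ne_or (d := d) (l := l) (w := w) (lam := conj lam) (by simpa using h) hr
  simpa [F0s, F0s'] using this

/-- The Evans function vanishes iff the hard wall 2x2 system has a nontrivial solution. -/
theorem Ev_eq_zero_iff {d l : ℕ} {w R : ℝ} {lam : ℂ} :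
    Ev d l w R lam = 0 ↔ ∃ α β : ℂ, (α ≠ 0 ∨ β ≠ 0) ∧
      α * F0 d l w lam R + β * F0s d l w lam R = 0 ∧
      α * F0' d l w lam R - β * F0s' d l w lam R = 0 := by
  constructor
  · intro h
    unfold Ev at h
    by_cases h1 : F0 d l w lam R = 0 ∧ F0s d l w lam R = 0
    · by_cases h2 : F0' d l w lam R = 0 ∧ F0s' d l w lam R = 0
      · exact ⟨1, 0, Or.inl one_ne_zero, by simp [h1.1], by simp [h2.1]⟩
      · refine ⟨F0s' d l w lam R, F0' d l w lam R, ?_, by simp [h1.1, h1.2], by ring⟩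
        by_contra hc
        push Not at hc
        exact h2 ⟨hc.2, hc.1⟩
    · refine ⟨F0s d l w lam R, -F0 d l w lam R, ?_, by ring, ?_⟩
      · by_contra hc
        push Not at hc
        exact h1 ⟨neg_eq_zero.1 hc.2, hc.1⟩
      · linear_combination h
  · rintro ⟨α, β, hne, h1, h2⟩
    have e1 : α * Ev d l w R lam = 0 := by
      unfold Ev
      linear_combination F0s' d l w lam R * h1 + F0s d l w lam R * h2
    have e2 : β * Ev d l w R lam = 0 := by
      unfold Ev
      linear_combination F0' d l w lam R * h1 - F0 d l w lam R * h2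
    rcases hne with h | h
    · exact (mul_eq_zero.1 e1).resolve_left h
    · exact (mul_eq_zero.1 e2).resolve_left h

end Vale.Agent.P139.KU
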