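import Vale.Agent.P139.KU.Ext

/-!
# Radial slow solutions and the Evans functions of the hard-wall problem

`G a b r = S a b (r²/4)` solves `G'' + ((2b-1)/r + i r/2) G' + i a G = 0` for `Re a > -1`.
`Ev d l w R lam` is `d/dr [F F*]` at `r = R`, `F = G (lam + l/2 - i w) (d/2 + l)`.
-/

noncomputable section

open MeasureTheory Set Filter Topology Complex ComplexConjugate

namespace Vale.Agent.P139.KU

/-- Radial slow solution. -/
def G (a b : ℂ) (r : ℝ) : ℂ := S a b ((r ^ 2 / 4 : ℝ) : ℂ)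

/-- Its derivative. -/
def dG (a b : ℂ) (r : ℝ) : ℂ := -(r / 2) * a * G (a + 1) (b + 1) r

lemma rho_pos {r : ℝ} (hr : 0 < r) : 0 < (((r ^ 2 / 4 : ℝ) : ℂ)).re := by
  rw [Complex.ofReal_re]; positivity

theorem hasDerivAt_G {a : ℂ} (b : ℂ) (ha : -1 < a.re) {r : ℝ} (hr : 0 < r) :
    HasDerivAt (G a b) (dG a b r) r := by
  have h1 := hasDerivAt_S b ha (rho_pos hr)
  have h2 : HasDerivAt (fun r : ℝ => ((r ^ 2 / 4 : ℝ) : ℂ)) (((2 * r / 4 : ℝ) : ℝ) : ℂ) r := by
    have h : HasDerivAt (fun r : ℝ => r ^ 2 / 4) (2 * r / 4) r := by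
      have := (hasDerivAt_pow 2 r).div_const 4
      simpa using this
    exact h.ofReal_comp
  have h := HasDerivAt.comp_of_eq r h1 h2 rfl
  refine h.congr_deriv ?_
  simp only [dG, G]
  push_cast
  ring

theorem hasDerivAt_dG {a : ℂ} (b : ℂ) (ha : -1 < a.re) {r : ℝ} (hr : 0 < r) :
    HasDerivAt (dG a b) (-(((2 * b - 1) / r + I * r / 2) * dG a b r) - I * a * G a b r) r := by
  have ha1 : -1 < (a + 1).re := by simp; linarith
  have h1 := hasDerivAt_G (b + 1) ha1 hr
  have h0 : HasDerivAt (fun r : ℝ => -((r : ℂ) / 2) * a) (-(1 / 2) * a) r :=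
    (((Complex.ofRealCLM.hasDerivAt (x := r)).div_const 2).neg).mul_const a
  have h := h0.mul h1
  have hr0 : (r : ℂ) ≠ 0 := by exact_mod_cast hr.ne'
  refine h.congr_deriv ?_
  have hode := S_ode b ha (rho_pos hr)
  simp only [dG, G] at *
  rw [show a + 1 + 1 = a + 2 by ring, show b + 1 + 1 = b + 2 by ring]
  push_cast at *
  field_simp
  linear_combination (4 : ℂ) * hode

/-- The radial equation. -/
theorem G_ode {a : ℂ} (b : ℂ) (ha : -1 < a.re) {r : ℝ} (hr : 0 < r) :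
    deriv (deriv (G a b)) r + ((2 * b - 1) / r + I * r / 2) * deriv (G a b) r
      + I * a * G a b r = 0 := by
  have e1 : deriv (G a b) =ᶠ[𝓝 r] dG a b := by
    filter_upwards [Ioi_mem_nhds hr] with x hx
    exact (hasDerivAt_G b ha hx).deriv
  rw [e1.deriv_eq, (hasDerivAt_dG b ha hr).deriv, (hasDerivAt_G b ha hr).deriv]
  ring

lemma differentiableAt_G_param {a b : ℂ → ℂ} {x : ℂ} {r : ℝ} (hr : 0 < r)
    (ha : DifferentiableAt ℂ a x) (hb : DifferentiableAt ℂ b x) (h : -1 < (a x).re) :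
    DifferentiableAt ℂ (fun y => G (a y) (b y) r) x := by
  have hS := differentiableAt_S (p := (a x, b x, ((r ^ 2 / 4 : ℝ) : ℂ))) ⟨h, rho_pos hr⟩
  exact DifferentiableAt.comp x (g := fun q : ℂ × ℂ × ℂ => S q.1 q.2.1 q.2.2)
    (f := fun y => ((a y, b y, ((r ^ 2 / 4 : ℝ) : ℂ)) : ℂ × ℂ × ℂ)) hS
    (ha.prodMk (hb.prodMk (differentiableAt_const _)))

lemma continuousAt_G {X : Type*} [TopologicalSpace X] {a b : X → ℂ} {r : X → ℝ} {x : X}
    (hr : 0 < r x) (ha : ContinuousAt a x) (hb : ContinuousAt b x) (hrc : ContinuousAt r x)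
    (h : -1 < (a x).re) : ContinuousAt (fun y => G (a y) (b y) (r y)) x := by
  have hS := (differentiableAt_S (p := (a x, b x, ((r x ^ 2 / 4 : ℝ) : ℂ)))
    ⟨h, rho_pos hr⟩).continuousAt
  have hc : ContinuousAt (fun y => ((a y, b y, ((r y ^ 2 / 4 : ℝ) : ℂ)) : ℂ × ℂ × ℂ)) x := by
    refine ha.prodMk (hb.prodMk ?_)
    exact Complex.continuous_ofReal.continuousAt.comp (by fun_prop)
  exact ContinuousAt.comp (g := fun q : ℂ × ℂ × ℂ => S q.1 q.2.1 q.2.2)
    (f := fun y => ((a y, b y, ((r y ^ 2 / 4 : ℝ) : ℂ)) : ℂ × ℂ × ℂ)) hS hc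

lemma differentiableAt_dG_param {a b : ℂ → ℂ} {x : ℂ} {r : ℝ} (hr : 0 < r)
    (ha : DifferentiableAt ℂ a x) (hb : DifferentiableAt ℂ b x) (h : -1 < (a x).re) :
    DifferentiableAt ℂ (fun y => dG (a y) (b y) r) x := by
  unfold dG
  refine DifferentiableAt.mul ((differentiableAt_const _).mul ha) ?_
  exact differentiableAt_G_param hr (ha.add_const 1) (hb.add_const 1) (by simp; linarith)

lemma continuousAt_dG {X : Type*} [TopologicalSpace X] {a b : X → ℂ} {r : X → ℝ} {x : X}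
    (hr : 0 < r x) (ha : ContinuousAt a x) (hb : ContinuousAt b x) (hrc : ContinuousAt r x)
    (h : -1 < (a x).re) : ContinuousAt (fun y => dG (a y) (b y) (r y)) x := by
  unfold dG
  have h1 : ContinuousAt (fun y => -(((r y : ℝ) : ℂ) / 2)) x :=
    ((Complex.continuous_ofReal.continuousAt.comp hrc).div_const 2).neg
  refine ContinuousAt.mul (h1.mul ha) ?_
  exact continuousAt_G hr (ha.add continuousAt_const) (hb.add continuousAt_const) hrc
    (by simp; linarith)

/-- Kummer parameter of the angular mode `l` at spectral parameter `lam`. -/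
def aE (l : ℕ) (w : ℝ) (lam : ℂ) : ℂ := lam + l / 2 - I * w

/-- Second Kummer parameter. -/
def bE (d l : ℕ) : ℂ := d / 2 + l

/-- slow solution of mode `l` (without the factor `r^l`) -/
def F0 (d l : ℕ) (w : ℝ) (lam : ℂ) (r : ℝ) : ℂ := G (aE l w lam) (bE d l) r

/-- its radial derivative -/
def F0' (d l : ℕ) (w : ℝ) (lam : ℂ) (r : ℝ) : ℂ := dG (aE l w lam) (bE d l) r

/-- Schwarz reflection of the slow solution -/
def F0s (d l : ℕ) (w : ℝ) (lam : ℂ) (r : ℝ) : ℂ := conj (F0 d l w (conj lam) r)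

/-- radial derivative of the reflected solution -/
def F0s' (d l : ℕ) (w : ℝ) (lam : ℂ) (r : ℝ) : ℂ := conj (F0' d l w (conj lam) r)

/-- Evans function of the hard-wall problem in angular degree `l`. -/
def Ev (d l : ℕ) (w R : ℝ) (lam : ℂ) : ℂ :=
  F0' d l w lam R * F0s d l w lam R + F0 d l w lam R * F0s' d l w lam R

lemma aE_re (l : ℕ) (w : ℝ) (lam : ℂ) : (aE l w lam).re = lam.re + l / 2 := by
  simp [aE]

lemma aE_conj_re (l : ℕ) (w : ℝ) (lam : ℂ) : (aE l w (conj lam)).re = lam.re + l / 2 := by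
  simp [aE]

lemma hasDerivAt_F0 {d l : ℕ} {w : ℝ} {lam : ℂ} (h : -1 < lam.re + l / 2) {r : ℝ} (hr : 0 < r) :
    HasDerivAt (F0 d l w lam) (F0' d l w lam r) r :=
  hasDerivAt_G _ (by rwa [aE_re]) hr

lemma hasDerivAt_F0s {d l : ℕ} {w : ℝ} {lam : ℂ} (h : -1 < lam.re + l / 2) {r : ℝ} (hr : 0 < r) :
    HasDerivAt (F0s d l w lam) (F0s' d l w lam r) r := by
  have := hasDerivAt_F0 (d := d) (l := l) (w := w) (lam := conj lam) (by simpa using h) hr
  exact this.star

/-- `Ev` is the derivative of `F F*`. -/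
theorem Ev_eq_deriv {d l : ℕ} {w : ℝ} {lam : ℂ} (h : -1 < lam.re + l / 2) {R : ℝ} (hR : 0 < R) :
    HasDerivAt (fun r => F0 d l w lam r * F0s d l w lam r) (Ev d l w R lam) R :=
  (hasDerivAt_F0 h hR).mul (hasDerivAt_F0s h hR)

/-- The reflection symmetry. -/
theorem Ev_conj (d l : ℕ) (w R : ℝ) (lam : ℂ) : Ev d l w R (conj lam) = conj (Ev d l w R lam) := by
  simp only [Ev, F0s, F0s', Complex.conj_conj, map_add, map_mul]
  ring

lemma differentiableAt_F0 {d l : ℕ} {w : ℝ} {lam : ℂ} (h : -1 < lam.re + l / 2) {r : ℝ}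
    (hr : 0 < r) : DifferentiableAt ℂ (fun lam => F0 d l w lam r) lam :=
  differentiableAt_G_param hr (by unfold aE; fun_prop) (differentiableAt_const _)
    (by rwa [aE_re])

lemma differentiableAt_F0' {d l : ℕ} {w : ℝ} {lam : ℂ} (h : -1 < lam.re + l / 2) {r : ℝ}
    (hr : 0 < r) : DifferentiableAt ℂ (fun lam => F0' d l w lam r) lam :=
  differentiableAt_dG_param hr (by unfold aE; fun_prop) (differentiableAt_const _)
    (by rwa [aE_re])

lemma differentiableAt_F0s {d l : ℕ} {w : ℝ} {lam : ℂ} (h : -1 < lam.re + l / 2) {r : ℝ}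
    (hr : 0 < r) : DifferentiableAt ℂ (fun lam => F0s d l w lam r) lam := by
  have := differentiableAt_F0 (d := d) (l := l) (w := w) (lam := conj lam) (by simpa using h) hr
  have h2 := this.conj_conj
  simpa [Function.comp_def, F0s] using h2

lemma differentiableAt_F0s' {d l : ℕ} {w : ℝ} {lam : ℂ} (h : -1 < lam.re + l / 2) {r : ℝ}
    (hr : 0 < r) : DifferentiableAt ℂ (fun lam => F0s' d l w lam r) lam := by
  have := differentiableAt_F0' (d := d) (l := l) (w := w) (lam := conj lam) (by simpa using h) hr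
  have h2 := this.conj_conj
  simpa [Function.comp_def, F0s'] using h2

/-- `Ev` is holomorphic in `lam` on `Re lam + l/2 > -1`. -/
theorem differentiableAt_Ev {d l : ℕ} {w : ℝ} {lam : ℂ} (h : -1 < lam.re + l / 2) {R : ℝ}
    (hR : 0 < R) : DifferentiableAt ℂ (Ev d l w R) lam :=
  ((differentiableAt_F0' h hR).mul (differentiableAt_F0s h hR)).add
    ((differentiableAt_F0 h hR).mul (differentiableAt_F0s' h hR))

section joint

variable {X : Type*} [TopologicalSpace X] {w r : X → ℝ} {lam : X → ℂ} {x : X} {d l : ℕ}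

/-- joint continuity of `F0` in `(w, lam, r)` -/
theorem continuousAt_F0 (h : -1 < (lam x).re + l / 2) (hr : 0 < r x) (hwc : ContinuousAt w x)
    (hlc : ContinuousAt lam x) (hrc : ContinuousAt r x) :
    ContinuousAt (fun y => F0 d l (w y) (lam y) (r y)) x := by
  have hw' : ContinuousAt (fun y => (w y : ℂ)) x := Complex.continuous_ofReal.continuousAt.comp hwc
  have ha : ContinuousAt (fun y => aE l (w y) (lam y)) x :=
    (hlc.add continuousAt_const).sub (continuousAt_const.mul hw')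
  exact continuousAt_G (a := fun y => aE l (w y) (lam y)) (b := fun _ => bE d l) (r := r) hr ha
    continuousAt_const hrc (by rwa [aE_re])

theorem continuousAt_F0' (h : -1 < (lam x).re + l / 2) (hr : 0 < r x) (hwc : ContinuousAt w x)
    (hlc : ContinuousAt lam x) (hrc : ContinuousAt r x) :
    ContinuousAt (fun y => F0' d l (w y) (lam y) (r y)) x := by
  have hw' : ContinuousAt (fun y => (w y : ℂ)) x := Complex.continuous_ofReal.continuousAt.comp hwc
  have ha : ContinuousAt (fun y => aE l (w y) (lam y)) x :=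
    (hlc.add continuousAt_const).sub (continuousAt_const.mul hw')
  exact continuousAt_dG (a := fun y => aE l (w y) (lam y)) (b := fun _ => bE d l) (r := r) hr ha
    continuousAt_const hrc (by rwa [aE_re])

theorem continuousAt_F0s (h : -1 < (lam x).re + l / 2) (hr : 0 < r x) (hwc : ContinuousAt w x)
    (hlc : ContinuousAt lam x) (hrc : ContinuousAt r x) :
    ContinuousAt (fun y => F0s d l (w y) (lam y) (r y)) x := by
  have h1 := continuousAt_F0 (d := d) (l := l) (lam := fun y => conj (lam y)) (by simpa using h) hr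
    hwc (Complex.continuous_conj.continuousAt.comp hlc) hrc
  exact Complex.continuous_conj.continuousAt.comp h1

theorem continuousAt_F0s' (h : -1 < (lam x).re + l / 2) (hr : 0 < r x) (hwc : ContinuousAt w x)
    (hlc : ContinuousAt lam x) (hrc : ContinuousAt r x) :
    ContinuousAt (fun y => F0s' d l (w y) (lam y) (r y)) x := by
  have h1 := continuousAt_F0' (d := d) (l := l) (lam := fun y => conj (lam y)) (by simpa using h) hr
    hwc (Complex.continuous_conj.continuousAt.comp hlc) hrc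
  exact Complex.continuous_conj.continuousAt.comp h1

/-- joint continuity of the Evans function in `(w, R, lam)` -/
theorem continuousAt_Ev (h : -1 < (lam x).re + l / 2) (hr : 0 < r x) (hwc : ContinuousAt w x)
    (hlc : ContinuousAt lam x) (hrc : ContinuousAt r x) :
    ContinuousAt (fun y => Ev d l (w y) (r y) (lam y)) x :=
  ((continuousAt_F0' h hr hwc hlc hrc).mul (continuousAt_F0s h hr hwc hlc hrc)).add
    ((continuousAt_F0 h hr hwc hlc hrc).mul (continuousAt_F0s' h hr hwc hlc hrc))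

end joint

/-- For a jointly continuous family of holomorphic functions the derivative is jointly
continuous. -/
theorem continuousAt_deriv_family {X : Type*} [TopologicalSpace X] {f : X → ℂ → ℂ} {x₀ : X}
    {z₀ : ℂ} {U : Set ℂ} (hU : IsOpen U) (hz₀ : z₀ ∈ U)
    (hd : ∀ᶠ x in 𝓝 x₀, DifferentiableOn ℂ (f x) U)
    (hc : ∀ z ∈ U, ContinuousAt (fun q : X × ℂ => f q.1 q.2) (x₀, z)) :
    ContinuousAt (fun q : X × ℂ => deriv (f q.1) q.2) (x₀, z₀) := by
  obtain ⟨ρ', hρ', hρU⟩ := Metric.isOpen_iff.1 hU z₀ hz₀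
  obtain ⟨ρ, hρ, hρ2⟩ : ∃ ρ : ℝ, 0 < ρ ∧ Metric.closedBall z₀ (2 * ρ) ⊆ U :=
    ⟨ρ' / 4, by positivity, (Metric.closedBall_subset_ball (by linarith)).trans hρU⟩
  have hunif : ∀ ε > 0, ∀ᶠ x in 𝓝 x₀, ∀ z ∈ Metric.closedBall z₀ (2 * ρ),
      ‖f x z - f x₀ z‖ < ε := by
    intro ε hε
    have hK : IsCompact (Metric.closedBall z₀ (2 * ρ)) := isCompact_closedBall _ _
    have hloc : ∀ z ∈ Metric.closedBall z₀ (2 * ρ), ∃ A ∈ 𝓝 z, ∃ V ∈ 𝓝 x₀, ∀ z' ∈ A,
        ∀ x ∈ V, ‖f x z' - f x₀ z'‖ < ε := by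
      intro z hz
      have hb := (hc z (hρ2 hz)).preimage_mem_nhds (Metric.ball_mem_nhds _ (half_pos hε))
      rw [nhds_prod_eq] at hb
      obtain ⟨V, hV, A, hA, hVA⟩ := Filter.mem_prod_iff.1 hb
      refine ⟨A, hA, V, hV, fun z' hz' x hx => ?_⟩
      have e1 : f x z' ∈ Metric.ball (f x₀ z) (ε / 2) := hVA (show (x, z') ∈ V ×ˢ A from ⟨hx, hz'⟩)
      have e2 : f x₀ z' ∈ Metric.ball (f x₀ z) (ε / 2) :=
        hVA (show (x₀, z') ∈ V ×ˢ A from ⟨mem_of_mem_nhds hV, hz'⟩)
      rw [Metric.mem_ball, dist_eq_norm] at e1 e2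
      calc ‖f x z' - f x₀ z'‖ = ‖(f x z' - f x₀ z) - (f x₀ z' - f x₀ z)‖ := by congr 1; ring
        _ ≤ _ := norm_sub_le _ _
        _ < ε := by linarith
    choose! A hA V hV hAV using hloc
    obtain ⟨t, ht, hcov⟩ := hK.elim_nhds_subcover A hA
    have : (⋂ z ∈ t, V z) ∈ 𝓝 x₀ := (Filter.biInter_finset_mem t).2 fun z hz => hV z (ht z hz)
    filter_upwards [this] with x hx z hz
    obtain ⟨z₁, hz₁, hzA⟩ := mem_iUnion₂.1 (hcov hz)
    exact hAV z₁ (ht z₁ hz₁) z hzA x (mem_iInter₂.1 hx z₁ hz₁)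
  have hd₀ : DifferentiableOn ℂ (f x₀) U := hd.self_of_nhds
  have hcont : ContinuousAt (deriv (f x₀)) z₀ :=
    (hd₀.deriv hU).continuousOn.continuousAt (hU.mem_nhds hz₀)
  rw [ContinuousAt, Metric.tendsto_nhds]
  intro ε hε
  have h1 := (hunif (ε / 2 * ρ) (by positivity)).prod_inl_nhds z₀
  have h2 := (hcont.eventually (Metric.ball_mem_nhds _ (half_pos hε))).prod_inr_nhds x₀
  have h3 := hd.prod_inl_nhds z₀
  have h4 : ∀ᶠ q : X × ℂ in 𝓝 (x₀, z₀), q.2 ∈ Metric.ball z₀ ρ :=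
    (continuous_snd.tendsto (x₀, z₀)).eventually (Metric.ball_mem_nhds z₀ hρ)
  filter_upwards [h1, h2, h3, h4] with q hq1 hq2 hq3 hq4
  obtain ⟨x, z⟩ := q
  simp only at hq1 hq2 hq3 hq4 ⊢
  have hq4' : dist z z₀ < ρ := hq4
  have hsub : Metric.closedBall z ρ ⊆ Metric.closedBall z₀ (2 * ρ) := by
    intro y hy
    rw [Metric.mem_closedBall] at *
    calc dist y z₀ ≤ dist y z + dist z z₀ := dist_triangle _ _ _
      _ ≤ 2 * ρ := by linarith
  have hdx : ∀ y ∈ Metric.closedBall z ρ, DifferentiableAt ℂ (f x) y := fun y hy =>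
    hq3.differentiableAt (hU.mem_nhds (hρ2 (hsub hy)))
  have hdx₀ : ∀ y ∈ Metric.closedBall z ρ, DifferentiableAt ℂ (f x₀) y := fun y hy =>
    hd₀.differentiableAt (hU.mem_nhds (hρ2 (hsub hy)))
  have hcauchy : ‖deriv (fun y => f x y - f x₀ y) z‖ ≤ (ε / 2 * ρ) / ρ := by
    apply Complex.norm_deriv_le_of_forall_mem_sphere_norm_le hρ
    · refine DifferentiableOn.diffContOnCl ?_
      rw [closure_ball _ hρ.ne']
      exact fun y hy => ((hdx y hy).sub (hdx₀ y hy)).differentiableWithinAt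
    · intro y hy
      exact (hq1 y (hsub (Metric.sphere_subset_closedBall hy))).le
  have hz : z ∈ Metric.closedBall z ρ := Metric.mem_closedBall_self hρ.le
  rw [deriv_fun_sub (hdx z hz) (hdx₀ z hz), mul_div_cancel_right₀ _ hρ.ne'] at hcauchy
  rw [dist_eq_norm] at hq2
  rw [dist_eq_norm]
  calc ‖deriv (f x) z - deriv (f x₀) z₀‖
      = ‖(deriv (f x) z - deriv (f x₀) z) + (deriv (f x₀) z - deriv (f x₀) z₀)‖ := by
        congr 1; ring
    _ ≤ _ := norm_add_le _ _
    _ < ε := by linarith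

/-- The derivative of the Evans function in `lam` is jointly continuous in `(w, R, lam)`. -/
theorem continuousAt_deriv_Ev {d l : ℕ} {w R : ℝ} {lam : ℂ} (h : -1 < lam.re + l / 2)
    (hR : 0 < R) :
    ContinuousAt (fun q : (ℝ × ℝ) × ℂ => deriv (Ev d l q.1.1 q.1.2) q.2) ((w, R), lam) := by
  have hU : IsOpen {z : ℂ | -1 < z.re + l / 2} :=
    isOpen_lt continuous_const (Complex.continuous_re.add continuous_const)
  refine continuousAt_deriv_family (X := ℝ × ℝ) (f := fun q => Ev d l q.1 q.2) (U := {z : ℂ | -1 < z.re + l / 2})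
    hU h ?_ ?_
  · have : ∀ᶠ q : ℝ × ℝ in 𝓝 (w, R), 0 < q.2 :=
      (continuous_snd.tendsto (w, R)).eventually (lt_mem_nhds hR)
    filter_upwards [this] with q hq z hz
    exact (differentiableAt_Ev (d := d) (l := l) (w := q.1) hz hq).differentiableWithinAt
  · intro z hz
    exact continuousAt_Ev (X := (ℝ × ℝ) × ℂ) (w := fun q => q.1.1) (r := fun q => q.1.2)
      (lam := fun q => q.2) (x := ((w, R), z)) hz hR (by fun_prop) (by fun_prop) (by fun_prop)

/-! ### The hard wall profile and the symmetry zeros -/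

/-- The p = infinity profile outside the core (unnormalised). -/
def Qinf (d : ℕ) (w : ℝ) (r : ℝ) : ℂ := F0 d 0 w 0 r

/-- its derivative; the profile condition is `Qinf' d w R = 0`. -/
def Qinf' (d : ℕ) (w : ℝ) (r : ℝ) : ℂ := F0' d 0 w 0 r

lemma Qinf'_eq (d : ℕ) (w r : ℝ) :
    Qinf' d w r = (r / 2) * (I * w) * G (1 - I * w) (d / 2 + 1) r := by
  simp only [Qinf', F0', dG, aE, bE]
  push_cast
  rw [show (0 : ℂ) + 0 / 2 - I * w + 1 = 1 - I * w by ring,
    show (d : ℂ) / 2 + 0 + 1 = d / 2 + 1 by ring]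
  ring

/-- `lam = 0`, `l = 0` (phase invariance). -/
theorem Ev_zero {d : ℕ} {w R : ℝ} (hQ : Qinf' d w R = 0) : Ev d 0 w R 0 = 0 := by
  have h0 : F0' d 0 w 0 R = 0 := hQ
  simp only [Ev, F0s, F0s', map_zero, h0, mul_zero, zero_mul, add_zero]

/-- `lam = 1/2`, `l = 1` (space translations). -/
theorem Ev_half {d : ℕ} {w R : ℝ} (hw : w ≠ 0) (hR : 0 < R) (hQ : Qinf' d w R = 0) :
    Ev d 1 w R (1 / 2) = 0 := by
  rw [Qinf'_eq] at hQ
  have hne : ((R : ℂ) / 2) * (I * w) ≠ 0 := by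
    have : (R : ℂ) ≠ 0 := by exact_mod_cast hR.ne'
    have h2 : (w : ℂ) ≠ 0 := by exact_mod_cast hw
    simp [this, h2]
  have hG := (mul_eq_zero.1 hQ).resolve_left hne
  have h0 : F0 d 1 w (1 / 2) R = 0 := by
    simp only [F0, aE, bE]
    push_cast
    rw [show (1 : ℂ) / 2 + 1 / 2 - I * w = 1 - I * w by ring]
    exact hG
  have hc : conj (1 / 2 : ℂ) = 1 / 2 := by
    rw [Complex.conj_eq_iff_im]; norm_num
  simp only [Ev, F0s, F0s', hc, h0, map_zero, mul_zero, zero_mul, add_zero]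

/-- The value of `F0` at `lam = 1`, `l = 0`, in terms of the profile. -/
lemma kappa_mul_F0_one {d : ℕ} {w R : ℝ} (hw : w ≠ 0) (hR : 0 < R) (hQ : Qinf' d w R = 0) :
    (w + I * (1 - d / 2)) * F0 d 0 w 1 R = Qinf d w R ∧
      (w + I * (1 - d / 2)) * F0' d 0 w 1 R = -(R / 2) * I * Qinf d w R := by
  rw [Qinf'_eq] at hQ
  have hne : ((R : ℂ) / 2) * (I * w) ≠ 0 := by
    have : (R : ℂ) ≠ 0 := by exact_mod_cast hR.ne'
    have h2 : (w : ℂ) ≠ 0 := by exact_mod_cast hw
    simp [this, h2]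
  have hG := (mul_eq_zero.1 hQ).resolve_left hne
  unfold G at hG
  have hζ := rho_pos hR
  have ha : -1 < (-I * w : ℂ).re := by simp
  have ha1 : -1 < (1 - I * w : ℂ).re := by simp
  have c1 := S_contig (a := -I * w) (d / 2) ha hζ
  have c2 := S_contig (a := 1 - I * w) (d / 2 + 1) ha1 hζ
  have c3 := S_rec (a := -I * w) (d / 2) ha hζ
  rw [show (-I * w + 1 : ℂ) = 1 - I * w by ring] at c1 c3
  rw [show (-I * w + 2 : ℂ) = 2 - I * w by ring] at c3
  rw [show (1 - I * w + 1 : ℂ) = 2 - I * w by ring, show ((d : ℂ) / 2 + 1 + 1) = d / 2 + 2 by ring] at c2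
  rw [hG] at c1 c2 c3
  simp only [Qinf, F0, F0', dG, G, aE, bE]
  push_cast at *
  rw [show (0 : ℂ) + 0 / 2 - I * w = -I * w by ring, show (1 : ℂ) + 0 / 2 - I * w = 1 - I * w by ring,
    show (d : ℂ) / 2 + 0 = d / 2 by ring, show (1 - I * w + 1 : ℂ) = 2 - I * w by ring]
  constructor
  · rw [c1]
    linear_combination (w * S (1 - I * w) (d / 2) (R ^ 2 / 4)) * Complex.I_sq
  · have hw1 : (1 - I * w : ℂ) ≠ 0 := by
      intro h
      have := congrArg Complex.re h
      simp at this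
    rw [c3]
    linear_combination ((R / 2) * (1 - I * w)) * c2 - ((R / 2) * (1 - I * w) *
      (w * S (2 - I * w) (d / 2 + 1) (R ^ 2 / 4) -
        R ^ 2 / 4 * S (2 - I * w) (d / 2 + 2) (R ^ 2 / 4))) * Complex.I_sq

/-- `lam = 1`, `l = 0` (time translation). -/
theorem Ev_one {d : ℕ} {w R : ℝ} (hw : w ≠ 0) (hR : 0 < R) (hQ : Qinf' d w R = 0) :
    Ev d 0 w R 1 = 0 := by
  obtain ⟨h1, h2⟩ := kappa_mul_F0_one hw hR hQ
  have hk : (w + I * (1 - d / 2) : ℂ) ≠ 0 := by
    intro h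
    have := congrArg Complex.re h
    simp at this
    exact hw this
  have e1 : F0' d 0 w 1 R = -(R / 2) * I * F0 d 0 w 1 R := by
    have : (w + I * (1 - d / 2) : ℂ) * F0' d 0 w 1 R =
        (w + I * (1 - d / 2)) * (-(R / 2) * I * F0 d 0 w 1 R) := by
      rw [h2, ← h1]; ring
    exact mul_left_cancel₀ hk this
  simp only [Ev, F0s, F0s', map_one, e1, map_mul, map_neg, map_div₀, Complex.conj_ofReal,
    Complex.conj_I]
  have : conj (2 : ℂ) = 2 := by rw [Complex.conj_eq_iff_im]; norm_num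
  rw [this]
  ring

end Vale.Agent.P139.KU
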