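import Mathlib

/-!
# The slow solution of the exterior problem (Kummer's function U as a Laplace integral)

`J a c ζ = ∫_0^∞ e^{-ζ s} s^{a-1} (1 + i s)^c ds`, for `0 < Re a`, `0 < Re ζ`.
In classical notation `U(a, a+c+1, -i ζ) = i^a / Γ(a) * J a c ζ`.
-/

noncomputable section

open MeasureTheory Set Filter Topology Complex

namespace Vale.Agent.P139.KU

/-- The integrand. -/
def ker (a c ζ : ℂ) (s : ℝ) : ℂ :=
  cexp (-(ζ * s)) * (s : ℂ) ^ (a - 1) * (1 + I * s) ^ c

/-- The Laplace integral. -/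
def J (a c ζ : ℂ) : ℂ := ∫ s in Ioi (0 : ℝ), ker a c ζ s

lemma one_add_re (s : ℝ) : (1 + I * (s : ℂ)).re = 1 := by simp

lemma one_add_ne (s : ℝ) : (1 + I * (s : ℂ)) ≠ 0 := by
  intro h
  have := congrArg Complex.re h
  simp at this

lemma one_add_slit (s : ℝ) : (1 + I * (s : ℂ)) ∈ slitPlane := by
  rw [mem_slitPlane_iff]; left; simp

lemma norm_one_add_ge (s : ℝ) : 1 ≤ ‖(1 + I * (s : ℂ))‖ := by
  have := Complex.abs_re_le_norm (1 + I * (s : ℂ))
  simpa using this

lemma norm_one_add_le {s : ℝ} (hs : 0 ≤ s) : ‖(1 + I * (s : ℂ))‖ ≤ 1 + s := by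
  calc ‖(1 + I * (s : ℂ))‖ ≤ ‖(1 : ℂ)‖ + ‖I * (s : ℂ)‖ := norm_add_le _ _
    _ = 1 + s := by simp [abs_of_nonneg hs]

lemma arg_one_add (s : ℝ) : |arg (1 + I * (s : ℂ))| ≤ Real.pi / 2 := by
  rw [Complex.abs_arg_le_pi_div_two_iff]; simp

/-- Bound of the second factor. -/
lemma norm_one_add_cpow_le (c : ℂ) {s : ℝ} (hs : 0 ≤ s) :
    ‖(1 + I * (s : ℂ)) ^ c‖ ≤ Real.exp (|c.im| * (Real.pi / 2)) * (1 + s) ^ |c.re| := by
  rw [Complex.norm_cpow_of_ne_zero (one_add_ne s)]
  rw [div_eq_mul_inv, ← Real.exp_neg, mul_comm]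
  have h1 := norm_one_add_ge s
  have h2 := norm_one_add_le hs
  have hA : Real.exp (-(arg (1 + I * (s : ℂ)) * c.im)) ≤ Real.exp (|c.im| * (Real.pi / 2)) := by
    apply Real.exp_le_exp.mpr
    calc -(arg (1 + I * (s : ℂ)) * c.im) ≤ |arg (1 + I * (s : ℂ)) * c.im| := neg_le_abs _
      _ = |arg (1 + I * (s : ℂ))| * |c.im| := abs_mul _ _
      _ ≤ (Real.pi / 2) * |c.im| := by
        apply mul_le_mul_of_nonneg_right (arg_one_add s) (abs_nonneg _)
      _ = |c.im| * (Real.pi / 2) := mul_comm _ _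
  have hB : ‖(1 + I * (s : ℂ))‖ ^ c.re ≤ (1 + s) ^ |c.re| := by
    calc ‖(1 + I * (s : ℂ))‖ ^ c.re ≤ ‖(1 + I * (s : ℂ))‖ ^ |c.re| :=
          Real.rpow_le_rpow_of_exponent_le h1 (le_abs_self _)
      _ ≤ (1 + s) ^ |c.re| := Real.rpow_le_rpow (by linarith) h2 (abs_nonneg _)
  exact mul_le_mul hA hB (Real.rpow_nonneg (by linarith) _) (Real.exp_pos _).le

lemma norm_ker_le (a c ζ : ℂ) {s : ℝ} (hs : 0 < s) :
    ‖ker a c ζ s‖ ≤ Real.exp (|c.im| * (Real.pi / 2)) *
      (Real.exp (-(ζ.re * s)) * s ^ (a.re - 1) * (1 + s) ^ |c.re|) := by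
  unfold ker
  rw [norm_mul, norm_mul, Complex.norm_exp, Complex.norm_cpow_eq_rpow_re_of_pos hs]
  have h := norm_one_add_cpow_le c hs.le
  have e1 : (-(ζ * (s : ℂ))).re = -(ζ.re * s) := by simp
  rw [e1, Complex.sub_re, Complex.one_re]
  calc Real.exp (-(ζ.re * s)) * s ^ (a.re - 1) * ‖(1 + I * (s : ℂ)) ^ c‖
      ≤ Real.exp (-(ζ.re * s)) * s ^ (a.re - 1) *
        (Real.exp (|c.im| * (Real.pi / 2)) * (1 + s) ^ |c.re|) := by gcongr
    _ = _ := by ring

/-- An integrable majorant. -/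
lemma majorant_integrable {α κ : ℝ} (m : ℝ) (hα : 0 < α) (hκ : 0 < κ) :
    IntegrableOn (fun s : ℝ => Real.exp (-(κ * s)) * s ^ (α - 1) * (1 + s) ^ m) (Ioi 0) := by
  -- (1+s)^m ≤ C * exp (κ/2 * s)
  obtain ⟨C, hC0, hC⟩ : ∃ C : ℝ, 0 < C ∧ ∀ s : ℝ, 0 ≤ s → (1 + s) ^ m ≤ C * Real.exp (κ / 2 * s) := by
    have ht : Tendsto (fun x : ℝ => x ^ m * Real.exp (-(κ / 2) * x)) atTop (𝓝 0) :=
      tendsto_rpow_mul_exp_neg_mul_atTop_nhds_zero m (κ / 2) (by positivity)
    have hb : ∃ C : ℝ, ∀ x ∈ Ici (1 : ℝ), x ^ m * Real.exp (-(κ / 2) * x) ≤ C := by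
      have hcont : ContinuousOn (fun x : ℝ => x ^ m * Real.exp (-(κ / 2) * x)) (Ici 1) := by
        apply ContinuousOn.mul
        · apply ContinuousOn.rpow_const continuousOn_id
          intro x hx; left; simp at hx ⊢; linarith
        · exact (Real.continuous_exp.comp (by fun_prop)).continuousOn
      have hev := (ht.eventually (gt_mem_nhds (zero_lt_one)))
      obtain ⟨N, hN⟩ := eventually_atTop.mp hev
      have hcomp : IsCompact (Icc (1 : ℝ) (max 1 N)) := isCompact_Icc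
      obtain ⟨M, hM⟩ := (hcomp.image_of_continuousOn
        (hcont.mono (fun x hx => hx.1))).bddAbove
      refine ⟨max M 1, fun x hx => ?_⟩
      by_cases hxN : x ≤ max 1 N
      · exact le_max_of_le_left (hM ⟨x, ⟨hx, hxN⟩, rfl⟩)
      · push Not at hxN
        exact le_max_of_le_right (hN x ((le_max_right _ _).trans hxN.le)).le
    obtain ⟨C, hC⟩ := hb
    refine ⟨max C 1 * Real.exp (κ / 2), by positivity, fun s hs => ?_⟩
    have h1 := hC (1 + s) (by simp; linarith)
    have h2 : (1 + s) ^ m = ((1 + s) ^ m * Real.exp (-(κ / 2) * (1 + s))) *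
        Real.exp (κ / 2 * (1 + s)) := by
      rw [mul_assoc, ← Real.exp_add]; simp
    rw [h2]
    calc ((1 + s) ^ m * Real.exp (-(κ / 2) * (1 + s))) * Real.exp (κ / 2 * (1 + s))
        ≤ max C 1 * Real.exp (κ / 2 * (1 + s)) := by
          apply mul_le_mul_of_nonneg_right (h1.trans (le_max_left _ _)) (Real.exp_pos _).le
      _ = max C 1 * Real.exp (κ / 2) * Real.exp (κ / 2 * s) := by
          rw [mul_assoc, ← Real.exp_add]; ring_nf
  have hG : IntegrableOn (fun s : ℝ => C * (s ^ (α - 1) * Real.exp (-(κ / 2) * s))) (Ioi 0) := by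
    have := integrableOn_rpow_mul_exp_neg_mul_rpow (s := α - 1) (p := 1) (b := κ / 2)
      (by linarith) (by norm_num) (by positivity)
    simp only [Real.rpow_one] at this
    exact Integrable.const_mul this C
  refine Integrable.mono' hG ?_ ?_
  · apply Measurable.aestronglyMeasurable
    fun_prop
  · refine (ae_restrict_iff' measurableSet_Ioi).mpr (Eventually.of_forall fun s hs => ?_)
    have hs' : (0 : ℝ) < s := hs
    rw [Real.norm_of_nonneg (by positivity)]
    calc Real.exp (-(κ * s)) * s ^ (α - 1) * (1 + s) ^ m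
        ≤ Real.exp (-(κ * s)) * s ^ (α - 1) * (C * Real.exp (κ / 2 * s)) := by
          gcongr; exact hC s hs'.le
      _ = C * (s ^ (α - 1) * Real.exp (-(κ / 2) * s)) := by
          have : Real.exp (-(κ * s)) * Real.exp (κ / 2 * s) = Real.exp (-(κ / 2) * s) := by
            rw [← Real.exp_add]; ring_nf
          rw [← this]; ring

lemma measurable_ker (a c ζ : ℂ) : Measurable (ker a c ζ) := by
  unfold ker
  fun_prop

lemma continuousOn_ker (a c ζ : ℂ) : ContinuousOn (ker a c ζ) (Ioi 0) := by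
  unfold ker
  apply ContinuousOn.mul
  apply ContinuousOn.mul
  · fun_prop
  · intro s hs
    apply ContinuousAt.continuousWithinAt
    refine ContinuousAt.cpow continuous_ofReal.continuousAt continuousAt_const ?_
    have hs' : (0 : ℝ) < s := hs
    rw [mem_slitPlane_iff]; left; simpa using hs'
  · intro s hs
    apply ContinuousAt.continuousWithinAt
    exact ContinuousAt.cpow (by fun_prop) continuousAt_const (one_add_slit s)

/-- Integrability of the kernel. -/
lemma integrableOn_ker {a ζ : ℂ} (c : ℂ) (ha : 0 < a.re) (hζ : 0 < ζ.re) :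
    IntegrableOn (ker a c ζ) (Ioi 0) := by
  have h := (majorant_integrable |c.re| ha hζ).const_mul
    (Real.exp (|c.im| * (Real.pi / 2)))
  refine Integrable.mono' h (measurable_ker a c ζ).aestronglyMeasurable ?_
  exact (ae_restrict_iff' measurableSet_Ioi).mpr
    (Eventually.of_forall fun s hs => norm_ker_le a c ζ hs)

end Vale.Agent.P139.KU
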