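import Vale.Agent.P139.KU.Rec

/-!
# The slow solution as a function of the radius `r`, `ρ = r^2/4`
-/

noncomputable section

open MeasureTheory Set Filter Topology Complex

namespace Vale.Agent.P139.KU

/-- The slow solution in the radial variable. -/
def F (a c : ℂ) (r : ℝ) : ℂ := J a c ((r ^ 2 / 4 : ℝ) : ℂ)

lemma hasDerivAt_F {a : ℂ} (c : ℂ) (ha : 0 < a.re) {r : ℝ} (hr : 0 < r) :
    HasDerivAt (F a c) (-((r : ℂ) / 2) * F (a + 1) c r) r := by
  have hρ : 0 < r ^ 2 / 4 := by positivity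
  have h1 := hasDerivAt_J_real c ha hρ
  have h2 : HasDerivAt (fun x : ℝ => x ^ 2 / 4) (r / 2) r := by
    have := ((hasDerivAt_id r).pow 2).div_const 4
    refine this.congr_deriv ?_
    simp; ring
  have h3 := HasDerivAt.scomp r h1 h2
  refine h3.congr_deriv ?_
  unfold F
  rw [Complex.real_smul]
  push_cast
  ring

lemma hasDerivAt_F' {a : ℂ} (c : ℂ) (ha : 0 < a.re) {r : ℝ} (hr : 0 < r) :
    HasDerivAt (fun x : ℝ => -((x : ℂ) / 2) * F (a + 1) c x)
      (-(1 / 2) * F (a + 1) c r + ((r : ℂ) ^ 2 / 4) * F (a + 2) c r) r := by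
  have ha1 : 0 < (a + 1).re := by simp; linarith
  have h1 := hasDerivAt_F c ha1 hr
  have h2 : HasDerivAt (fun x : ℝ => -((x : ℂ) / 2)) (-(1 / 2)) r := by
    have := ((hasDerivAt_id (r : ℂ)).div_const 2).fun_neg.comp_ofReal
    simpa using this
  refine (h2.mul h1).congr_deriv ?_
  rw [show a + 1 + 1 = a + 2 by ring]
  ring

lemma deriv_F {a : ℂ} (c : ℂ) (ha : 0 < a.re) {r : ℝ} (hr : 0 < r) :
    deriv (F a c) r = -((r : ℂ) / 2) * F (a + 1) c r := (hasDerivAt_F c ha hr).deriv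

lemma deriv2_F {a : ℂ} (c : ℂ) (ha : 0 < a.re) {r : ℝ} (hr : 0 < r) :
    deriv (deriv (F a c)) r =
      -(1 / 2) * F (a + 1) c r + ((r : ℂ) ^ 2 / 4) * F (a + 2) c r := by
  have heq : deriv (F a c) =ᶠ[𝓝 r] fun x : ℝ => -((x : ℂ) / 2) * F (a + 1) c x := by
    filter_upwards [eventually_gt_nhds hr] with x hx
    exact deriv_F c ha hx
  rw [heq.deriv_eq]
  exact (hasDerivAt_F' c ha hr).deriv

/-- The radial equation `F'' + ((2b-1)/r + i r/2) F' + i a F = 0`, `b = a + c + 1`. -/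
theorem F_ode {a : ℂ} (c : ℂ) (ha : 0 < a.re) {r : ℝ} (hr : 0 < r) :
    deriv (deriv (F a c)) r + ((2 * (a + c + 1) - 1) / r + I * r / 2) * deriv (F a c) r +
      I * a * F a c r = 0 := by
  rw [deriv2_F c ha hr, deriv_F c ha hr]
  have hρ : 0 < r ^ 2 / 4 := by positivity
  have h := J_ode (ζ := ((r ^ 2 / 4 : ℝ) : ℂ)) c ha (by rw [ofReal_re]; exact hρ)
  have hr' : (r : ℂ) ≠ 0 := by exact_mod_cast hr.ne'
  unfold F
  push_cast at h ⊢
  have e : ((2 * (a + c + 1) - 1) / (r : ℂ) + I * r / 2) * (-((r : ℂ) / 2) *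
      J (a + 1) c ((r : ℂ) ^ 2 / 4)) =
      -((2 * (a + c + 1) - 1) / 2 + I * r ^ 2 / 4) * J (a + 1) c ((r : ℂ) ^ 2 / 4) := by
    field_simp
    ring
  rw [e]
  linear_combination h

/-- All radial derivatives exist: `F a c` is smooth on `(0,∞)`. -/
theorem contDiffOn_F {a : ℂ} (c : ℂ) (ha : 0 < a.re) : ContDiffOn ℝ ⊤ (F a c) (Ioi 0) := by
  have hJ : DifferentiableOn ℂ (J a c) {z : ℂ | 0 < z.re} := fun z hz =>
    (differentiableAt_J c ha hz).differentiableWithinAt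
  have hopen : IsOpen {z : ℂ | 0 < z.re} := isOpen_lt continuous_const Complex.continuous_re
  have hA : AnalyticOnNhd ℂ (J a c) {z : ℂ | 0 < z.re} := hJ.analyticOnNhd hopen
  have hC : ContDiffOn ℝ ⊤ (J a c) {z : ℂ | 0 < z.re} := by
    intro z hz
    exact ((hA z hz).contDiffAt (n := ⊤)).restrict_scalars ℝ |>.contDiffWithinAt
  unfold F
  refine ContDiffOn.comp (t := {z : ℂ | 0 < z.re}) hC ?_ ?_
  · exact (Complex.ofRealCLM.contDiff.comp ((contDiff_id.pow 2).div_const 4)).contDiffOn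
  · intro r hr
    have hr' : (0 : ℝ) < r := hr
    show 0 < (((r ^ 2 / 4 : ℝ) : ℂ)).re
    rw [ofReal_re]; positivity

end Vale.Agent.P139.KU
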