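import Vale.Agent.P139.KU.ParD
import Vale.Agent.P139.H901.Slow

/-!
# The slow solution `Phi l a c r = r^l J a c (r^2/4)` and its parameter derivative

They belong to the class `SB r0 k` of `H901/Slow.lean` for all `k` and `r0 > 0`.
-/

noncomputable section

open MeasureTheory Set Filter Topology Complex
open scoped ContDiff

namespace Vale.Agent.P139.KU

open Vale.Agent.P139.H901

/-- A function of `ρ = r^2/4` multiplied by `r^n`. -/
def rad (n : ℕ) (g : ℂ → ℂ) (r : ℝ) : ℂ := (r : ℂ) ^ n * g ((r ^ 2 / 4 : ℝ) : ℂ)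

lemma rad_contDiffOn (n : ℕ) {g : ℂ → ℂ} (hg : DifferentiableOn ℂ g {z : ℂ | 0 < z.re}) :
    ContDiffOn ℝ ∞ (rad n g) (Ioi 0) := by
  have hopen : IsOpen {z : ℂ | 0 < z.re} := isOpen_lt continuous_const Complex.continuous_re
  have hA : AnalyticOnNhd ℂ g {z : ℂ | 0 < z.re} := hg.analyticOnNhd hopen
  have hC : ContDiffOn ℝ ∞ g {z : ℂ | 0 < z.re} := by
    intro z hz
    exact ((hA z hz).contDiffAt (n := ∞)).restrict_scalars ℝ |>.contDiffWithinAt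
  unfold rad
  refine ContDiffOn.mul ?_ ?_
  · exact (smooth_ofReal.pow n).contDiffOn
  · refine ContDiffOn.comp (t := {z : ℂ | 0 < z.re}) hC ?_ ?_
    · exact (Complex.ofRealCLM.contDiff.comp ((contDiff_id.pow 2).div_const 4)).contDiffOn
    · intro r hr
      have hr' : (0 : ℝ) < r := hr
      show 0 < (((r ^ 2 / 4 : ℝ) : ℂ)).re
      rw [ofReal_re]; positivity

lemma hasDerivAt_rad (n : ℕ) {g : ℂ → ℂ} {g' : ℂ} {r : ℝ}
    (hg : HasDerivAt g g' ((r ^ 2 / 4 : ℝ) : ℂ)) :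
    HasDerivAt (rad n g) ((n : ℂ) * (r : ℂ) ^ (n - 1) * g ((r ^ 2 / 4 : ℝ) : ℂ) +
      (r : ℂ) ^ n * ((r / 2 : ℂ) * g')) r := by
  have h1 := hasDerivAt_ofReal_pow n r
  have h2 : HasDerivAt (fun x : ℝ => (((x ^ 2 / 4 : ℝ)) : ℂ)) (r / 2 : ℂ) r := by
    have h3 : HasDerivAt (fun x : ℝ => x ^ 2 / 4) (r / 2) r := by
      have := ((hasDerivAt_id r).pow 2).div_const 4
      refine this.congr_deriv ?_
      simp; ring
    have := h3.ofReal_comp
    refine this.congr_deriv ?_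
    push_cast; ring
  have h4 : HasDerivAt (fun x : ℝ => g (((x ^ 2 / 4 : ℝ)) : ℂ)) ((r / 2 : ℂ) * g') r := by
    have := HasDerivAt.scomp r (h := fun x : ℝ => (((x ^ 2 / 4 : ℝ)) : ℂ)) hg h2
    refine this.congr_deriv ?_
    rw [smul_eq_mul]
  exact h1.mul h4

/-- `r d/dr` of `rad n g`. -/
lemma th_rad (n : ℕ) {g : ℂ → ℂ} {g' : ℂ} {r : ℝ} (hr : 0 < r)
    (hg : HasDerivAt g (-g') ((r ^ 2 / 4 : ℝ) : ℂ)) :
    th (rad n g) r = n * rad n g r - (1 / 2) * ((r : ℂ) ^ (n + 2) * g') := by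
  unfold th
  rw [(hasDerivAt_rad n hg).deriv]
  unfold rad
  rcases Nat.eq_zero_or_pos n with h | h
  · subst h
    simp only [Nat.cast_zero, zero_mul, zero_add]
    ring
  · have e : (r : ℂ) * (r : ℂ) ^ (n - 1) = (r : ℂ) ^ n := by
      rw [← pow_succ']; congr 1; omega
    linear_combination ((n : ℂ) * g ((r ^ 2 / 4 : ℝ) : ℂ)) * e

/-- General membership lemma. -/
theorem SB_rad {g : ℕ → ℂ → ℂ}
    (hd : ∀ k (ζ : ℂ), 0 < ζ.re → HasDerivAt (g k) (-g (k + 1) ζ) ζ)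
    {α : ℝ} (hb : ∀ k : ℕ, ∀ ρ₀ : ℝ, 0 < ρ₀ → ∃ C : ℝ, 0 ≤ C ∧ ∀ ρ : ℝ, ρ₀ ≤ ρ →
      ‖g k ρ‖ ≤ C * ρ ^ (-(α + k)))
    {l : ℕ} (hl : (l : ℝ) ≤ 2 * α) {r0 : ℝ} (h0 : 0 < r0) :
    ∀ n k : ℕ, SB r0 n (rad (l + 2 * k) (g k)) := by
  have base : ∀ k : ℕ, ContDiffOn ℝ ∞ (rad (l + 2 * k) (g k)) (Ioi r0) ∧
      ∃ C : ℝ, ∀ r, r0 < r → ‖rad (l + 2 * k) (g k) r‖ ≤ C := by
    intro k
    constructor
    · refine (rad_contDiffOn _ ?_).mono (Ioi_subset_Ioi h0.le)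
      intro z hz
      exact (hd k z hz).differentiableAt.differentiableWithinAt
    · obtain ⟨C, hC0, hC⟩ := hb k (r0 ^ 2 / 4) (by positivity)
      refine ⟨C * (4 ^ (α + k) * r0 ^ ((l : ℝ) - 2 * α)), fun r hr => ?_⟩
      have hr0 : 0 < r := h0.trans hr
      have h1 := hC (r ^ 2 / 4) (by gcongr)
      unfold rad
      rw [norm_mul, norm_pow, Complex.norm_real, Real.norm_of_nonneg hr0.le]
      have e1 : (r ^ 2 / 4) ^ (-(α + k)) = 4 ^ (α + k) * r ^ (-(2 * (α + k))) := by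
        rw [Real.div_rpow (by positivity) (by norm_num), ← Real.rpow_natCast r 2,
          ← Real.rpow_mul hr0.le, Real.rpow_neg (by norm_num : (0:ℝ) ≤ 4)]
        rw [div_inv_eq_mul, mul_comm]
        congr 2
        push_cast; ring
      have e2 : r ^ (l + 2 * k) * r ^ (-(2 * (α + k))) = r ^ ((l : ℝ) - 2 * α) := by
        rw [← Real.rpow_natCast r (l + 2 * k), ← Real.rpow_add hr0]
        congr 1
        push_cast; ring
      have e3 : r ^ ((l : ℝ) - 2 * α) ≤ r0 ^ ((l : ℝ) - 2 * α) :=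
        Real.rpow_le_rpow_of_nonpos h0 hr.le (by linarith)
      calc r ^ (l + 2 * k) * ‖g k ((r ^ 2 / 4 : ℝ) : ℂ)‖
          ≤ r ^ (l + 2 * k) * (C * (r ^ 2 / 4) ^ (-(α + k))) := by gcongr
        _ = C * (4 ^ (α + k) * (r ^ (l + 2 * k) * r ^ (-(2 * (α + k))))) := by rw [e1]; ring
        _ = C * (4 ^ (α + k) * r ^ ((l : ℝ) - 2 * α)) := by rw [e2]
        _ ≤ _ := by gcongr
  intro n
  induction n with
  | zero => intro k; exact base k
  | succ n ih =>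
    intro k
    refine ⟨base k, ?_⟩
    have h1 := ((ih k).const_mul ((l + 2 * k : ℕ) : ℂ)).add ((ih (k + 1)).const_mul (-(1 / 2)))
    refine SB.congr (fun r hr => ?_) h1
    have hr0 : 0 < r := h0.trans hr
    have hζ : 0 < (((r ^ 2 / 4 : ℝ) : ℂ)).re := by rw [ofReal_re]; positivity
    rw [th_rad (l + 2 * k) hr0 (hd k _ hζ)]
    unfold rad
    rw [show l + 2 * (k + 1) = l + 2 * k + 2 by ring]
    ring

/-- The slow solution. -/
def Phi (l : ℕ) (a c : ℂ) : ℝ → ℂ := rad l (J a c)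

/-- The parameter derivative of the slow solution. -/
def dPhi (l : ℕ) (a c : ℂ) : ℝ → ℂ := rad l (dJ a c)

lemma Phi_apply (l : ℕ) (a c : ℂ) (r : ℝ) :
    Phi l a c r = (r : ℂ) ^ l * J a c ((r ^ 2 / 4 : ℝ) : ℂ) := rfl

lemma dPhi_apply (l : ℕ) (a c : ℂ) (r : ℝ) :
    dPhi l a c r = (r : ℂ) ^ l * dJ a c ((r ^ 2 / 4 : ℝ) : ℂ) := rfl

lemma re_add_nat_pos {a : ℂ} (ha : 0 < a.re) (k : ℕ) : 0 < (a + k).re := by
  simp; positivity

theorem SB_Phi {l : ℕ} {a : ℂ} (c : ℂ) (ha : 0 < a.re) (hl : (l : ℝ) ≤ 2 * a.re) {r0 : ℝ}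
    (h0 : 0 < r0) (n : ℕ) : SB r0 n (Phi l a c) := by
  have h := SB_rad (g := fun k ζ => J (a + k) c ζ) (α := a.re) (l := l) ?_ ?_ hl h0 n 0
  · simpa [Phi] using h
  · intro k ζ hζ
    have := hasDerivAt_J c (re_add_nat_pos ha k) hζ
    refine this.congr_deriv ?_
    push_cast
    rw [add_assoc]
  · intro k ρ₀ hρ₀
    obtain ⟨C, hC0, hC⟩ := norm_J_rpow_le_of_pos c (re_add_nat_pos ha k) hρ₀
    refine ⟨C, hC0, fun ρ hρ => ?_⟩
    simpa using hC ρ hρ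

theorem SB_dPhi {l : ℕ} {a : ℂ} (c : ℂ) (ha : 0 < a.re) (hl : (l : ℝ) < 2 * a.re) {r0 : ℝ}
    (h0 : 0 < r0) (n : ℕ) : SB r0 n (dPhi l a c) := by
  set ε : ℝ := min (min 1 (a.re / 2)) ((2 * a.re - l) / 2) with hε
  have hε0 : 0 < ε := lt_min (lt_min one_pos (by linarith)) (by linarith)
  have hε1 : ε ≤ 1 := (min_le_left _ _).trans (min_le_left _ _)
  have hε2 : ε ≤ a.re / 2 := (min_le_left _ _).trans (min_le_right _ _)
  have hε3 : ε ≤ (2 * a.re - l) / 2 := min_le_right _ _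
  have h := SB_rad (g := fun k ζ => dJ (a + k) c ζ) (α := a.re - ε) (l := l) ?_ ?_
    (by linarith) h0 n 0
  · simpa [dPhi] using h
  · intro k ζ hζ
    have := hasDerivAt_dJ c (re_add_nat_pos ha k) hζ
    refine this.congr_deriv ?_
    push_cast
    rw [add_assoc]
  · intro k ρ₀ hρ₀
    have hk : ε < (a + k).re := by
      have : (0 : ℝ) ≤ k := Nat.cast_nonneg k
      simp; linarith
    obtain ⟨C, hC0, hC⟩ := norm_dJ_le c hε0 hε1 hk hρ₀
    refine ⟨C, hC0, fun ρ hρ => ?_⟩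
    refine (hC ρ hρ).trans (le_of_eq ?_)
    congr 2
    simp; ring

/-- The parameter derivative of the Kummer equation. -/
theorem dJ_ode {a ζ : ℂ} (c : ℂ) (ha : 0 < a.re) (hζ : 0 < ζ.re) :
    ζ * dJ (a + 2) c ζ - (a + c + 1 + I * ζ) * dJ (a + 1) c ζ + I * a * dJ a c ζ
      + I * J a c ζ = 0 := by
  have ha1 : 0 < (a + 1).re := by simp; linarith
  have ha2 : 0 < (a + 2).re := by simp; linarith
  have h0 := hasDerivAt_J_param c ha hζ
  have h1 := hasDerivAt_J_param c ha1 hζ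
  have h2 := hasDerivAt_J_param c ha2 hζ
  have h3 := ((h2.const_mul ζ).sub (h1.const_mul (a + c + 1 + I * ζ))).add
    ((((hasDerivAt_id (0 : ℂ)).const_add a).const_mul I).mul h0)
  have hev : (fun z : ℂ => (ζ * J (a + 2 + z) (c - z) ζ -
      (a + c + 1 + I * ζ) * J (a + 1 + z) (c - z) ζ) + I * (a + z) * J (a + z) (c - z) ζ)
      =ᶠ[𝓝 0] fun _ => 0 := by
    have hU : {z : ℂ | 0 < (a + z).re} ∈ 𝓝 (0 : ℂ) := by
      refine (isOpen_lt continuous_const (by fun_prop)).mem_nhds ?_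
      simpa using ha
    filter_upwards [hU] with z hz
    have := J_ode (a := a + z) (ζ := ζ) (c - z) hz hζ
    rw [show a + 2 + z = a + z + 2 by ring, show a + 1 + z = a + z + 1 by ring]
    rw [show a + z + (c - z) + 1 = a + c + 1 by ring] at this
    linear_combination this
  have h4 : HasDerivAt (fun z : ℂ => (ζ * J (a + 2 + z) (c - z) ζ -
      (a + c + 1 + I * ζ) * J (a + 1 + z) (c - z) ζ) + I * (a + z) * J (a + z) (c - z) ζ) 0 0 :=
    (hasDerivAt_const (0 : ℂ) (0 : ℂ)).congr_of_eventuallyEq hev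
  have h5 := h3.unique h4
  simp only [id_eq, add_zero, sub_zero, mul_one] at h5
  linear_combination h5

lemma th_Phi (l : ℕ) {a : ℂ} (c : ℂ) (ha : 0 < a.re) {r : ℝ} (hr : 0 < r) :
    th (Phi l a c) r = l * Phi l a c r - (1 / 2) * Phi (l + 2) (a + 1) c r := by
  have hζ : 0 < (((r ^ 2 / 4 : ℝ) : ℂ)).re := by rw [ofReal_re]; positivity
  exact th_rad l hr (hasDerivAt_J c ha hζ)

lemma th_dPhi (l : ℕ) {a : ℂ} (c : ℂ) (ha : 0 < a.re) {r : ℝ} (hr : 0 < r) :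
    th (dPhi l a c) r = l * dPhi l a c r - (1 / 2) * dPhi (l + 2) (a + 1) c r := by
  have hζ : 0 < (((r ^ 2 / 4 : ℝ) : ℂ)).re := by rw [ofReal_re]; positivity
  exact th_rad l hr (hasDerivAt_dJ c ha hζ)

/-- second derivatives in terms of `th` -/
lemma deriv2_eq {W : ℝ → ℂ} (hW : ContDiffOn ℝ ∞ W (Ioi 0)) {r : ℝ} (hr : 0 < r) :
    deriv (deriv W) r = (th (th W) r - th W r) / (r : ℂ) ^ 2 := by
  have hr' : (r : ℂ) ≠ 0 := by exact_mod_cast hr.ne'
  have h1 : HasDerivAt (deriv W) (deriv (deriv W) r) r :=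
    (diffAt (smooth_deriv hW) hr).hasDerivAt
  have h2 : HasDerivAt (fun x : ℝ => (x : ℂ)) 1 r := by
    simpa using (hasDerivAt_id (r : ℂ)).comp_ofReal
  have h3 : HasDerivAt (th W) (1 * deriv W r + (r : ℂ) * deriv (deriv W) r) r := h2.mul h1
  unfold th at h3 ⊢
  rw [h3.deriv]
  field_simp
  ring

/-- The slow solution solves `y'' + ((d-1)/r + i r/2) y' + (i κ - μ/r^2) y = 0` with
`κ = a - l/2`, `μ = l (l + d - 2)`, `a + c + 1 = d/2 + l`. -/
theorem Phi_ode {d l : ℕ} {a c : ℂ} (hb : a + c + 1 = (d : ℂ) / 2 + l) (ha : 0 < a.re) {r : ℝ}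
    (hr : 0 < r) :
    deriv (deriv (Phi l a c)) r + (((d : ℂ) - 1) / r + I * r / 2) * deriv (Phi l a c) r +
      (I * (a - l / 2) - (l * (l + d - 2) : ℂ) / (r : ℂ) ^ 2) * Phi l a c r = 0 := by
  have hr' : (r : ℂ) ≠ 0 := by exact_mod_cast hr.ne'
  have ha1 : 0 < (a + 1).re := by simp; linarith
  have hζ : 0 < (((r ^ 2 / 4 : ℝ) : ℂ)).re := by rw [ofReal_re]; positivity
  have hsm : ContDiffOn ℝ ∞ (Phi l a c) (Ioi 0) :=
    rad_contDiffOn l (fun z hz => (hasDerivAt_J c ha hz).differentiableAt.differentiableWithinAt)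
  have hd : deriv (Phi l a c) r = th (Phi l a c) r / r := by unfold th; field_simp
  have h2 : th (th (Phi l a c)) r = (l : ℂ) ^ 2 * Phi l a c r -
      (l + 1) * Phi (l + 2) (a + 1) c r + (1 / 4) * Phi (l + 4) (a + 2) c r := by
    have hc : th (th (Phi l a c)) r =
        th (fun x => (l : ℂ) * Phi l a c x + (-(1 / 2)) * Phi (l + 2) (a + 1) c x) r :=
      th_congr (r0 := 0) (fun x hx => by rw [th_Phi l c ha hx]; ring) r hr
    have hs1 : ContDiffOn ℝ ∞ (Phi (l + 2) (a + 1) c) (Ioi 0) :=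
      rad_contDiffOn _ (fun z hz => (hasDerivAt_J c ha1 hz).differentiableAt.differentiableWithinAt)
    rw [hc, th_add (r0 := 0) (contDiffOn_const.mul hsm) (contDiffOn_const.mul hs1) hr,
      th_const_mul, th_const_mul, th_Phi l c ha hr, th_Phi (l + 2) c ha1 hr,
      show a + 1 + 1 = a + 2 by ring]
    push_cast
    ring
  have hode := J_ode (ζ := ((r ^ 2 / 4 : ℝ) : ℂ)) c ha hζ
  rw [deriv2_eq hsm hr, hd, h2, th_Phi l c ha hr]
  simp only [Phi_apply]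
  rw [hb] at hode
  push_cast at hode ⊢
  set A := J a c ((r : ℂ) ^ 2 / 4)
  set B := J (a + 1) c ((r : ℂ) ^ 2 / 4)
  set C := J (a + 2) c ((r : ℂ) ^ 2 / 4)
  field_simp
  have hp : (r : ℂ) ^ (l + 4) = (r : ℂ) ^ l * (r : ℂ) ^ 4 := by ring
  have hp2 : (r : ℂ) ^ (l + 2) = (r : ℂ) ^ l * (r : ℂ) ^ 2 := by ring
  rw [hp, hp2]
  linear_combination (16 * (r : ℂ) ^ l * (r : ℂ) ^ 2) * hode

/-- The parameter derivative solves the same equation with right hand side `- i Phi`. -/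
theorem dPhi_ode {d l : ℕ} {a c : ℂ} (hb : a + c + 1 = (d : ℂ) / 2 + l) (ha : 0 < a.re) {r : ℝ}
    (hr : 0 < r) :
    deriv (deriv (dPhi l a c)) r + (((d : ℂ) - 1) / r + I * r / 2) * deriv (dPhi l a c) r +
      (I * (a - l / 2) - (l * (l + d - 2) : ℂ) / (r : ℂ) ^ 2) * dPhi l a c r =
      -I * Phi l a c r := by
  have hr' : (r : ℂ) ≠ 0 := by exact_mod_cast hr.ne'
  have ha1 : 0 < (a + 1).re := by simp; linarith
  have hζ : 0 < (((r ^ 2 / 4 : ℝ) : ℂ)).re := by rw [ofReal_re]; positivity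
  have hsm : ContDiffOn ℝ ∞ (dPhi l a c) (Ioi 0) :=
    rad_contDiffOn l (fun z hz => (hasDerivAt_dJ c ha hz).differentiableAt.differentiableWithinAt)
  have hd : deriv (dPhi l a c) r = th (dPhi l a c) r / r := by unfold th; field_simp
  have h2 : th (th (dPhi l a c)) r = (l : ℂ) ^ 2 * dPhi l a c r -
      (l + 1) * dPhi (l + 2) (a + 1) c r + (1 / 4) * dPhi (l + 4) (a + 2) c r := by
    have hc : th (th (dPhi l a c)) r =
        th (fun x => (l : ℂ) * dPhi l a c x + (-(1 / 2)) * dPhi (l + 2) (a + 1) c x) r :=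
      th_congr (r0 := 0) (fun x hx => by rw [th_dPhi l c ha hx]; ring) r hr
    have hs1 : ContDiffOn ℝ ∞ (dPhi (l + 2) (a + 1) c) (Ioi 0) :=
      rad_contDiffOn _
        (fun z hz => (hasDerivAt_dJ c ha1 hz).differentiableAt.differentiableWithinAt)
    rw [hc, th_add (r0 := 0) (contDiffOn_const.mul hsm) (contDiffOn_const.mul hs1) hr,
      th_const_mul, th_const_mul, th_dPhi l c ha hr, th_dPhi (l + 2) c ha1 hr,
      show a + 1 + 1 = a + 2 by ring]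
    push_cast
    ring
  have hode := dJ_ode (ζ := ((r ^ 2 / 4 : ℝ) : ℂ)) c ha hζ
  rw [deriv2_eq hsm hr, hd, h2, th_dPhi l c ha hr]
  simp only [Phi_apply, dPhi_apply]
  rw [hb] at hode
  push_cast at hode ⊢
  set A := dJ a c ((r : ℂ) ^ 2 / 4)
  set B := dJ (a + 1) c ((r : ℂ) ^ 2 / 4)
  set C := dJ (a + 2) c ((r : ℂ) ^ 2 / 4)
  set D := J a c ((r : ℂ) ^ 2 / 4)
  field_simp
  have hp : (r : ℂ) ^ (l + 4) = (r : ℂ) ^ l * (r : ℂ) ^ 4 := by ring
  have hp2 : (r : ℂ) ^ (l + 2) = (r : ℂ) ^ l * (r : ℂ) ^ 2 := by ring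
  rw [hp, hp2]
  linear_combination (16 * (r : ℂ) ^ l * (r : ℂ) ^ 2) * hode

/-- The slow solution does not vanish identically near infinity. -/
theorem Phi_ne_zero_of_large (l : ℕ) {a : ℂ} (c : ℂ) (ha : 0 < a.re) :
    ∃ r₁ : ℝ, 0 < r₁ ∧ ∀ r : ℝ, r₁ ≤ r → Phi l a c r ≠ 0 := by
  obtain ⟨ρ₀, hρ₀, h⟩ := J_ne_zero_of_large c ha
  refine ⟨2 * ρ₀, by linarith, fun r hr => ?_⟩
  have hr0 : 0 < r := by linarith
  rw [Phi_apply]
  refine mul_ne_zero (pow_ne_zero _ (by exact_mod_cast hr0.ne')) (h _ ?_)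
  nlinarith

end Vale.Agent.P139.KU
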