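import Vale.Agent.P139.KU.Lead

/-!
# Flux identity: `J ≠ 0` and `Im t < 1/2` when `b` is real and `b/2 < Re a`
-/

noncomputable section

open MeasureTheory Set Filter Topology Complex

namespace Vale.Agent.P139.KU

/-- The flux functional. -/
def Psi (a c : ℂ) (b : ℝ) (ρ : ℝ) : ℝ :=
  ρ ^ b * (Complex.normSq (J a c ρ) / 2 - ((starRingEnd ℂ) (J a c ρ) * J (a + 1) c ρ).im)

lemma hasDerivAt_normSq_J {a : ℂ} (c : ℂ) (ha : 0 < a.re) {ρ : ℝ} (hρ : 0 < ρ) :
    HasDerivAt (fun x : ℝ => Complex.normSq (J a c x))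
      (-2 * ((starRingEnd ℂ) (J a c ρ) * J (a + 1) c ρ).re) ρ := by
  have h := hasDerivAt_J_real c ha hρ
  have hre : HasDerivAt (fun x : ℝ => (J a c x).re) (-(J (a + 1) c ρ)).re ρ :=
    Complex.reCLM.hasFDerivAt.comp_hasDerivAt ρ h
  have him : HasDerivAt (fun x : ℝ => (J a c x).im) (-(J (a + 1) c ρ)).im ρ :=
    Complex.imCLM.hasFDerivAt.comp_hasDerivAt ρ h
  have h2 := (hre.mul hre).add (him.mul him)
  have h3 : HasDerivAt (fun x : ℝ => Complex.normSq (J a c x)) _ ρ := h2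
  refine h3.congr_deriv ?_
  simp only [neg_re, neg_im, mul_re, conj_re, conj_im]
  ring

lemma hasDerivAt_cross_J {a : ℂ} (c : ℂ) (ha : 0 < a.re) {ρ : ℝ} (hρ : 0 < ρ) :
    HasDerivAt (fun x : ℝ => ((starRingEnd ℂ) (J a c x) * J (a + 1) c x).im)
      (-((starRingEnd ℂ) (J a c ρ) * J (a + 2) c ρ).im) ρ := by
  have ha1 : 0 < (a + 1).re := by simp; linarith
  have h := hasDerivAt_J_real c ha hρ
  have h1 := hasDerivAt_J_real c ha1 hρ
  rw [show a + 1 + 1 = a + 2 by ring] at h1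
  have hre : HasDerivAt (fun x : ℝ => (J a c x).re) (-(J (a + 1) c ρ)).re ρ :=
    Complex.reCLM.hasFDerivAt.comp_hasDerivAt ρ h
  have him : HasDerivAt (fun x : ℝ => (J a c x).im) (-(J (a + 1) c ρ)).im ρ :=
    Complex.imCLM.hasFDerivAt.comp_hasDerivAt ρ h
  have hre1 : HasDerivAt (fun x : ℝ => (J (a + 1) c x).re) (-(J (a + 2) c ρ)).re ρ :=
    Complex.reCLM.hasFDerivAt.comp_hasDerivAt ρ h1
  have him1 : HasDerivAt (fun x : ℝ => (J (a + 1) c x).im) (-(J (a + 2) c ρ)).im ρ :=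
    Complex.imCLM.hasFDerivAt.comp_hasDerivAt ρ h1
  have h2 := (hre.mul him1).sub (him.mul hre1)
  have h3 := h2.congr_of_eventuallyEq
    (f₁ := fun x : ℝ => ((starRingEnd ℂ) (J a c x) * J (a + 1) c x).im)
    (Eventually.of_forall fun x => by
      simp only [mul_im, conj_re, conj_im, Pi.sub_apply, Pi.mul_apply]
      ring)
  refine h3.congr_deriv ?_
  simp only [neg_re, neg_im, mul_im, conj_re, conj_im]
  ring

/-- Derivative of the flux functional. -/
theorem hasDerivAt_Psi {a c : ℂ} {b : ℝ} (hb : a + c + 1 = (b : ℂ)) (ha : 0 < a.re)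
    {ρ : ℝ} (hρ : 0 < ρ) :
    HasDerivAt (Psi a c b) ((b / 2 - a.re) * ρ ^ (b - 1) * Complex.normSq (J a c ρ)) ρ := by
  have h1 : HasDerivAt (fun x : ℝ => x ^ b) (b * ρ ^ (b - 1)) ρ :=
    Real.hasDerivAt_rpow_const (Or.inl hρ.ne')
  have h2 := ((hasDerivAt_normSq_J c ha hρ).div_const 2).sub (hasDerivAt_cross_J c ha hρ)
  have h3 : HasDerivAt (Psi a c b) _ ρ := h1.mul h2
  refine h3.congr_deriv ?_
  have hode := J_ode (ζ := (ρ : ℂ)) c ha (by simpa using hρ)
  rw [hb] at hode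
  -- multiply the equation by the conjugate of `J a c ρ` and take imaginary parts
  have hm : ρ * ((starRingEnd ℂ) (J a c ρ) * J (a + 2) c ρ).im =
      b * ((starRingEnd ℂ) (J a c ρ) * J (a + 1) c ρ).im +
      ρ * ((starRingEnd ℂ) (J a c ρ) * J (a + 1) c ρ).re -
      a.re * Complex.normSq (J a c ρ) := by
    have h4 := congrArg Complex.im (congrArg (fun w => (starRingEnd ℂ) (J a c ρ) * w) hode)
    simp only [mul_zero, zero_im, mul_im, mul_re, add_re, add_im, sub_re, sub_im, conj_re,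
      conj_im, ofReal_re, ofReal_im, I_re, I_im, Complex.normSq_apply] at h4 ⊢
    linear_combination h4
  have hpow : ρ ^ b = ρ ^ (b - 1) * ρ := by
    rw [← Real.rpow_add_one hρ.ne' (b - 1)]; ring_nf
  rw [hpow]
  linear_combination (ρ ^ (b - 1)) * hm

lemma tendsto_Psi {a c : ℂ} {b : ℝ} (ha : 0 < a.re) (hab : b / 2 < a.re) :
    Tendsto (Psi a c b) atTop (𝓝 0) := by
  have ha1 : 0 < (a + 1).re := by simp; linarith
  obtain ⟨C, hC0, hC⟩ := norm_J_rpow_le c ha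
  obtain ⟨D, hD0, hD⟩ := norm_J_rpow_le c ha1
  have hlim : Tendsto (fun x : ℝ => (C ^ 2 / 2 + C * D) * x ^ (-(2 * a.re - b))) atTop (𝓝 0) := by
    have := (tendsto_rpow_neg_atTop (show 0 < 2 * a.re - b by linarith)).const_mul
      (C ^ 2 / 2 + C * D)
    rwa [mul_zero] at this
  refine squeeze_zero_norm' ?_ hlim
  filter_upwards [eventually_ge_atTop (1 : ℝ)] with x hx
  have hx0 : (0 : ℝ) < x := by linarith
  have h1 := hC x hx
  have h2 := hD x hx
  have h2' : ‖J (a + 1) c x‖ ≤ D * x ^ (-a.re) := by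
    refine h2.trans ?_
    have : x ^ (-(a + 1).re) ≤ x ^ (-a.re) := by
      apply Real.rpow_le_rpow_of_exponent_le hx; simp
    gcongr
  have e1 : Complex.normSq (J a c x) = ‖J a c x‖ ^ 2 := Complex.normSq_eq_norm_sq _
  have e2 : |((starRingEnd ℂ) (J a c x) * J (a + 1) c x).im| ≤ ‖J a c x‖ * ‖J (a + 1) c x‖ := by
    refine (Complex.abs_im_le_norm _).trans ?_
    rw [norm_mul, RCLike.norm_conj]
  unfold Psi
  rw [norm_mul, Real.norm_of_nonneg (Real.rpow_nonneg hx0.le _), Real.norm_eq_abs]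
  calc x ^ b * |Complex.normSq (J a c x) / 2 - ((starRingEnd ℂ) (J a c x) * J (a + 1) c x).im|
      ≤ x ^ b * (‖J a c x‖ ^ 2 / 2 + ‖J a c x‖ * ‖J (a + 1) c x‖) := by
        gcongr
        refine (abs_sub _ _).trans ?_
        rw [e1, abs_of_nonneg (by positivity)]
        linarith
    _ ≤ x ^ b * ((C * x ^ (-a.re)) ^ 2 / 2 + (C * x ^ (-a.re)) * (D * x ^ (-a.re))) := by
        gcongr
    _ = (C ^ 2 / 2 + C * D) * x ^ (-(2 * a.re - b)) := by
        have : x ^ (-(2 * a.re - b)) = x ^ b * (x ^ (-a.re) * x ^ (-a.re)) := by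
          rw [← Real.rpow_add hx0, ← Real.rpow_add hx0]; ring_nf
        rw [this]; ring

/-- The flux functional is positive when `b/2 < Re a`. -/
theorem Psi_pos {a c : ℂ} {b : ℝ} (hb : a + c + 1 = (b : ℂ)) (ha : 0 < a.re)
    (hab : b / 2 < a.re) {ρ : ℝ} (hρ : 0 < ρ) : 0 < Psi a c b ρ := by
  have hanti : AntitoneOn (Psi a c b) (Ioi 0) := by
    apply antitoneOn_of_deriv_nonpos (convex_Ioi 0)
    · intro x hx
      exact (hasDerivAt_Psi hb ha hx).continuousAt.continuousWithinAt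
    · intro x hx
      rw [interior_Ioi] at hx
      exact (hasDerivAt_Psi hb ha hx).differentiableAt.differentiableWithinAt
    · intro x hx
      rw [interior_Ioi] at hx
      have hx' : (0 : ℝ) < x := hx
      rw [(hasDerivAt_Psi hb ha hx').deriv]
      have h1 : 0 ≤ x ^ (b - 1) * Complex.normSq (J a c x) :=
        mul_nonneg (Real.rpow_nonneg hx'.le _) (Complex.normSq_nonneg _)
      nlinarith
  have hnonneg : ∀ x : ℝ, 0 < x → 0 ≤ Psi a c b x := by
    intro x hx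
    refine le_of_tendsto (tendsto_Psi (c := c) ha hab) ?_
    filter_upwards [eventually_ge_atTop x] with y hy
    exact hanti hx (lt_of_lt_of_le hx hy) hy
  by_contra hneg
  have hzero : Psi a c b ρ = 0 := le_antisymm (not_lt.mp hneg) (hnonneg ρ hρ)
  obtain ⟨ρ₀, hρ₀, hne⟩ := J_ne_zero_of_large c ha
  have hx : 0 < max ρ ρ₀ + 1 := by
    have := le_max_left ρ ρ₀
    linarith
  have hev : Psi a c b =ᶠ[𝓝 (max ρ ρ₀ + 1)] fun _ => (0 : ℝ) := by
    have : Ioi ρ ∈ 𝓝 (max ρ ρ₀ + 1) := by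
      apply Ioi_mem_nhds
      have := le_max_left ρ ρ₀
      linarith
    filter_upwards [this] with y hy
    have hy' : ρ < y := hy
    have h1 := hanti (show ρ ∈ Ioi 0 from hρ) (show y ∈ Ioi (0:ℝ) from hρ.trans hy') hy'.le
    rw [hzero] at h1
    exact le_antisymm h1 (hnonneg y (hρ.trans hy'))
  have hd0 : HasDerivAt (Psi a c b) 0 (max ρ ρ₀ + 1) :=
    (hasDerivAt_const _ (0 : ℝ)).congr_of_eventuallyEq hev
  have hd := (hasDerivAt_Psi hb ha hx).unique hd0
  have hJ := hne (max ρ ρ₀ + 1) (by have := le_max_right ρ ρ₀; linarith)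
  have h1 : (b / 2 - a.re) ≠ 0 := by
    intro h; linarith
  have h2 : (max ρ ρ₀ + 1) ^ (b - 1) ≠ 0 := (Real.rpow_pos_of_pos hx _).ne'
  have h3 : Complex.normSq (J a c (max ρ ρ₀ + 1 : ℝ)) ≠ 0 := by
    rw [Ne, Complex.normSq_eq_zero]; exact hJ
  exact (mul_ne_zero (mul_ne_zero h1 h2) h3) hd

/-- `J a c ρ ≠ 0` when `b = a + c + 1` is real and `b / 2 < Re a`. -/
theorem J_ne_zero_of_flux {a c : ℂ} {b : ℝ} (hb : a + c + 1 = (b : ℂ)) (ha : 0 < a.re)
    (hab : b / 2 < a.re) {ρ : ℝ} (hρ : 0 < ρ) : J a c ρ ≠ 0 := by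
  intro h
  have := Psi_pos hb ha hab hρ
  rw [Psi, h] at this
  simp at this

/-- `Im (J (a+1) c ρ / J a c ρ) < 1/2` when `b = a + c + 1` is real and `b / 2 < Re a`. -/
theorem im_ratio_lt {a c : ℂ} {b : ℝ} (hb : a + c + 1 = (b : ℂ)) (ha : 0 < a.re)
    (hab : b / 2 < a.re) {ρ : ℝ} (hρ : 0 < ρ) : (J (a + 1) c ρ / J a c ρ).im < 1 / 2 := by
  have hne := J_ne_zero_of_flux hb ha hab hρ
  have hN : 0 < Complex.normSq (J a c ρ) := Complex.normSq_pos.mpr hne
  have hP := Psi_pos hb ha hab hρ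
  have hr : 0 < ρ ^ b := Real.rpow_pos_of_pos hρ _
  have h1 : 0 < Complex.normSq (J a c ρ) / 2 -
      ((starRingEnd ℂ) (J a c ρ) * J (a + 1) c ρ).im := by
    unfold Psi at hP
    exact (mul_pos_iff_of_pos_left hr).mp hP
  have h2 : (J (a + 1) c ρ / J a c ρ).im =
      ((starRingEnd ℂ) (J a c ρ) * J (a + 1) c ρ).im / Complex.normSq (J a c ρ) := by
    rw [Complex.div_im, mul_im, conj_re, conj_im]
    ring
  rw [h2, div_lt_iff₀ hN]
  linarith

end Vale.Agent.P139.KU
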