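import Vale.Agent.P139.KU.Shift

/-!
# Ladders: `c → c+1` at fixed `a`, and the half-step ladder of the parabolic cylinder case
-/

noncomputable section

open MeasureTheory Set Filter Topology Complex

namespace Vale.Agent.P139.KU

/-- Ladder step `c → c + 1`, first component. -/
theorem ladder_fst {a ζ : ℂ} (c : ℂ) (ha : 0 < a.re) (hζ : 0 < ζ.re) :
    J a (c + 1) ζ = J a c ζ + I * J (a + 1) c ζ := by
  have h := J_rec_c (c + 1) ha hζ
  rwa [add_sub_cancel_right] at h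

/-- Ladder step `c → c + 1`, second component. -/
theorem ladder_snd {a ζ : ℂ} (c : ℂ) (ha : 0 < a.re) (hζ : 0 < ζ.re) :
    ζ * J (a + 1) (c + 1) ζ = a * J a c ζ + I * (a + c + 1) * J (a + 1) c ζ := by
  have h1 := J_rec_a (c + 1) ha hζ
  have h2 := ladder_fst c ha hζ
  rw [add_sub_cancel_right] at h1
  rw [h2] at h1
  linear_combination -h1

/-- Coefficients of the half-step ladder. -/
def al (a : ℂ) : ℕ → ℂ
  | 0 => 1
  | j + 1 => I * (2 * a + 2 * j + 1) * al a j

/-- The half-step sequence: `x_{2j} = α_j J(a+j, -1/2-a-j)`,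
`x_{2j+1} = i η α_j J(a+j+1, -1/2-a-j)`. -/
def X (a η ζ : ℂ) (n : ℕ) : ℂ :=
  if n % 2 = 0 then al a (n / 2) * J (a + (n / 2 : ℕ)) (-1 / 2 - a - (n / 2 : ℕ)) ζ
  else I * η * al a (n / 2) * J (a + (n / 2 : ℕ) + 1) (-1 / 2 - a - (n / 2 : ℕ)) ζ

lemma X_even (a η ζ : ℂ) (j : ℕ) :
    X a η ζ (2 * j) = al a j * J (a + j) (-1 / 2 - a - j) ζ := by
  unfold X
  have h1 : (2 * j) % 2 = 0 := by omega
  have h2 : (2 * j) / 2 = j := by omega
  rw [if_pos h1, h2]

lemma X_odd (a η ζ : ℂ) (j : ℕ) :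
    X a η ζ (2 * j + 1) = I * η * al a j * J (a + j + 1) (-1 / 2 - a - j) ζ := by
  unfold X
  have h1 : ¬ (2 * j + 1) % 2 = 0 := by omega
  have h2 : (2 * j + 1) / 2 = j := by omega
  rw [if_neg h1, h2]

/-- The three term recurrence with `m = 2a`, `η² = -2 i ζ`. -/
theorem X_rec {a η ζ : ℂ} (ha : 0 < a.re) (hζ : 0 < ζ.re) (hη : η ^ 2 = -2 * I * ζ) (n : ℕ) :
    X a η ζ (n + 2) + η * X a η ζ (n + 1) = (2 * a + n) * X a η ζ n := by
  rcases Nat.even_or_odd' n with ⟨j, rfl | rfl⟩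
  · have haj : 0 < (a + (j : ℂ)).re := by
      simp only [Complex.add_re, Complex.natCast_re]; positivity
    have e2 : 2 * j + 2 = 2 * (j + 1) := by ring
    rw [e2, X_even, X_odd, X_even]
    have h := J_rec_a (-1 / 2 - a - j) haj hζ
    have e3 : (a + ((j + 1 : ℕ) : ℂ)) = a + j + 1 := by push_cast; ring
    have e4 : (-1 / 2 - a - ((j + 1 : ℕ) : ℂ)) = -1 / 2 - a - j - 1 := by push_cast; ring
    rw [e3, e4]
    simp only [al]
    push_cast
    have hI : I * I = -1 := Complex.I_mul_I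
    linear_combination (-2 * al a j) * h + (I * al a j * J (a + j + 1) (-1 / 2 - a - j) ζ) * hη +
      (-2 * ζ * al a j * J (a + j + 1) (-1 / 2 - a - j) ζ) * hI
  · have haj : 0 < (a + (j : ℂ) + 1).re := by
      simp only [Complex.add_re, Complex.natCast_re, Complex.one_re]; positivity
    have e2 : 2 * j + 1 + 2 = 2 * (j + 1) + 1 := by ring
    have e1 : 2 * j + 1 + 1 = 2 * (j + 1) := by ring
    rw [e2, e1, X_odd, X_even, X_odd]
    have h := J_rec_c (-1 / 2 - a - j) haj hζ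
    have e3 : (a + ((j + 1 : ℕ) : ℂ)) = a + j + 1 := by push_cast; ring
    have e4 : (-1 / 2 - a - ((j + 1 : ℕ) : ℂ)) = -1 / 2 - a - j - 1 := by push_cast; ring
    rw [e3, e4]
    simp only [al]
    push_cast
    linear_combination (-I * (2 * a + 2 * j + 1) * η * al a j) * h

end Vale.Agent.P139.KU
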