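import Vale.Agent.P139.KU.Basic

/-!
# Kummer library for P139: joint holomorphy of `J a c ζ` in `(a, c, ζ)`

`(a, c, ζ) ↦ J a c ζ` is complex (Frechet) differentiable on `{0 < Re a, 0 < Re ζ}`.
-/

open MeasureTheory Complex Set Filter Topology

namespace Vale.Agent.P139.KU

/-- The Laplace integrand `e^{-ρ s} s^{a-1} (1+is)^c`, written as one exponential. -/
noncomputable def kint (a c ρ : ℂ) (s : ℝ) : ℂ :=
  cexp (-ρ * s + (a - 1) * (Real.log s : ℂ) + c * Complex.log (1 + I * s))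


lemma one_add_I_mul_ne (s : ℝ) : (1 + I * s : ℂ) ≠ 0 := one_add_ne s

lemma kint_eq_cpow {a c ρ : ℂ} {s : ℝ} (hs : 0 < s) :
    kint a c ρ s = cexp (-ρ * s) * (s : ℂ) ^ (a - 1) * (1 + I * s) ^ c := by
  rw [kint, Complex.exp_add, Complex.exp_add,
    Complex.cpow_def_of_ne_zero (by exact_mod_cast hs.ne'),
    Complex.cpow_def_of_ne_zero (one_add_I_mul_ne s), Complex.ofReal_log hs.le,
    mul_comm (a - 1), mul_comm c]

/-- `kint` is the kernel of `J`, written as one exponential. -/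
lemma J_eq_kint (a c ρ : ℂ) : J a c ρ = ∫ s in Ioi (0:ℝ), kint a c ρ s := by
  unfold J
  refine setIntegral_congr_fun measurableSet_Ioi fun s hs => ?_
  rw [kint_eq_cpow hs, ker, neg_mul]

lemma norm_one_add_I_mul {s : ℝ} (hs : 0 ≤ s) :
    1 ≤ ‖(1 + I * s : ℂ)‖ ∧ ‖(1 + I * s : ℂ)‖ ≤ 1 + s := by
  constructor
  · have := Complex.abs_re_le_norm (1 + I * s : ℂ)
    simpa using this
  · refine (norm_add_le _ _).trans ?_
    simp [abs_of_nonneg hs]

lemma log_norm_nonneg {s : ℝ} (hs : 0 ≤ s) : 0 ≤ Real.log ‖(1 + I * s : ℂ)‖ :=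
  Real.log_nonneg (norm_one_add_I_mul hs).1

lemma log_norm_le {s : ℝ} (hs : 0 ≤ s) : Real.log ‖(1 + I * s : ℂ)‖ ≤ Real.log (1 + s) :=
  Real.log_le_log (lt_of_lt_of_le one_pos (norm_one_add_I_mul hs).1) (norm_one_add_I_mul hs).2

lemma abs_arg_le (s : ℝ) : |(1 + I * s : ℂ).arg| ≤ Real.pi / 2 := by
  rw [Complex.abs_arg_le_pi_div_two_iff]
  simp

lemma norm_kint_le {a c ρ : ℂ} {s : ℝ} (hs : 0 < s) :
    ‖kint a c ρ s‖ ≤ Real.exp (-ρ.re * s + (a.re - 1) * Real.log s + |c.re| * Real.log (1 + s)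
      + |c.im| * (Real.pi / 2)) := by
  rw [kint, Complex.norm_exp]
  apply Real.exp_le_exp.2
  have h1 : (-ρ * s + (a - 1) * (Real.log s : ℂ) + c * Complex.log (1 + I * s)).re
      = -ρ.re * s + (a.re - 1) * Real.log s + (c.re * Real.log ‖(1 + I * s : ℂ)‖
        - c.im * (1 + I * s : ℂ).arg) := by
    simp only [add_re, mul_re, neg_re, ofReal_re, ofReal_im, mul_zero, sub_zero, sub_re, one_re,
      Complex.log_re, Complex.log_im]
  rw [h1]
  have h2 : c.re * Real.log ‖(1 + I * s : ℂ)‖ ≤ |c.re| * Real.log (1 + s) :=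
    (mul_le_mul_of_nonneg_right (le_abs_self _) (log_norm_nonneg hs.le)).trans
      (mul_le_mul_of_nonneg_left (log_norm_le hs.le) (abs_nonneg _))
  have h3 : -(c.im * (1 + I * s : ℂ).arg) ≤ |c.im| * (Real.pi / 2) := by
    refine (neg_le_abs _).trans ?_
    rw [abs_mul]
    exact mul_le_mul_of_nonneg_left (abs_arg_le s) (abs_nonneg _)
  linarith

lemma rpow_le_add {s α A y : ℝ} (hs : 0 < s) (h1 : α ≤ y) (h2 : y ≤ A) :
    s ^ y ≤ s ^ α + s ^ A := by
  rcases le_total s 1 with h | h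
  · have := Real.rpow_le_rpow_of_exponent_ge hs h h1
    have h' : 0 ≤ s ^ A := Real.rpow_nonneg hs.le _
    linarith
  · have := Real.rpow_le_rpow_of_exponent_le h h2
    have h' : 0 ≤ s ^ α := Real.rpow_nonneg hs.le _
    linarith

lemma abs_log_le {s ε : ℝ} (hs : 0 < s) (hε : 0 < ε) :
    |Real.log s| ≤ (s ^ ε + s ^ (-ε)) / ε := by
  have h1 := Real.log_le_rpow_div hs.le hε
  have h2 := Real.log_le_rpow_div (inv_pos.2 hs).le hε
  rw [Real.log_inv, Real.inv_rpow hs.le, ← Real.rpow_neg hs.le] at h2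
  have p1 : 0 ≤ s ^ ε / ε := div_nonneg (Real.rpow_nonneg hs.le _) hε.le
  have p2 : 0 ≤ s ^ (-ε) / ε := div_nonneg (Real.rpow_nonneg hs.le _) hε.le
  rw [add_div, abs_le]
  constructor <;> linarith

/-- `log(1+s) ≤ ε s - log ε` for every `ε > 0`. -/
lemma log_one_add_le {s ε : ℝ} (hs : 0 ≤ s) (hε : 0 < ε) :
    Real.log (1 + s) ≤ ε * s + (ε - 1 - Real.log ε) := by
  have h := Real.log_le_sub_one_of_pos (mul_pos hε (by linarith : (0:ℝ) < 1 + s))
  rw [Real.log_mul hε.ne' (by linarith)] at h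
  linarith

/-- A common integrable majorant for `kint` and its parameter derivatives. -/
lemma exists_majorant {α A r M : ℝ} (hα : 0 < α) (hr : 0 < r) :
    ∃ C : ℝ, 0 ≤ C ∧ ∀ a c ρ : ℂ, α ≤ a.re → a.re ≤ A → r ≤ ρ.re → |c.re| ≤ M → |c.im| ≤ M →
      ∀ s : ℝ, 0 < s →
        ‖kint a c ρ s‖ * (1 + s + |Real.log s| + ‖Complex.log (1 + I * s)‖)
          ≤ C * ((s ^ (α / 2 - 1) + s ^ (A + α)) * Real.exp (-(r / 4) * s)) := by
  rcases le_or_gt 0 M with hM | hM
  swap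
  · refine ⟨0, le_rfl, fun a c ρ _ _ _ h _ => ?_⟩
    exact absurd ((abs_nonneg _).trans h) (not_le.2 hM)
  obtain ⟨K, hK⟩ : ∃ K : ℝ, ∀ s : ℝ, 0 < s → M * Real.log (1 + s) ≤ (r / 2) * s + K := by
    refine ⟨M * (r / (2 * (M + 1)) - 1 - Real.log (r / (2 * (M + 1)))), fun s hs => ?_⟩
    have hε : 0 < r / (2 * (M + 1)) := by positivity
    have h := mul_le_mul_of_nonneg_left (log_one_add_le hs.le hε) hM
    have h' : M * (r / (2 * (M + 1))) ≤ r / 2 := by
      rw [← mul_div_assoc, div_le_div_iff₀ (by positivity) (by norm_num)]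
      nlinarith
    have h'' := mul_le_mul_of_nonneg_right h' hs.le
    linarith
  set B : ℝ := Real.exp (K + M * (Real.pi / 2)) with hB
  have hBpos : 0 < B := Real.exp_pos _
  -- polynomial factor
  obtain ⟨C₁, hC₁0, hC₁⟩ : ∃ C₁ : ℝ, 0 ≤ C₁ ∧ ∀ s : ℝ, 0 < s →
      (1 + s + |Real.log s| + ‖Complex.log (1 + I * s)‖) ≤
        C₁ * ((s ^ (-(α/2)) + s ^ (α / 2)) * (1 + s)) := by
    refine ⟨1 + 2 / α + (1 + Real.pi / 2), by positivity, fun s hs => ?_⟩
    have hp1 : 0 < s ^ (α / 2) := Real.rpow_pos_of_pos hs _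
    have hp2 : 0 < s ^ (-(α / 2)) := Real.rpow_pos_of_pos hs _
    have hsum : 1 ≤ s ^ (-(α / 2)) + s ^ (α / 2) := by
      have := rpow_le_add (α := -(α/2)) (A := α/2) (y := 0) hs (by linarith) (by linarith)
      simpa using this
    have hlog := abs_log_le hs (half_pos hα)
    have hlog' : |Real.log s| ≤ (2 / α) * ((s ^ (-(α / 2)) + s ^ (α / 2)) * (1 + s)) := by
      refine hlog.trans ?_
      have : (s ^ (α / 2) + s ^ (-(α / 2))) / (α / 2)
          = (2 / α) * ((s ^ (-(α / 2)) + s ^ (α / 2)) * 1) := by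
        field_simp; ring
      rw [this]
      gcongr
      linarith
    have hclog : ‖Complex.log (1 + I * s)‖ ≤ (1 + Real.pi / 2) * ((s ^ (-(α / 2)) + s ^ (α / 2)) * (1 + s)) := by
      have h := Complex.norm_le_abs_re_add_abs_im (Complex.log (1 + I * s))
      rw [Complex.log_re, Complex.log_im, abs_of_nonneg (log_norm_nonneg hs.le)] at h
      have h2 := log_norm_le hs.le
      have h3 : Real.log (1 + s) ≤ s := by
        have := Real.log_le_sub_one_of_pos (by linarith : (0:ℝ) < 1 + s); linarith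
      have h4 := abs_arg_le s
      have h5 : ‖Complex.log (1 + I * s)‖ ≤ s + Real.pi / 2 := by linarith
      refine h5.trans ?_
      have h6 : s + Real.pi / 2 ≤ (1 + Real.pi / 2) * (1 * (1 + s)) := by
        nlinarith [Real.pi_pos]
      refine h6.trans ?_
      gcongr
    have h0 : 1 + s ≤ 1 * ((s ^ (-(α / 2)) + s ^ (α / 2)) * (1 + s)) := by
      nlinarith
    calc (1 + s + |Real.log s| + ‖Complex.log (1 + I * s)‖)
        ≤ 1 * ((s ^ (-(α / 2)) + s ^ (α / 2)) * (1 + s))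
          + (2 / α) * ((s ^ (-(α / 2)) + s ^ (α / 2)) * (1 + s))
          + (1 + Real.pi / 2) * ((s ^ (-(α / 2)) + s ^ (α / 2)) * (1 + s)) := by
          gcongr
      _ = _ := by ring
  obtain ⟨K₂, hK₂⟩ : ∃ K₂ : ℝ, ∀ s : ℝ, 0 < s → (1 + s) ≤ K₂ * Real.exp ((r / 4) * s) := by
    refine ⟨max 1 (4 / r), fun s hs => ?_⟩
    have h := Real.add_one_le_exp ((r / 4) * s)
    have h1 : 1 + s ≤ max 1 (4 / r) * ((r / 4) * s + 1) := by
      have e1 : (1:ℝ) ≤ max 1 (4 / r) := le_max_left _ _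
      have e2 : 4 / r ≤ max 1 (4 / r) := le_max_right _ _
      have e3 : s = (4 / r) * ((r / 4) * s) := by field_simp
      have e4 : (4 / r) * ((r / 4) * s) ≤ max 1 (4 / r) * ((r / 4) * s) := by
        gcongr
      nlinarith
    exact h1.trans (mul_le_mul_of_nonneg_left h (le_trans zero_le_one (le_max_left _ _)))
  have hK₂0 : 0 ≤ K₂ := by
    by_contra hneg
    push Not at hneg
    have := hK₂ 1 one_pos
    nlinarith [Real.exp_pos ((r / 4) * 1)]
  refine ⟨B * (C₁ * (K₂ * 2)), by positivity, fun a c ρ h1 h2 h3 h4 h5 s hs => ?_⟩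
  have hk : ‖kint a c ρ s‖ ≤ B * (s ^ (a.re - 1) * Real.exp (-(r / 2) * s)) := by
    refine (norm_kint_le hs).trans ?_
    rw [hB, Real.rpow_def_of_pos hs, ← Real.exp_add, ← Real.exp_add]
    apply Real.exp_le_exp.2
    have e1 : |c.re| * Real.log (1 + s) ≤ M * Real.log (1 + s) :=
      mul_le_mul_of_nonneg_right h4 (Real.log_nonneg (by linarith))
    have e2 := hK s hs
    have e3 : |c.im| * (Real.pi / 2) ≤ M * (Real.pi / 2) :=
      mul_le_mul_of_nonneg_right h5 (by positivity)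
    have e4 : r * s ≤ ρ.re * s := mul_le_mul_of_nonneg_right h3 hs.le
    nlinarith
  have hpos1 : 0 ≤ s ^ (a.re - 1) := Real.rpow_nonneg hs.le _
  have hmul : s ^ (a.re - 1) * (s ^ (-(α/2)) + s ^ (α / 2)) ≤
      2 * (s ^ (α / 2 - 1) + s ^ (A + α)) := by
    rw [mul_add, ← Real.rpow_add hs, ← Real.rpow_add hs]
    have e1 := rpow_le_add (α := α / 2 - 1) (A := A + α) (y := a.re - 1 + -(α / 2)) hs
      (by linarith) (by linarith)
    have e2 := rpow_le_add (α := α / 2 - 1) (A := A + α) (y := a.re - 1 + α / 2) hs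
      (by linarith) (by linarith)
    linarith
  have hexp : Real.exp (-(r / 2) * s) * Real.exp ((r / 4) * s) = Real.exp (-(r / 4) * s) := by
    rw [← Real.exp_add]; ring_nf
  calc ‖kint a c ρ s‖ * (1 + s + |Real.log s| + ‖Complex.log (1 + I * s)‖)
      ≤ (B * (s ^ (a.re - 1) * Real.exp (-(r / 2) * s))) *
          (C₁ * ((s ^ (-(α/2)) + s ^ (α / 2)) * (1 + s))) := by
        gcongr
        exact hC₁ s hs
    _ ≤ (B * (s ^ (a.re - 1) * Real.exp (-(r / 2) * s))) *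
          (C₁ * ((s ^ (-(α/2)) + s ^ (α / 2)) * (K₂ * Real.exp ((r / 4) * s)))) := by
        gcongr
        exact hK₂ s hs
    _ = B * (C₁ * (K₂ * ((s ^ (a.re - 1) * (s ^ (-(α/2)) + s ^ (α / 2))) *
          (Real.exp (-(r / 2) * s) * Real.exp ((r / 4) * s))))) := by ring
    _ ≤ B * (C₁ * (K₂ * ((2 * (s ^ (α / 2 - 1) + s ^ (A + α))) * Real.exp (-(r / 4) * s)))) := by
        rw [hexp]
        gcongr
    _ = _ := by ring

lemma majorant2_integrable {α A r : ℝ} (hα : 0 < α) (hA : -1 < A + α) (hr : 0 < r) (C : ℝ) :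
    IntegrableOn (fun s : ℝ => C * ((s ^ (α / 2 - 1) + s ^ (A + α)) * Real.exp (-(r / 4) * s)))
      (Ioi 0) := by
  have h1 := integrableOn_rpow_mul_exp_neg_mul_rpow (p := 1) (s := α / 2 - 1) (b := r / 4)
    (by linarith) one_pos (by positivity)
  have h2 := integrableOn_rpow_mul_exp_neg_mul_rpow (p := 1) (s := A + α) (b := r / 4)
    hA one_pos (by positivity)
  have h : IntegrableOn (fun s : ℝ => C * ((s ^ (α / 2 - 1) * Real.exp (-(r / 4) * s ^ (1:ℝ))) +
      s ^ (A + α) * Real.exp (-(r / 4) * s ^ (1:ℝ)))) (Ioi 0) := (h1.add h2).const_mul C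
  refine h.congr_fun (fun s _ => ?_) measurableSet_Ioi
  simp only [Real.rpow_one]
  ring

lemma kint_measurable (a c ρ : ℂ) : Measurable (kint a c ρ) := by
  unfold kint
  have h1 : Measurable fun s : ℝ => (Real.log s : ℂ) := Complex.measurable_ofReal.comp Real.measurable_log
  have h2 : Measurable fun s : ℝ => Complex.log (1 + I * (s:ℂ)) :=
    Complex.measurable_log.comp (by fun_prop)
  exact Complex.measurable_exp.comp
    (((measurable_const.mul Complex.measurable_ofReal).add (h1.const_mul _)).add (h2.const_mul _))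

/-- the derivative of the integrand in the parameters -/
noncomputable def dkint (p : ℂ × ℂ × ℂ) (s : ℝ) : (ℂ × ℂ × ℂ) →L[ℂ] ℂ :=
  kint p.1 p.2.1 p.2.2 s •
    ((Real.log s : ℂ) • ContinuousLinearMap.fst ℂ ℂ (ℂ × ℂ)
      + Complex.log (1 + I * s) • (ContinuousLinearMap.fst ℂ ℂ ℂ).comp (ContinuousLinearMap.snd ℂ ℂ (ℂ × ℂ))
      + (-(s:ℂ)) • (ContinuousLinearMap.snd ℂ ℂ ℂ).comp (ContinuousLinearMap.snd ℂ ℂ (ℂ × ℂ)))

lemma hasFDerivAt_kint (p : ℂ × ℂ × ℂ) (s : ℝ) :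
    HasFDerivAt (fun q : ℂ × ℂ × ℂ => kint q.1 q.2.1 q.2.2 s) (dkint p s) p := by
  unfold kint dkint
  have h1 : HasFDerivAt (fun q : ℂ × ℂ × ℂ => -q.2.2 * (s:ℂ) + (q.1 - 1) * (Real.log s : ℂ)
      + q.2.1 * Complex.log (1 + I * s))
      ((Real.log s : ℂ) • ContinuousLinearMap.fst ℂ ℂ (ℂ × ℂ)
      + Complex.log (1 + I * s) • (ContinuousLinearMap.fst ℂ ℂ ℂ).comp (ContinuousLinearMap.snd ℂ ℂ (ℂ × ℂ))
      + (-(s:ℂ)) • (ContinuousLinearMap.snd ℂ ℂ ℂ).comp (ContinuousLinearMap.snd ℂ ℂ (ℂ × ℂ))) p := by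
    have e1 : HasFDerivAt (fun q : ℂ × ℂ × ℂ => q.1) (ContinuousLinearMap.fst ℂ ℂ (ℂ × ℂ)) p :=
      (ContinuousLinearMap.fst ℂ ℂ (ℂ × ℂ)).hasFDerivAt
    have e2 : HasFDerivAt (fun q : ℂ × ℂ × ℂ => q.2.1)
        ((ContinuousLinearMap.fst ℂ ℂ ℂ).comp (ContinuousLinearMap.snd ℂ ℂ (ℂ × ℂ))) p :=
      ((ContinuousLinearMap.fst ℂ ℂ ℂ).comp (ContinuousLinearMap.snd ℂ ℂ (ℂ × ℂ))).hasFDerivAt
    have e3 : HasFDerivAt (fun q : ℂ × ℂ × ℂ => q.2.2)
        ((ContinuousLinearMap.snd ℂ ℂ ℂ).comp (ContinuousLinearMap.snd ℂ ℂ (ℂ × ℂ))) p :=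
      ((ContinuousLinearMap.snd ℂ ℂ ℂ).comp (ContinuousLinearMap.snd ℂ ℂ (ℂ × ℂ))).hasFDerivAt
    have f1 := (e1.sub_const 1).mul_const (Real.log s : ℂ)
    have f2 := e2.mul_const (Complex.log (1 + I * s))
    have f3 := (e3.neg).mul_const (s:ℂ)
    refine ((f3.add f1).add f2).congr_fderiv ?_
    ext <;> simp
  exact h1.cexp

lemma norm_dkint_le (p : ℂ × ℂ × ℂ) {s : ℝ} (hs : 0 < s) :
    ‖dkint p s‖ ≤ ‖kint p.1 p.2.1 p.2.2 s‖ * (1 + s + |Real.log s| + ‖Complex.log (1 + I * s)‖) := by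
  unfold dkint
  rw [norm_smul]
  refine mul_le_mul_of_nonneg_left ?_ (norm_nonneg _)
  refine ContinuousLinearMap.opNorm_le_bound _ (by positivity) fun q => ?_
  simp only [add_apply, smul_apply,
    ContinuousLinearMap.coe_fst', ContinuousLinearMap.coe_snd', ContinuousLinearMap.comp_apply,
    smul_eq_mul]
  have hq1 : ‖q.1‖ ≤ ‖q‖ := norm_fst_le q
  have hq2 : ‖q.2.1‖ ≤ ‖q‖ := (norm_fst_le q.2).trans (norm_snd_le q)
  have hq3 : ‖q.2.2‖ ≤ ‖q‖ := (norm_snd_le q.2).trans (norm_snd_le q)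
  calc ‖(Real.log s : ℂ) * q.1 + Complex.log (1 + I * s) * q.2.1 + -(s:ℂ) * q.2.2‖
      ≤ ‖(Real.log s : ℂ) * q.1‖ + ‖Complex.log (1 + I * s) * q.2.1‖ + ‖-(s:ℂ) * q.2.2‖ :=
        norm_add₃_le
    _ = |Real.log s| * ‖q.1‖ + ‖Complex.log (1 + I * s)‖ * ‖q.2.1‖ + s * ‖q.2.2‖ := by
        rw [norm_mul, norm_mul, norm_mul, norm_neg, Complex.norm_real, Complex.norm_real,
          Real.norm_eq_abs, Real.norm_eq_abs, abs_of_pos hs]
    _ ≤ |Real.log s| * ‖q‖ + ‖Complex.log (1 + I * s)‖ * ‖q‖ + s * ‖q‖ := by gcongr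
    _ ≤ (1 + s + |Real.log s| + ‖Complex.log (1 + I * s)‖) * ‖q‖ := by
        nlinarith [norm_nonneg q]

/-- The region of convergence. -/
def dom : Set (ℂ × ℂ × ℂ) := {p | 0 < p.1.re ∧ 0 < p.2.2.re}

lemma isOpen_dom : IsOpen dom := by
  apply IsOpen.inter
  · exact isOpen_lt continuous_const (Complex.continuous_re.comp continuous_fst)
  · exact isOpen_lt continuous_const (Complex.continuous_re.comp (continuous_snd.comp continuous_snd))

lemma exists_local_majorant {p₀ : ℂ × ℂ × ℂ} (hp : p₀ ∈ dom) :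
    ∃ U ∈ 𝓝 p₀, ∃ g : ℝ → ℝ, IntegrableOn g (Ioi 0) ∧ ∀ p ∈ U, ∀ s : ℝ, 0 < s →
      ‖kint p.1 p.2.1 p.2.2 s‖ * (1 + s + |Real.log s| + ‖Complex.log (1 + I * s)‖) ≤ g s := by
  obtain ⟨h1, h2⟩ := hp
  obtain ⟨C, _, hC⟩ := exists_majorant (α := p₀.1.re / 2) (A := p₀.1.re + 1) (r := p₀.2.2.re / 2)
    (M := max (|p₀.2.1.re|) (|p₀.2.1.im|) + 1) (by positivity) (by positivity)
  have c1 : Continuous fun p : ℂ × ℂ × ℂ => p.1.re := by fun_prop
  have c2 : Continuous fun p : ℂ × ℂ × ℂ => p.2.2.re := by fun_prop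
  have c3 : Continuous fun p : ℂ × ℂ × ℂ => |p.2.1.re| := by fun_prop
  have c4 : Continuous fun p : ℂ × ℂ × ℂ => |p.2.1.im| := by fun_prop
  have U1 := (isOpen_lt (continuous_const (y := p₀.1.re / 2)) c1).mem_nhds
    (show p₀ ∈ {p : ℂ × ℂ × ℂ | p₀.1.re / 2 < p.1.re} by simp only [mem_ofPred_eq]; linarith)
  have U2 := (isOpen_lt c1 (continuous_const (y := p₀.1.re + 1))).mem_nhds
    (show p₀ ∈ {p : ℂ × ℂ × ℂ | p.1.re < p₀.1.re + 1} by simp only [mem_ofPred_eq]; linarith)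
  have U3 := (isOpen_lt (continuous_const (y := p₀.2.2.re / 2)) c2).mem_nhds
    (show p₀ ∈ {p : ℂ × ℂ × ℂ | p₀.2.2.re / 2 < p.2.2.re} by simp only [mem_ofPred_eq]; linarith)
  have U4 := (isOpen_lt c3 (continuous_const (y := max (|p₀.2.1.re|) (|p₀.2.1.im|) + 1))).mem_nhds
    (show p₀ ∈ {p : ℂ × ℂ × ℂ | |p.2.1.re| < max (|p₀.2.1.re|) (|p₀.2.1.im|) + 1} by
      simp only [mem_ofPred_eq]
      exact lt_of_le_of_lt (le_max_left _ _) (lt_add_one _))
  have U5 := (isOpen_lt c4 (continuous_const (y := max (|p₀.2.1.re|) (|p₀.2.1.im|) + 1))).mem_nhds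
    (show p₀ ∈ {p : ℂ × ℂ × ℂ | |p.2.1.im| < max (|p₀.2.1.re|) (|p₀.2.1.im|) + 1} by
      simp only [mem_ofPred_eq]
      exact lt_of_le_of_lt (le_max_right _ _) (lt_add_one _))
  refine ⟨_, inter_mem U1 (inter_mem U2 (inter_mem U3 (inter_mem U4 U5))), _,
      majorant2_integrable (α := p₀.1.re / 2) (A := p₀.1.re + 1) (r := p₀.2.2.re / 2)
        (by positivity) (by linarith) (by positivity) C, ?_⟩
  rintro p ⟨e1, e2, e3, e4, e5⟩ s hs
  exact hC _ _ _ (le_of_lt e1) (le_of_lt e2) (le_of_lt e3) (le_of_lt e4) (le_of_lt e5) s hs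

lemma kint_integrable {a c ρ : ℂ} (ha : 0 < a.re) (hρ : 0 < ρ.re) :
    IntegrableOn (kint a c ρ) (Ioi 0) := by
  obtain ⟨U, hU, g, hg, hb⟩ := exists_local_majorant (p₀ := (a, c, ρ)) ⟨ha, hρ⟩
  refine Integrable.mono' hg (kint_measurable a c ρ).aestronglyMeasurable ?_
  refine (ae_restrict_iff' measurableSet_Ioi).2 (Eventually.of_forall fun s hs => ?_)
  have hs' : 0 < s := hs
  refine le_trans ?_ (hb _ (mem_of_mem_nhds hU) s hs)
  have : (1:ℝ) ≤ 1 + s + |Real.log s| + ‖Complex.log (1 + I * s)‖ := by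
    have := abs_nonneg (Real.log s)
    have := norm_nonneg (Complex.log (1 + I * s))
    linarith
  exact le_mul_of_one_le_right (norm_nonneg _) this

lemma hasFDerivAt_J {p : ℂ × ℂ × ℂ} (hp : p ∈ dom) :
    HasFDerivAt (fun q : ℂ × ℂ × ℂ => J q.1 q.2.1 q.2.2) (∫ s in Ioi (0:ℝ), dkint p s) p := by
  obtain ⟨U, hU, g, hg, hb⟩ := exists_local_majorant hp
  simp only [J_eq_kint]
  refine hasFDerivAt_integral_of_dominated_of_fderiv_le (s := U) (bound := g) hU
    (Eventually.of_forall fun q => (kint_measurable _ _ _).aestronglyMeasurable)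
    (kint_integrable hp.1 hp.2) ?_ ?_ hg ?_
  · unfold dkint
    refine ((kint_measurable _ _ _).aestronglyMeasurable).smul ?_
    have h1 : Measurable fun s : ℝ => (Real.log s : ℂ) := Complex.measurable_ofReal.comp Real.measurable_log
    have h2 : Measurable fun s : ℝ => Complex.log (1 + I * (s:ℂ)) :=
      Complex.measurable_log.comp (by fun_prop)
    have h3 : Measurable fun s : ℝ => -(s:ℂ) := Complex.measurable_ofReal.neg
    exact ((h1.aestronglyMeasurable.smul_const _).add (h2.aestronglyMeasurable.smul_const _)).add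
      (h3.aestronglyMeasurable.smul_const _)
  · refine (ae_restrict_iff' measurableSet_Ioi).2 (Eventually.of_forall fun s hs q hq => ?_)
    exact (norm_dkint_le q hs).trans (hb q hq s hs)
  · exact Eventually.of_forall fun s q _ => hasFDerivAt_kint q s

lemma differentiableOn_J :
    DifferentiableOn ℂ (fun q : ℂ × ℂ × ℂ => J q.1 q.2.1 q.2.2) dom :=
  fun _ hp => (hasFDerivAt_J hp).differentiableAt.differentiableWithinAt

lemma dkint_integrable {p : ℂ × ℂ × ℂ} (hp : p ∈ dom) : IntegrableOn (dkint p) (Ioi 0) := by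
  obtain ⟨U, hU, g, hg, hb⟩ := exists_local_majorant hp
  refine Integrable.mono' hg ?_ ?_
  · unfold dkint
    refine ((kint_measurable _ _ _).aestronglyMeasurable).smul ?_
    have h1 : Measurable fun s : ℝ => (Real.log s : ℂ) := Complex.measurable_ofReal.comp Real.measurable_log
    have h2 : Measurable fun s : ℝ => Complex.log (1 + I * (s:ℂ)) :=
      Complex.measurable_log.comp (by fun_prop)
    have h3 : Measurable fun s : ℝ => -(s:ℂ) := Complex.measurable_ofReal.neg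
    exact ((h1.aestronglyMeasurable.smul_const _).add (h2.aestronglyMeasurable.smul_const _)).add
      (h3.aestronglyMeasurable.smul_const _)
  · refine (ae_restrict_iff' measurableSet_Ioi).2 (Eventually.of_forall fun s hs => ?_)
    exact (norm_dkint_le p hs).trans (hb p (mem_of_mem_nhds hU) s hs)

/-- Multiplication of the integrand by `s` is a shift of `a`. -/
lemma kint_shift {a c ρ : ℂ} {s : ℝ} (hs : 0 < s) : (s : ℂ) * kint a c ρ s = kint (a + 1) c ρ s := by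
  rw [kint, kint]
  have : (s : ℂ) = cexp (Real.log s : ℂ) := by
    rw [← Complex.ofReal_exp, Real.exp_log hs]
  conv_lhs => rw [this]
  rw [← Complex.exp_add]
  congr 1
  rw [show ((Real.log s : ℂ)) = (Real.log (s) : ℂ) from rfl]
  have h2 : (Real.log s : ℂ) = (Real.log s : ℂ) := rfl
  rw [← this]
  ring

end Vale.Agent.P139.KU
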