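import Vale.Agent.P139.KU.Param761

noncomputable section

open MeasureTheory Set Filter Topology Complex

namespace Vale.Agent.P139.KU.H761

/-- `|(1+is)^c - 1| ≤ |c| e^{|Im c| π/2} s (1+s)^{|Re c - 1|}` -/
lemma norm_cpow_sub_one_le (c : ℂ) {s : ℝ} (hs : 0 ≤ s) :
    ‖(1 + I * (s : ℂ)) ^ c - 1‖ ≤
      ‖c‖ * Real.exp (|c.im| * (Real.pi / 2)) * (1 + s) ^ |c.re - 1| * s := by
  have hd : ∀ x ∈ Icc (0:ℝ) s, HasDerivWithinAt (fun x : ℝ => (1 + I * (x : ℂ)) ^ c)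
      (c * (1 + I * (x : ℂ)) ^ (c - 1) * I) (Icc 0 s) x := by
    intro x _
    have h1 : HasDerivAt (fun z : ℂ => 1 + I * z) I (x : ℂ) := by
      simpa using ((hasDerivAt_id (x : ℂ)).const_mul I).const_add 1
    have h2 : HasDerivAt (fun z : ℂ => (1 + I * z) ^ c) (c * (1 + I * (x : ℂ)) ^ (c - 1) * I)
        (x : ℂ) := h1.cpow_const (c := c) (one_add_slit x)
    exact h2.comp_ofReal.hasDerivWithinAt
  have hb : ∀ x ∈ Ico (0:ℝ) s, ‖c * (1 + I * (x : ℂ)) ^ (c - 1) * I‖ ≤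
      ‖c‖ * Real.exp (|c.im| * (Real.pi / 2)) * (1 + s) ^ |c.re - 1| := by
    intro x hx
    rw [norm_mul, norm_mul, Complex.norm_I, mul_one]
    have h3 := norm_one_add_cpow_le (c - 1) hx.1
    have e1 : (c - 1).im = c.im := by simp
    have e2 : (c - 1).re = c.re - 1 := by simp
    rw [e1, e2] at h3
    have h4 : (1 + x) ^ |c.re - 1| ≤ (1 + s) ^ |c.re - 1| :=
      Real.rpow_le_rpow (by linarith [hx.1]) (by linarith [hx.2]) (abs_nonneg _)
    calc ‖c‖ * ‖(1 + I * (x : ℂ)) ^ (c - 1)‖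
        ≤ ‖c‖ * (Real.exp (|c.im| * (Real.pi / 2)) * (1 + x) ^ |c.re - 1|) := by gcongr
      _ ≤ ‖c‖ * (Real.exp (|c.im| * (Real.pi / 2)) * (1 + s) ^ |c.re - 1|) := by gcongr
      _ = _ := by ring
  have h := norm_image_sub_le_of_norm_deriv_le_segment' hd hb s (right_mem_Icc.mpr hs)
  simpa using h

/-- the majorant integral `∫ e^{-s} s^{α-1} (1+s)^m` -/
def Mj (α m : ℝ) : ℝ := ∫ s in Ioi (0:ℝ), Real.exp (-s) * s ^ (α - 1) * (1 + s) ^ m

lemma Mj_nonneg (α m : ℝ) : 0 ≤ Mj α m := by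
  unfold Mj
  refine setIntegral_nonneg measurableSet_Ioi fun s hs => ?_
  have : 0 < s := hs
  positivity

lemma Mj_integrable {α : ℝ} (m : ℝ) (hα : 0 < α) :
    IntegrableOn (fun s : ℝ => Real.exp (-s) * s ^ (α - 1) * (1 + s) ^ m) (Ioi 0) := by
  simpa using majorant_integrable (κ := 1) m hα one_pos

/-- scaling of the majorant: for `κ ≥ 1`, `m ≥ 0` -/
lemma majorant_scale {α κ m : ℝ} (hα : 0 < α) (hm : 0 ≤ m) (hκ : 1 ≤ κ) :
    ∫ s in Ioi (0:ℝ), Real.exp (-(κ * s)) * s ^ (α - 1) * (1 + s) ^ m ≤ κ ^ (-α) * Mj α m := by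
  have hκ0 : 0 < κ := by linarith
  have h1 : ∫ s in Ioi (0:ℝ), Real.exp (-(κ * s)) * s ^ (α - 1) * (1 + s) ^ m =
      κ⁻¹ * ∫ t in Ioi (0:ℝ), Real.exp (-t) * (κ⁻¹ * t) ^ (α - 1) * (1 + κ⁻¹ * t) ^ m := by
    have := integral_comp_mul_left_Ioi (fun t => Real.exp (-t) * (κ⁻¹ * t) ^ (α - 1) *
      (1 + κ⁻¹ * t) ^ m) 0 hκ0
    rw [mul_zero] at this
    rw [smul_eq_mul] at this
    rw [← this]
    refine setIntegral_congr_fun measurableSet_Ioi fun s _ => ?_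
    show _ = Real.exp (-(κ * s)) * (κ⁻¹ * (κ * s)) ^ (α - 1) * (1 + κ⁻¹ * (κ * s)) ^ m
    rw [← mul_assoc κ⁻¹, inv_mul_cancel₀ hκ0.ne', one_mul]
  rw [h1]
  unfold Mj
  have h2 : ∫ t in Ioi (0:ℝ), Real.exp (-t) * (κ⁻¹ * t) ^ (α - 1) * (1 + κ⁻¹ * t) ^ m ≤
      ∫ t in Ioi (0:ℝ), κ ^ (1 - α) * (Real.exp (-t) * t ^ (α - 1) * (1 + t) ^ m) := by
    refine setIntegral_mono_on ?_ ((Mj_integrable m hα).const_mul _) measurableSet_Ioi ?_
    · have h3 : IntegrableOn (fun s : ℝ => Real.exp (-(κ * s)) * s ^ (α - 1) * (1 + s) ^ m)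
          (Ioi (0 * κ⁻¹)) := by
        rw [zero_mul]; exact majorant_integrable m hα hκ0
      have h4 := (integrableOn_Ioi_comp_mul_left_iff (fun t => Real.exp (-t) *
        (κ⁻¹ * t) ^ (α - 1) * (1 + κ⁻¹ * t) ^ m) 0 hκ0).mp
      rw [mul_zero] at h4
      apply h4
      refine (majorant_integrable m hα hκ0).congr_fun (fun s _ => ?_) measurableSet_Ioi
      show _ = Real.exp (-(κ * s)) * (κ⁻¹ * (κ * s)) ^ (α - 1) * (1 + κ⁻¹ * (κ * s)) ^ m
      rw [← mul_assoc κ⁻¹, inv_mul_cancel₀ hκ0.ne', one_mul]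
    · intro t ht
      have ht0 : 0 < t := ht
      have e1 : (κ⁻¹ * t) ^ (α - 1) = κ ^ (1 - α) * t ^ (α - 1) := by
        rw [Real.mul_rpow (by positivity) ht0.le, Real.inv_rpow hκ0.le, ← Real.rpow_neg hκ0.le]
        congr 2; ring
      rw [e1]
      have e2 : (1 + κ⁻¹ * t) ^ m ≤ (1 + t) ^ m := by
        apply Real.rpow_le_rpow (by positivity) _ hm
        have : κ⁻¹ ≤ 1 := inv_le_one_of_one_le₀ hκ
        nlinarith
      calc Real.exp (-t) * (κ ^ (1 - α) * t ^ (α - 1)) * (1 + κ⁻¹ * t) ^ m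
          ≤ Real.exp (-t) * (κ ^ (1 - α) * t ^ (α - 1)) * (1 + t) ^ m := by gcongr
        _ = _ := by ring
  rw [integral_const_mul] at h2
  calc κ⁻¹ * ∫ t in Ioi (0:ℝ), Real.exp (-t) * (κ⁻¹ * t) ^ (α - 1) * (1 + κ⁻¹ * t) ^ m
      ≤ κ⁻¹ * (κ ^ (1 - α) * ∫ t in Ioi (0:ℝ), Real.exp (-t) * t ^ (α - 1) * (1 + t) ^ m) := by
        gcongr
    _ = _ := by
        rw [← mul_assoc]
        congr 1
        rw [← Real.rpow_neg_one, ← Real.rpow_add hκ0]
        congr 1; ring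

/-- **Bound**: for `Re ζ ≥ 1`, `|J a c ζ| ≤ e^{|Im c|π/2} M(Re a, |Re c|) (Re ζ)^{-Re a}` -/
theorem norm_J_le {a ζ : ℂ} (c : ℂ) (ha : 0 < a.re) (hζ : 1 ≤ ζ.re) :
    ‖J a c ζ‖ ≤ Real.exp (|c.im| * (Real.pi / 2)) * Mj a.re |c.re| * ζ.re ^ (-a.re) := by
  unfold J
  have h1 : ‖∫ s in Ioi (0:ℝ), ker a c ζ s‖ ≤ ∫ s in Ioi (0:ℝ),
      Real.exp (|c.im| * (Real.pi / 2)) *
        (Real.exp (-(ζ.re * s)) * s ^ (a.re - 1) * (1 + s) ^ |c.re|) := by
    refine norm_integral_le_of_norm_le ((majorant_integrable |c.re| ha (by linarith)).const_mul _) ?_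
    exact (ae_restrict_iff' measurableSet_Ioi).mpr
      (Eventually.of_forall fun s hs => norm_ker_le a c ζ hs)
  refine h1.trans ?_
  rw [integral_const_mul]
  have h2 := majorant_scale ha (abs_nonneg c.re) hζ
  calc Real.exp (|c.im| * (Real.pi / 2)) * ∫ s in Ioi (0:ℝ), Real.exp (-(ζ.re * s)) *
        s ^ (a.re - 1) * (1 + s) ^ |c.re|
      ≤ Real.exp (|c.im| * (Real.pi / 2)) * (ζ.re ^ (-a.re) * Mj a.re |c.re|) := by gcongr
    _ = _ := by ring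

/-- `J a 0 ζ = Γ(a) ζ^{-a}` -/
theorem J_zero_c {a ζ : ℂ} (ha : 0 < a.re) (hζ : 0 < ζ.re) :
    J a 0 ζ = (1 / ζ) ^ a * Complex.Gamma a := by
  have hopen : IsOpen {z : ℂ | 0 < z.re} := isOpen_lt continuous_const Complex.continuous_re
  have hconv : Convex ℝ {z : ℂ | 0 < z.re} := convex_halfSpace_re_gt 0
  have h1 : AnalyticOnNhd ℂ (fun z => J a 0 z) {z : ℂ | 0 < z.re} := by
    refine DifferentiableOn.analyticOnNhd ?_ hopen
    exact fun z hz => (hasDerivAt_J 0 ha hz).differentiableAt.differentiableWithinAt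
  have h2 : AnalyticOnNhd ℂ (fun z : ℂ => (1 / z) ^ a * Complex.Gamma a) {z : ℂ | 0 < z.re} := by
    refine DifferentiableOn.analyticOnNhd ?_ hopen
    intro z hz
    have hz0 : z ≠ 0 := by rintro rfl; simp at hz
    have hs : 1 / z ∈ slitPlane := by
      left
      rw [one_div, Complex.inv_re]
      exact div_pos hz (Complex.normSq_pos.mpr hz0)
    have hd : DifferentiableAt ℂ (fun z : ℂ => 1 / z) z := by
      simpa using differentiableAt_inv hz0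
    exact ((hd.cpow_const hs).mul_const _).differentiableWithinAt
  have hfreq : ∃ᶠ z in 𝓝[≠] (1:ℂ), J a 0 z = (1 / z) ^ a * Complex.Gamma a := by
    have hreal : ∀ r : ℝ, 0 < r → J a 0 (r:ℂ) = (1 / (r:ℂ)) ^ a * Complex.Gamma a := by
      intro r hr
      rw [← Complex.integral_cpow_mul_exp_neg_mul_Ioi ha hr]
      unfold J
      refine setIntegral_congr_fun measurableSet_Ioi fun s _ => ?_
      show ker a 0 (r:ℂ) s = _
      unfold ker; rw [Complex.cpow_zero]; ring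
    have ht : Tendsto (fun n : ℕ => ((1 + 1 / ((n:ℝ) + 1) : ℝ) : ℂ)) atTop (𝓝[≠] (1:ℂ)) := by
      rw [tendsto_nhdsWithin_iff]
      constructor
      · have : Tendsto (fun n : ℕ => (1 + 1 / ((n:ℝ) + 1) : ℝ)) atTop (𝓝 (1 + 0)) :=
          tendsto_const_nhds.add tendsto_one_div_add_atTop_nhds_zero_nat
        rw [add_zero] at this
        have h3 := (Complex.continuous_ofReal.tendsto 1).comp this
        simpa [Function.comp_def] using h3
      · refine Eventually.of_forall fun n => ?_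
        show ((1 + 1 / ((n:ℝ) + 1) : ℝ) : ℂ) ≠ 1
        intro h
        have h4 : (1 + 1 / ((n:ℝ) + 1) : ℝ) = 1 := by exact_mod_cast h
        have h5 : (0:ℝ) < 1 / ((n:ℝ) + 1) := by positivity
        linarith
    refine ht.frequently (Frequently.of_forall fun n => ?_)
    exact hreal _ (by positivity)
  exact (h1.eqOn_of_preconnected_of_frequently_eq h2 hconv.isPreconnected
    (show (1:ℂ) ∈ {z : ℂ | 0 < z.re} by simp) hfreq) hζ

/-- **Asymptotics with error bound**: for `Re ζ ≥ 1`,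
`|J a c ζ - Γ(a) (1/ζ)^a| ≤ |c| e^{|Im c|π/2} M(Re a + 1, |Re c - 1|) (Re ζ)^{-(Re a+1)}`. -/
theorem norm_J_sub_le {a ζ : ℂ} (c : ℂ) (ha : 0 < a.re) (hζ : 1 ≤ ζ.re) :
    ‖J a c ζ - (1 / ζ) ^ a * Complex.Gamma a‖ ≤
      ‖c‖ * Real.exp (|c.im| * (Real.pi / 2)) * Mj (a.re + 1) |c.re - 1| *
        ζ.re ^ (-(a.re + 1)) := by
  have hζ0 : 0 < ζ.re := by linarith
  have hG := J_zero_c ha hζ0
  have hint : IntegrableOn (fun s : ℝ => (s:ℂ) ^ (a - 1) * cexp (-(ζ * s))) (Ioi 0) := by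
    have := integrableOn_ker (a := a) (ζ := ζ) 0 ha hζ0
    refine this.congr_fun (fun s _ => ?_) measurableSet_Ioi
    unfold ker; rw [Complex.cpow_zero]; ring
  have hJ0 : J a 0 ζ = ∫ s in Ioi (0:ℝ), (s:ℂ) ^ (a - 1) * cexp (-(ζ * s)) := by
    unfold J
    refine setIntegral_congr_fun measurableSet_Ioi fun s _ => ?_
    show ker a 0 ζ s = _
    unfold ker; rw [Complex.cpow_zero]; ring
  rw [← hG, hJ0]
  unfold J
  rw [← integral_sub (integrableOn_ker c ha hζ0) hint]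
  have h1 : ‖∫ s in Ioi (0:ℝ), (ker a c ζ s - (s:ℂ) ^ (a - 1) * cexp (-(ζ * s)))‖ ≤
      ∫ s in Ioi (0:ℝ), ‖c‖ * Real.exp (|c.im| * (Real.pi / 2)) *
        (Real.exp (-(ζ.re * s)) * s ^ (a.re + 1 - 1) * (1 + s) ^ |c.re - 1|) := by
    refine norm_integral_le_of_norm_le ((majorant_integrable |c.re - 1| (by linarith)
      hζ0).const_mul _) ?_
    refine (ae_restrict_iff' measurableSet_Ioi).mpr (Eventually.of_forall fun s hs => ?_)
    have hs0 : 0 < s := hs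
    have e1 : ker a c ζ s - (s:ℂ) ^ (a - 1) * cexp (-(ζ * s)) =
        cexp (-(ζ * s)) * (s:ℂ) ^ (a - 1) * ((1 + I * s) ^ c - 1) := by
      unfold ker; ring
    rw [e1, norm_mul, norm_mul, Complex.norm_exp, Complex.norm_cpow_eq_rpow_re_of_pos hs0]
    have e2 : (-(ζ * (s : ℂ))).re = -(ζ.re * s) := by simp
    have e3 : s ^ (a.re + 1 - 1) = s ^ (a.re - 1) * s := by
      rw [show a.re + 1 - 1 = (a.re - 1) + 1 by ring, Real.rpow_add hs0, Real.rpow_one]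
    rw [e2, e3, Complex.sub_re, Complex.one_re]
    have h2 := norm_cpow_sub_one_le c hs0.le
    calc Real.exp (-(ζ.re * s)) * s ^ (a.re - 1) * ‖(1 + I * (s:ℂ)) ^ c - 1‖
        ≤ Real.exp (-(ζ.re * s)) * s ^ (a.re - 1) *
          (‖c‖ * Real.exp (|c.im| * (Real.pi / 2)) * (1 + s) ^ |c.re - 1| * s) := by gcongr
      _ = _ := by ring
  refine h1.trans ?_
  rw [integral_const_mul]
  have h2 := majorant_scale (α := a.re + 1) (by linarith) (abs_nonneg (c.re - 1)) hζ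
  calc ‖c‖ * Real.exp (|c.im| * (Real.pi / 2)) * ∫ s in Ioi (0:ℝ), Real.exp (-(ζ.re * s)) *
        s ^ (a.re + 1 - 1) * (1 + s) ^ |c.re - 1|
      ≤ ‖c‖ * Real.exp (|c.im| * (Real.pi / 2)) *
        (ζ.re ^ (-(a.re + 1)) * Mj (a.re + 1) |c.re - 1|) := by gcongr
    _ = _ := by ring

end Vale.Agent.P139.KU.H761
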