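import Vale.Agent.P139.KU.Basic

/-!
# Derivative in the Laplace variable, contiguous relations and the ODE
-/

noncomputable section

open MeasureTheory Set Filter Topology Complex

namespace Vale.Agent.P139.KU

lemma ker_succ (a c ζ : ℂ) {s : ℝ} (hs : 0 < s) :
    ker (a + 1) c ζ s = (s : ℂ) * ker a c ζ s := by
  unfold ker
  have hs' : (s : ℂ) ≠ 0 := by exact_mod_cast hs.ne'
  have : (s : ℂ) ^ (a + 1 - 1) = (s : ℂ) * (s : ℂ) ^ (a - 1) := by
    rw [show a + 1 - 1 = 1 + (a - 1) by ring, Complex.cpow_add _ _ hs', Complex.cpow_one]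
  rw [this]; ring

lemma ker_c_succ (a c ζ : ℂ) (s : ℝ) :
    ker a (c + 1) ζ s = (1 + I * s) * ker a c ζ s := by
  unfold ker
  rw [Complex.cpow_add _ _ (one_add_ne s), Complex.cpow_one]; ring

lemma ker_c_pred (a c ζ : ℂ) (s : ℝ) :
    ker a c ζ s = (1 + I * s) * ker a (c - 1) ζ s := by
  have := ker_c_succ a (c - 1) ζ s
  rwa [sub_add_cancel] at this

lemma hasDerivAt_ker_param (a c ζ : ℂ) (s : ℝ) :
    HasDerivAt (fun z => ker a c z s) (-(s : ℂ) * ker a c ζ s) ζ := by
  unfold ker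
  have h1 : HasDerivAt (fun z : ℂ => cexp (-(z * s))) (cexp (-(ζ * s)) * (-(s : ℂ))) ζ := by
    have : HasDerivAt (fun z : ℂ => -(z * s)) (-(s : ℂ)) ζ := by
      simpa using ((hasDerivAt_id ζ).mul_const (s : ℂ)).fun_neg
    exact this.cexp
  have h2 := (h1.mul_const ((s : ℂ) ^ (a - 1))).mul_const ((1 + I * (s : ℂ)) ^ c)
  refine h2.congr_deriv ?_
  ring

/-- Complex derivative of `J` in the Laplace variable. -/
theorem hasDerivAt_J {a ζ : ℂ} (c : ℂ) (ha : 0 < a.re) (hζ : 0 < ζ.re) :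
    HasDerivAt (J a c) (-(J (a + 1) c ζ)) ζ := by
  have hε : 0 < ζ.re / 2 := by positivity
  set C : ℝ := Real.exp (|c.im| * (Real.pi / 2)) with hC
  set bound : ℝ → ℝ := fun s => C * (Real.exp (-(ζ.re / 2 * s)) * s ^ ((a.re + 1) - 1) *
    (1 + s) ^ |c.re|) with hbound
  have hmain := hasDerivAt_integral_of_dominated_loc_of_deriv_le (μ := volume.restrict (Ioi (0:ℝ)))
    (F := fun z s => ker a c z s) (F' := fun z s => -(s : ℂ) * ker a c z s) (x₀ := ζ)
    (bound := bound) (s := Metric.ball ζ (ζ.re / 2)) (Metric.ball_mem_nhds _ hε)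
    (Eventually.of_forall fun z => (measurable_ker a c z).aestronglyMeasurable)
    (integrableOn_ker c ha hζ)
    (by
      apply Measurable.aestronglyMeasurable
      exact ((Complex.measurable_ofReal.neg).mul (measurable_ker a c ζ)))
    (by
      refine (ae_restrict_iff' measurableSet_Ioi).mpr (Eventually.of_forall fun s hs z hz => ?_)
      have hs' : (0 : ℝ) < s := hs
      have hzre : ζ.re / 2 ≤ z.re := by
        have h1 : |(z - ζ).re| ≤ ‖z - ζ‖ := Complex.abs_re_le_norm _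
        have h2 : ‖z - ζ‖ < ζ.re / 2 := by simpa [dist_eq_norm] using hz
        have h3 := abs_le.mp h1
        simp only [Complex.sub_re] at h3
        linarith [h3.1]
      rw [norm_mul, norm_neg, Complex.norm_real, Real.norm_of_nonneg hs'.le]
      calc s * ‖ker a c z s‖ ≤ s * (C * (Real.exp (-(z.re * s)) * s ^ (a.re - 1) *
            (1 + s) ^ |c.re|)) := by
            gcongr; exact norm_ker_le a c z hs'
        _ ≤ s * (C * (Real.exp (-(ζ.re / 2 * s)) * s ^ (a.re - 1) *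
            (1 + s) ^ |c.re|)) := by
            gcongr
        _ = bound s := by
            simp only [hbound]
            have : s ^ (a.re + 1 - 1) = s * s ^ (a.re - 1) := by
              rw [show a.re + 1 - 1 = 1 + (a.re - 1) by ring, Real.rpow_add hs', Real.rpow_one]
            rw [this]; ring)
    ((majorant_integrable |c.re| (by linarith) hε).const_mul C)
    (Eventually.of_forall fun s z _ => hasDerivAt_ker_param a c z s)
  have h2 := hmain.2
  have h3 : (∫ s in Ioi (0:ℝ), -(s : ℂ) * ker a c ζ s) = -(J (a + 1) c ζ) := by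
    unfold J
    rw [← integral_neg]
    apply setIntegral_congr_fun measurableSet_Ioi
    intro s hs
    simp only [ker_succ a c ζ hs]
    ring
  rw [h3] at h2
  exact h2

lemma hasDerivAt_J_real {a : ℂ} (c : ℂ) (ha : 0 < a.re) {ρ : ℝ} (hρ : 0 < ρ) :
    HasDerivAt (fun x : ℝ => J a c (x : ℂ)) (-(J (a + 1) c (ρ : ℂ))) ρ := by
  have h := hasDerivAt_J (ζ := (ρ : ℂ)) c ha (by simpa using hρ)
  exact h.comp_ofReal

lemma differentiableAt_J {a ζ : ℂ} (c : ℂ) (ha : 0 < a.re) (hζ : 0 < ζ.re) :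
    DifferentiableAt ℂ (J a c) ζ := (hasDerivAt_J c ha hζ).differentiableAt

/-- (R2) -/
theorem J_rec_c {a ζ : ℂ} (c : ℂ) (ha : 0 < a.re) (hζ : 0 < ζ.re) :
    J a c ζ = J a (c - 1) ζ + I * J (a + 1) (c - 1) ζ := by
  unfold J
  rw [← integral_const_mul, ← integral_add (integrableOn_ker (c - 1) ha hζ)]
  · apply setIntegral_congr_fun measurableSet_Ioi
    intro s hs
    simp only [ker_succ a (c - 1) ζ hs, ker_c_pred a c ζ s]
    ring
  · exact (integrableOn_ker (c - 1) (by simp; linarith) hζ).const_mul I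

/-- Derivative in `s` of `e^{-ζ s} s^a (1+is)^c`. -/
lemma hasDerivAt_ker_s (a c ζ : ℂ) {s : ℝ} (hs : 0 < s) :
    HasDerivAt (fun x : ℝ => ker (a + 1) c ζ x)
      (a * ker a c ζ s - ζ * ker (a + 1) c ζ s + I * c * ker (a + 1) (c - 1) ζ s) s := by
  have hs' : (s : ℂ) ≠ 0 := by exact_mod_cast hs.ne'
  have hsl : (s : ℂ) ∈ slitPlane := by
    rw [mem_slitPlane_iff]; left; simpa using hs
  have h1 : HasDerivAt (fun z : ℂ => cexp (-(ζ * z))) (cexp (-(ζ * s)) * (-ζ)) (s : ℂ) := by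
    have : HasDerivAt (fun z : ℂ => -(ζ * z)) (-ζ) (s : ℂ) := by
      simpa using ((hasDerivAt_id (s : ℂ)).const_mul ζ).fun_neg
    exact this.cexp
  have h2 : HasDerivAt (fun z : ℂ => z ^ (a + 1 - 1)) ((a + 1 - 1) * (s : ℂ) ^ (a + 1 - 1 - 1) * 1)
      (s : ℂ) := (hasDerivAt_id (s : ℂ)).cpow_const hsl
  have h3 : HasDerivAt (fun z : ℂ => (1 + I * z) ^ c) (c * (1 + I * (s : ℂ)) ^ (c - 1) * I)
      (s : ℂ) := by
    have h0 : HasDerivAt (fun z : ℂ => 1 + I * z) I (s : ℂ) := by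
      simpa using ((hasDerivAt_id (s : ℂ)).const_mul I).const_add 1
    exact h0.cpow_const (one_add_slit s)
  have h4 : HasDerivAt (fun x : ℝ => ker (a + 1) c ζ x) _ s := ((h1.mul h2).mul h3).comp_ofReal
  refine h4.congr_deriv ?_
  unfold ker
  simp only [Pi.mul_apply]
  rw [show a + 1 - 1 = a by ring]
  ring

end Vale.Agent.P139.KU
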