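import Vale.Agent.P139.KU.Evans

/-!
# Divided differences of the slow solutions in the spectral parameter

Joint continuity of `dslope (f q) x₀ x` for a continuous family of holomorphic functions, and
its derivative in a real parameter.  Instances for `F0`, `F0'`, `F0s`, `F0s'`.
-/

noncomputable section

open MeasureTheory Set Filter Topology Complex ComplexConjugate

namespace Vale.Agent.P139.KU

/-- Divided differences of a continuous family of holomorphic functions are jointly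
continuous. -/
theorem continuousAt_dslope_family {X : Type*} [TopologicalSpace X] {f : X → ℂ → ℂ} {q₀ : X}
    {U : Set ℂ} (hU : IsOpen U) {x₀ x : ℂ} (h₀ : x₀ ∈ U) (h : x ∈ U)
    (hd : ∀ᶠ q in 𝓝 q₀, DifferentiableOn ℂ (f q) U)
    (hc : ∀ z ∈ U, ContinuousAt (fun p : X × ℂ => f p.1 p.2) (q₀, z)) :
    ContinuousAt (fun p : X × ℂ × ℂ => dslope (f p.1) p.2.1 p.2.2) (q₀, x₀, x) := by
  have p1 : Tendsto (fun p : X × ℂ × ℂ => (p.1, p.2.1)) (𝓝 (q₀, x₀, x)) (𝓝 (q₀, x₀)) :=
    (continuous_fst.prodMk continuous_snd.fst).tendsto (q₀, x₀, x)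
  have p2 : Tendsto (fun p : X × ℂ × ℂ => (p.1, p.2.2)) (𝓝 (q₀, x₀, x)) (𝓝 (q₀, x)) :=
    (continuous_fst.prodMk continuous_snd.snd).tendsto (q₀, x₀, x)
  by_cases hne : x = x₀
  · subst hne
    have hD := continuousAt_deriv_family hU h hd hc
    rw [ContinuousAt, Metric.tendsto_nhds]
    intro ε hε
    have hev := hD.eventually (Metric.ball_mem_nhds _ (half_pos hε))
    rw [nhds_prod_eq] at hev
    obtain ⟨V, hV, A, hA, hVA⟩ := Filter.mem_prod_iff.1 hev
    obtain ⟨ρ', hρ', hρA⟩ := Metric.mem_nhds_iff.1 (Filter.inter_mem hA (hU.mem_nhds h))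
    have e1 : ∀ᶠ p : X × ℂ × ℂ in 𝓝 (q₀, x, x), p.1 ∈ V :=
      (continuous_fst.tendsto (q₀, x, x)).eventually hV
    have e2 : ∀ᶠ p : X × ℂ × ℂ in 𝓝 (q₀, x, x), DifferentiableOn ℂ (f p.1) U :=
      (continuous_fst.tendsto (q₀, x, x)).eventually hd
    have e3 : ∀ᶠ p : X × ℂ × ℂ in 𝓝 (q₀, x, x), p.2.1 ∈ Metric.ball x ρ' :=
      (continuous_snd.fst.tendsto (q₀, x, x)).eventually (Metric.ball_mem_nhds x hρ')
    have e4 : ∀ᶠ p : X × ℂ × ℂ in 𝓝 (q₀, x, x), p.2.2 ∈ Metric.ball x ρ' :=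
      (continuous_snd.snd.tendsto (q₀, x, x)).eventually (Metric.ball_mem_nhds x hρ')
    filter_upwards [e1, e2, e3, e4] with p hp1 hp2 hp3 hp4
    obtain ⟨q, y, z⟩ := p
    simp only at hp1 hp2 hp3 hp4 ⊢
    rw [dslope_same, dist_eq_norm]
    by_cases hyz : z = y
    · subst hyz
      rw [dslope_same]
      have := hVA (show (q, z) ∈ V ×ˢ A from ⟨hp1, (hρA hp3).1⟩)
      have h3 : dist (deriv (f q) z) (deriv (f q₀) x) < ε / 2 := this
      rw [dist_eq_norm] at h3
      linarith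
    · rw [dslope_of_ne _ hyz, slope_def_module]
      have hb := (convex_ball x ρ').norm_image_sub_le_of_norm_hasDerivWithin_le
        (f := fun ζ => f q ζ - ζ * deriv (f q₀) x)
        (f' := fun ζ => deriv (f q) ζ - deriv (f q₀) x) (C := ε / 2) (x := y) (y := z)
        (fun ζ hζ => by
          have := (hp2.differentiableAt (hU.mem_nhds (hρA hζ).2)).hasDerivAt
          have h2 := this.sub ((hasDerivAt_id ζ).mul_const (deriv (f q₀) x))
          rw [one_mul] at h2
          exact h2.hasDerivWithinAt)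
        (fun ζ hζ => by
          have := hVA (show (q, ζ) ∈ V ×ˢ A from ⟨hp1, (hρA hζ).1⟩)
          have h3 : dist (deriv (f q) ζ) (deriv (f q₀) x) < ε / 2 := this
          rw [dist_eq_norm] at h3
          exact h3.le) hp3 hp4
      have hzy : z - y ≠ 0 := sub_ne_zero.2 hyz
      have hn : 0 < ‖z - y‖ := norm_pos_iff.2 hzy
      have e : (z - y)⁻¹ • (f q z - f q y) - deriv (f q₀) x =
          (z - y)⁻¹ * (f q z - z * deriv (f q₀) x - (f q y - y * deriv (f q₀) x)) := by
        rw [smul_eq_mul]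
        field_simp
        ring
      rw [e, norm_mul, norm_inv]
      calc ‖z - y‖⁻¹ * ‖f q z - z * deriv (f q₀) x - (f q y - y * deriv (f q₀) x)‖
          ≤ ‖z - y‖⁻¹ * (ε / 2 * ‖z - y‖) := by gcongr
        _ = ε / 2 := by field_simp
        _ < ε := by linarith
  · have hev : ∀ᶠ p : X × ℂ × ℂ in 𝓝 (q₀, x₀, x), p.2.2 ≠ p.2.1 := by
      have : ContinuousAt (fun p : X × ℂ × ℂ => p.2.2 - p.2.1) (q₀, x₀, x) := by fun_prop
      filter_upwards [this.eventually_ne (sub_ne_zero.2 hne)] with p hp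
      exact sub_ne_zero.1 hp
    have hev2 : (fun p : X × ℂ × ℂ => dslope (f p.1) p.2.1 p.2.2) =ᶠ[𝓝 (q₀, x₀, x)]
        fun p => (p.2.2 - p.2.1)⁻¹ * (f p.1 p.2.2 - f p.1 p.2.1) := by
      filter_upwards [hev] with p hp
      rw [dslope_of_ne _ hp, slope_def_module, smul_eq_mul]
    refine ContinuousAt.congr ?_ hev2.symm
    refine ContinuousAt.mul (ContinuousAt.inv₀ (by fun_prop) (sub_ne_zero.2 hne)) ?_
    exact ((hc x h).tendsto.comp p2).sub ((hc x₀ h₀).tendsto.comp p1)

/-- Derivative of a divided difference in a real parameter. -/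
theorem hasDerivAt_dslope_family {f f' : ℝ → ℂ → ℂ} {U : Set ℂ} (hU : IsOpen U) {s : Set ℝ}
    (hs : IsOpen s) (hd : ∀ r ∈ s, DifferentiableOn ℂ (f r) U)
    (hd' : ∀ r ∈ s, DifferentiableOn ℂ (f' r) U)
    (hc : ∀ r ∈ s, ∀ z ∈ U, ContinuousAt (fun p : ℝ × ℂ => f p.1 p.2) (r, z))
    (hc' : ∀ r ∈ s, ∀ z ∈ U, ContinuousAt (fun p : ℝ × ℂ => f' p.1 p.2) (r, z))
    (hder : ∀ r ∈ s, ∀ z ∈ U, HasDerivAt (fun r => f r z) (f' r z) r)
    {x₀ x : ℂ} (h₀ : x₀ ∈ U) (h : x ∈ U) {r : ℝ} (hr : r ∈ s) :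
    HasDerivAt (fun r => dslope (f r) x₀ x) (dslope (f' r) x₀ x) r := by
  have key : ∀ y ∈ U, y ≠ x₀ → ∀ t ∈ s,
      HasDerivAt (fun r => dslope (f r) x₀ y) (dslope (f' t) x₀ y) t := by
    intro y hy hne t ht
    simp only [dslope_of_ne _ hne, slope_def_module, smul_eq_mul]
    exact ((hder t ht y hy).sub (hder t ht x₀ h₀)).const_mul _
  by_cases hne : x = x₀
  · subst hne
    have hJ : ∀ t ∈ s, ContinuousAt (fun p : ℝ × ℂ × ℂ => dslope (f t) x p.2.2)
        (t, x, x) := fun t ht => by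
      have := continuousAt_dslope_family (X := ℝ) (f := f) (q₀ := t) hU h h
        (by filter_upwards [hs.mem_nhds ht] with q hq using hd q hq) (hc t ht)
      have h2 : ContinuousAt (fun p : ℝ × ℂ × ℂ => (t, x, p.2.2)) (t, x, x) := by fun_prop
      exact ContinuousAt.comp (g := fun p : ℝ × ℂ × ℂ => dslope (f p.1) p.2.1 p.2.2)
        (f := fun p : ℝ × ℂ × ℂ => (t, x, p.2.2)) this h2
    have hJ' : ∀ t ∈ s, ContinuousAt (fun p : ℝ × ℂ => dslope (f' p.1) x p.2)
        (t, x) := fun t ht => by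
      have := continuousAt_dslope_family (X := ℝ) (f := f') (q₀ := t) hU h h
        (by filter_upwards [hs.mem_nhds ht] with q hq using hd' q hq) (hc' t ht)
      have h2 : ContinuousAt (fun p : ℝ × ℂ => (p.1, x, p.2)) (t, x) := by fun_prop
      exact ContinuousAt.comp (g := fun p : ℝ × ℂ × ℂ => dslope (f' p.1) p.2.1 p.2.2)
        (f := fun p : ℝ × ℂ => (p.1, x, p.2)) this h2
    refine hasDerivAt_of_tendstoLocallyUniformlyOn (l := 𝓝[≠] x) hs
      (f := fun y t => dslope (f t) x y) (f' := fun y t => dslope (f' t) x y)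
      (g := fun t => dslope (f t) x x) (g' := fun t => dslope (f' t) x x) ?_ ?_ ?_ hr
    · rw [Metric.tendstoLocallyUniformlyOn_iff]
      intro ε hε t ht
      have hev := (hJ' t ht).eventually (Metric.ball_mem_nhds _ (half_pos hε))
      rw [nhds_prod_eq] at hev
      obtain ⟨V, hV, A, hA, hVA⟩ := Filter.mem_prod_iff.1 hev
      refine ⟨V, nhdsWithin_le_nhds hV, ?_⟩
      filter_upwards [nhdsWithin_le_nhds hA] with y hy t' ht'
      have h1 : dist (dslope (f' t') x y) (dslope (f' t) x x) < ε / 2 :=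
        hVA (show (t', y) ∈ V ×ˢ A from ⟨ht', hy⟩)
      have h2 : dist (dslope (f' t') x x) (dslope (f' t) x x) < ε / 2 :=
        hVA (show (t', x) ∈ V ×ˢ A from ⟨ht', mem_of_mem_nhds hA⟩)
      calc dist (dslope (f' t') x x) (dslope (f' t') x y)
          ≤ dist (dslope (f' t') x x) (dslope (f' t) x x) +
            dist (dslope (f' t') x y) (dslope (f' t) x x) := dist_triangle_right _ _ _
        _ < ε := by linarith
    · filter_upwards [self_mem_nhdsWithin, nhdsWithin_le_nhds (hU.mem_nhds h)] with y hy hyU t ht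
      exact key y hyU hy t ht
    · intro t ht
      have h1 := (hJ t ht).tendsto
      have h2 : Tendsto (fun y : ℂ => ((t, x, y) : ℝ × ℂ × ℂ)) (𝓝[≠] x) (𝓝 (t, x, x)) := by
        have : Tendsto (fun y : ℂ => ((t, x, y) : ℝ × ℂ × ℂ)) (𝓝 x) (𝓝 (t, x, x)) :=
          (by fun_prop : Continuous fun y : ℂ => ((t, x, y) : ℝ × ℂ × ℂ)).tendsto x
        exact this.mono_left nhdsWithin_le_nhds
      exact h1.comp h2
  · exact key x h hne r hr

/-- Product rule for divided differences. -/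
theorem dslope_mul' {f g : ℂ → ℂ} {x₀ x : ℂ} (hf : DifferentiableAt ℂ f x₀)
    (hg : DifferentiableAt ℂ g x₀) :
    dslope (fun y => f y * g y) x₀ x = dslope f x₀ x * g x + f x₀ * dslope g x₀ x := by
  by_cases hne : x = x₀
  · subst hne
    rw [dslope_same, dslope_same, dslope_same, deriv_fun_mul hf hg]
  · have : x - x₀ ≠ 0 := sub_ne_zero.2 hne
    simp only [dslope_of_ne _ hne, slope_def_module, smul_eq_mul]
    field_simp
    ring

theorem dslope_const_mul {f : ℂ → ℂ} {x₀ x : ℂ} (k : ℂ) :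
    dslope (fun y => k * f y) x₀ x = k * dslope f x₀ x := by
  by_cases hne : x = x₀
  · subst hne
    rw [dslope_same, dslope_same, deriv_const_mul_field]
  · simp only [dslope_of_ne _ hne, slope_def_module, smul_eq_mul]
    ring

/-- Divided differences and Schwarz reflection. -/
theorem dslope_conj_conj {f : ℂ → ℂ} {x₀ x : ℂ} :
    dslope (fun y => conj (f (conj y))) x₀ x = conj (dslope f (conj x₀) (conj x)) := by
  by_cases hne : x = x₀
  · subst hne
    rw [dslope_same, dslope_same]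
    exact congrFun (deriv_conj_conj (f := f)) x
  · have hne' : conj x ≠ conj x₀ := fun h => hne (star_injective h)
    simp only [dslope_of_ne _ hne, dslope_of_ne _ hne', slope_def_module, smul_eq_mul, map_mul,
      map_sub, map_inv₀, Complex.conj_conj]

end Vale.Agent.P139.KU
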