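import Vale.Agent.P139.KU.Deriv

/-!
# Integration by parts: the contiguous relation (R1), the Kummer equation, iterated derivatives
-/

noncomputable section

open MeasureTheory Set Filter Topology Complex

namespace Vale.Agent.P139.KU

lemma tendsto_majorant_atTop {κ : ℝ} (β m : ℝ) (hκ : 0 < κ) :
    Tendsto (fun s : ℝ => Real.exp (-(κ * s)) * s ^ β * (1 + s) ^ m) atTop (𝓝 0) := by
  have h1 : Tendsto (fun x : ℝ => x ^ (|β| + m) * Real.exp (-κ * x)) atTop (𝓝 0) :=
    tendsto_rpow_mul_exp_neg_mul_atTop_nhds_zero _ κ hκ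
  have h2 : Tendsto (fun s : ℝ => Real.exp κ * ((1 + s) ^ (|β| + m) * Real.exp (-κ * (1 + s))))
      atTop (𝓝 (Real.exp κ * 0)) :=
    (h1.comp (tendsto_atTop_add_const_left atTop 1 tendsto_id)).const_mul _
  rw [mul_zero] at h2
  refine squeeze_zero' ?_ ?_ h2
  · filter_upwards [eventually_ge_atTop (0 : ℝ)] with s hs
    positivity
  · filter_upwards [eventually_ge_atTop (1 : ℝ)] with s hs
    have hs0 : (0 : ℝ) < s := by linarith
    have e1 : s ^ β ≤ (1 + s) ^ |β| := by
      calc s ^ β ≤ s ^ |β| := Real.rpow_le_rpow_of_exponent_le hs (le_abs_self _)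
        _ ≤ (1 + s) ^ |β| := Real.rpow_le_rpow hs0.le (by linarith) (abs_nonneg _)
    calc Real.exp (-(κ * s)) * s ^ β * (1 + s) ^ m
        ≤ Real.exp (-(κ * s)) * (1 + s) ^ |β| * (1 + s) ^ m := by gcongr
      _ = Real.exp κ * ((1 + s) ^ (|β| + m) * Real.exp (-κ * (1 + s))) := by
          rw [Real.rpow_add (by linarith : (0:ℝ) < 1 + s)]
          have : Real.exp (-(κ * s)) = Real.exp κ * Real.exp (-κ * (1 + s)) := by
            rw [← Real.exp_add]; ring_nf
          rw [this]; ring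

lemma tendsto_ker_atTop {ζ : ℂ} (a c : ℂ) (hζ : 0 < ζ.re) :
    Tendsto (ker a c ζ) atTop (𝓝 0) := by
  rw [tendsto_zero_iff_norm_tendsto_zero]
  have h := (tendsto_majorant_atTop (a.re - 1) |c.re| hζ).const_mul
    (Real.exp (|c.im| * (Real.pi / 2)))
  rw [mul_zero] at h
  refine squeeze_zero' (Eventually.of_forall fun s => norm_nonneg _) ?_ h
  filter_upwards [eventually_gt_atTop (0 : ℝ)] with s hs
  exact norm_ker_le a c ζ hs

lemma continuousWithinAt_ker_zero {a : ℂ} (c ζ : ℂ) (ha : 0 < a.re) :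
    ContinuousWithinAt (ker (a + 1) c ζ) (Ici 0) 0 := by
  unfold ker
  apply ContinuousWithinAt.mul
  apply ContinuousWithinAt.mul
  · exact (by fun_prop : Continuous fun s : ℝ => cexp (-(ζ * s))).continuousWithinAt
  · have h : ContinuousAt (fun z : ℂ => z ^ (a + 1 - 1)) 0 := by
      have := Complex.continuousAt_cpow_const_of_re_pos (z := (0 : ℂ)) (w := a + 1 - 1)
        (Or.inl le_rfl) (by simpa using ha)
      exact this
    have h2 : ContinuousAt (fun s : ℝ => (s : ℂ) ^ (a + 1 - 1)) 0 := by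
      have := ContinuousAt.comp (f := fun s : ℝ => (s : ℂ)) (g := fun z : ℂ => z ^ (a + 1 - 1))
        (x := (0 : ℝ)) (by simpa using h) continuous_ofReal.continuousAt
      exact this
    exact h2.continuousWithinAt
  · have h : ContinuousAt (fun s : ℝ => (1 + I * (s : ℂ)) ^ c) 0 :=
      ContinuousAt.cpow (by fun_prop) continuousAt_const (one_add_slit 0)
    exact h.continuousWithinAt

/-- (R1) integration by parts -/
theorem J_rec_a {a ζ : ℂ} (c : ℂ) (ha : 0 < a.re) (hζ : 0 < ζ.re) :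
    a * J a c ζ = ζ * J (a + 1) c ζ - I * c * J (a + 1) (c - 1) ζ := by
  have ha1 : 0 < (a + 1).re := by simp; linarith
  have i0 := integrableOn_ker c ha hζ
  have i1 := integrableOn_ker c ha1 hζ
  have i2 := integrableOn_ker (c - 1) ha1 hζ
  have hint : IntegrableOn (fun s : ℝ => a * ker a c ζ s - ζ * ker (a + 1) c ζ s +
      I * c * ker (a + 1) (c - 1) ζ s) (Ioi 0) :=
    ((i0.const_mul a).sub (i1.const_mul ζ)).add (i2.const_mul (I * c))
  have h := integral_Ioi_of_hasDerivAt_of_tendsto (f := ker (a + 1) c ζ)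
    (continuousWithinAt_ker_zero c ζ ha) (fun s hs => hasDerivAt_ker_s a c ζ hs) hint
    (tendsto_ker_atTop (a + 1) c hζ)
  have hz : ker (a + 1) c ζ 0 = 0 := by
    unfold ker
    have : ((0 : ℝ) : ℂ) ^ (a + 1 - 1) = 0 := by
      rw [show a + 1 - 1 = a by ring, ofReal_zero]
      apply Complex.zero_cpow
      intro h0; rw [h0] at ha; simp at ha
    rw [this]; ring
  rw [hz, sub_zero] at h
  have e : (∫ s in Ioi (0 : ℝ), (a * ker a c ζ s - ζ * ker (a + 1) c ζ s +
      I * c * ker (a + 1) (c - 1) ζ s)) = a * J a c ζ - ζ * J (a + 1) c ζ +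
      I * c * J (a + 1) (c - 1) ζ := by
    unfold J
    rw [← integral_const_mul, ← integral_const_mul, ← integral_const_mul,
      ← integral_sub (i0.const_mul a) (i1.const_mul ζ)]
    exact integral_add ((i0.const_mul a).sub (i1.const_mul ζ)) (i2.const_mul (I * c))
  rw [e] at h
  linear_combination h

/-- Kummer's equation in contiguous form. -/
theorem J_ode {a ζ : ℂ} (c : ℂ) (ha : 0 < a.re) (hζ : 0 < ζ.re) :
    ζ * J (a + 2) c ζ - (a + c + 1 + I * ζ) * J (a + 1) c ζ + I * a * J a c ζ = 0 := by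
  have ha1 : 0 < (a + 1).re := by simp; linarith
  have r1 := J_rec_a c ha hζ
  have r2 := J_rec_c c ha1 hζ
  have r3 := J_rec_a c ha1 hζ
  rw [show a + 1 + 1 = a + 2 by ring] at r2 r3
  have hI : I * I = -1 := Complex.I_mul_I
  linear_combination -c * r2 + I * r1 - r3 - (c * J (a + 1) (c - 1) ζ) * hI

/-- `J` as a function of a real variable solves `ρ y'' + (b + iρ) y' + i a y = 0`. -/
theorem J_ode_real {a : ℂ} (c : ℂ) (ha : 0 < a.re) {ρ : ℝ} (hρ : 0 < ρ) :
    (ρ : ℂ) * deriv (deriv (fun x : ℝ => J a c (x : ℂ))) ρ +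
      (a + c + 1 + I * ρ) * deriv (fun x : ℝ => J a c (x : ℂ)) ρ + I * a * J a c ρ = 0 := by
  have ha1 : 0 < (a + 1).re := by simp; linarith
  have e1 : deriv (fun x : ℝ => J a c (x : ℂ)) ρ = -(J (a + 1) c (ρ : ℂ)) :=
    (hasDerivAt_J_real c ha hρ).deriv
  have e2 : deriv (deriv (fun x : ℝ => J a c (x : ℂ))) ρ = J (a + 2) c (ρ : ℂ) := by
    have heq : deriv (fun x : ℝ => J a c (x : ℂ)) =ᶠ[𝓝 ρ] fun x => -(J (a + 1) c (x : ℂ)) := by
      filter_upwards [eventually_gt_nhds hρ] with x hx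
      exact (hasDerivAt_J_real c ha hx).deriv
    rw [heq.deriv_eq]
    have h := (hasDerivAt_J_real c ha1 hρ).fun_neg
    rw [neg_neg, show a + 1 + 1 = a + 2 by ring] at h
    exact h.deriv
  have h := J_ode (ζ := (ρ : ℂ)) c ha (by simpa using hρ)
  rw [e1, e2]
  linear_combination h

/-- Iterated derivative in `ζ`. -/
theorem iteratedDeriv_J (c : ℂ) (n : ℕ) : ∀ {a ζ : ℂ}, 0 < a.re → 0 < ζ.re →
    iteratedDeriv n (J a c) ζ = (-1) ^ n * J (a + n) c ζ := by
  induction n with
  | zero => intro a ζ ha hζ; simp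
  | succ n ih =>
    intro a ζ ha hζ
    rw [iteratedDeriv_succ]
    have heq : iteratedDeriv n (J a c) =ᶠ[𝓝 ζ] fun z => (-1) ^ n * J (a + n) c z := by
      have : ∀ᶠ z : ℂ in 𝓝 ζ, 0 < z.re :=
        (Complex.continuous_re.continuousAt).eventually (eventually_gt_nhds hζ)
      filter_upwards [this] with z hz
      exact ih ha hz
    rw [heq.deriv_eq]
    have han : 0 < (a + (n : ℂ)).re := by
      simp only [Complex.add_re, Complex.natCast_re]; positivity
    have h := (hasDerivAt_J (ζ := ζ) c han hζ).const_mul ((-1 : ℂ) ^ n)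
    rw [h.deriv, pow_succ]
    push_cast
    rw [show a + ((n : ℂ) + 1) = a + n + 1 by ring]
    ring

/-- A crude bound of `J`. -/
lemma norm_J_le {a ζ : ℂ} (c : ℂ) (ha : 0 < a.re) (hζ : 0 < ζ.re) :
    ‖J a c ζ‖ ≤ Real.exp (|c.im| * (Real.pi / 2)) *
    ∫ s in Ioi (0 : ℝ), Real.exp (-(ζ.re * s)) * s ^ (a.re - 1) * (1 + s) ^ |c.re| := by
  have hint := majorant_integrable |c.re| ha hζ
  unfold J
  rw [← integral_const_mul]
  refine norm_integral_le_of_norm_le (hint.const_mul _) ?_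
  exact (ae_restrict_iff' measurableSet_Ioi).mpr
    (Eventually.of_forall fun s hs => norm_ker_le a c ζ hs)

end Vale.Agent.P139.KU
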