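import Vale.Agent.P139.KU.Holo
import Vale.Agent.P139.KU.Rec

/-!
# The normalised slow solution `S a b ζ`, `Re a > -1`

`S a b ζ = [ (ζ - i b) J (a+1) (b-a-1) ζ + i ζ J (a+2) (b-a-1) ζ ] / Γ(a+1)`;
for `0 < Re a` it is `J a (b-a-1) ζ / Γ(a)`.  Classically
`U(a,b,-iζ) = i^a S a b ζ`, and `S a b ζ ~ ζ^{-a}`.
-/

noncomputable section

open MeasureTheory Set Filter Topology Complex

namespace Vale.Agent.P139.KU

lemma J_rec_zero {ζ : ℂ} (C : ℂ) (hζ : 0 < ζ.re) :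
    1 + I * C * J 1 (C - 1) ζ = ζ * J 1 C ζ := by
  have h1 : 0 < (0 + 1 : ℂ).re := by simp
  have i1 := integrableOn_ker (a := 0 + 1) (ζ := ζ) C h1 hζ
  have i3 := integrableOn_ker (a := 0 + 1) (ζ := ζ) (C - 1) h1 hζ
  have hI : IntegrableOn (fun s => -ζ * ker (0 + 1) C ζ s +
      I * C * ker (0 + 1) (C - 1) ζ s) (Ioi 0) :=
    (i1.const_mul (-ζ)).add (i3.const_mul (I * C))
  have hd : ∀ s ∈ Ioi (0:ℝ), HasDerivAt (ker (0 + 1) C ζ) (-ζ * ker (0 + 1) C ζ s +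
      I * C * ker (0 + 1) (C - 1) ζ s) s := by
    intro s _
    have h0 : HasDerivAt (fun s : ℝ => (s : ℂ)) 1 s := Complex.ofRealCLM.hasDerivAt
    have h1 : HasDerivAt (fun s : ℝ => cexp (-(ζ * s))) (cexp (-(ζ * s)) * (-(ζ * 1))) s :=
      ((h0.const_mul ζ).neg).cexp
    have h3 : HasDerivAt (fun s : ℝ => (1 + I * (s : ℂ)) ^ C)
        (C * (1 + I * (s : ℂ)) ^ (C - 1) * (I * 1)) s := by
      have e := ((h0.const_mul I).const_add 1)
      have := (hasDerivAt_id (1 + I * (s : ℂ))).cpow_const (c := C) (one_add_slit s)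
      have h := HasDerivAt.comp_of_eq s this e rfl
      refine (h.congr_deriv ?_)
      simp
    have h := h1.mul h3
    have e : ker (0 + 1) C ζ = (fun s : ℝ => cexp (-(ζ * s))) * fun s : ℝ => (1 + I * (s : ℂ)) ^ C := by
      funext s; simp [ker]
    rw [e]
    refine h.congr_deriv ?_
    simp only [ker, zero_add, sub_self, Complex.cpow_zero, Pi.mul_apply]
    ring
  have hlim := tendsto_zero_of_hasDerivAt_of_integrableOn_Ioi hd hI i1
  have hc : ContinuousWithinAt (ker (0 + 1) C ζ) (Ici 0) 0 := by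
    apply ContinuousAt.continuousWithinAt
    have e : ker (0 + 1) C ζ = fun s : ℝ => cexp (-(ζ * s)) * (1 + I * (s : ℂ)) ^ C := by
      funext s; simp [ker]
    rw [e]
    exact ContinuousAt.mul (by fun_prop) (ContinuousAt.cpow (by fun_prop) continuousAt_const
      (one_add_slit 0))
  have h := integral_Ioi_of_hasDerivAt_of_tendsto hc hd hI hlim
  have e0 : ker (0 + 1) C ζ 0 = 1 := by simp [ker]
  rw [integral_add (i1.const_mul (-ζ)) (i3.const_mul (I * C)), integral_const_mul,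
    integral_const_mul, e0] at h
  simp only [J]
  rw [zero_add] at h
  linear_combination h

/-- The three term relation behind the ODE, solved for the lowest index. -/
lemma J_low {a ζ : ℂ} (c : ℂ) (ha : 0 < a.re) (hζ : 0 < ζ.re) :
    a * J a c ζ = (ζ - I * (a + c + 1)) * J (a + 1) c ζ + I * ζ * J (a + 2) c ζ := by
  have h := J_ode c ha hζ
  linear_combination (-I) * h + (a * J a c ζ - ζ * J (a + 1) c ζ) * Complex.I_sq

/-- The same for `a = 0`. -/
lemma J_low_zero {ζ : ℂ} (c : ℂ) (hζ : 0 < ζ.re) :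
    1 = (ζ - I * (c + 1)) * J 1 c ζ + I * ζ * J 2 c ζ := by
  have h1 := J_rec_zero (c + 1) hζ
  have h3 := J_rec_c (a := 1) (c + 1) (by simp) hζ
  rw [add_sub_cancel_right] at h1 h3
  rw [h3, one_add_one_eq_two] at h1
  linear_combination h1

/-- The normalised slow solution. -/
def S (a b ζ : ℂ) : ℂ :=
  ((ζ - I * b) * J (a + 1) (b - a - 1) ζ + I * ζ * J (a + 2) (b - a - 1) ζ) / Gamma (a + 1)

theorem S_eq_of_pos {a ζ : ℂ} (b : ℂ) (ha : 0 < a.re) (hζ : 0 < ζ.re) :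
    S a b ζ = J a (b - a - 1) ζ / Gamma a := by
  have ha0 : a ≠ 0 := by rintro rfl; simp at ha
  have h := J_low (b - a - 1) ha hζ
  rw [show a + (b - a - 1) + 1 = b by ring] at h
  rw [S, ← h, Complex.Gamma_add_one a ha0, mul_div_mul_left _ _ ha0]

theorem S_zero {ζ : ℂ} (b : ℂ) (hζ : 0 < ζ.re) : S 0 b ζ = 1 := by
  have h := J_low_zero (b - 0 - 1) hζ
  rw [show b - 0 - 1 + 1 = b by ring] at h
  rw [S, zero_add, zero_add, Complex.Gamma_one, div_one, ← h]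

/-- Contiguous relation, for all `Re a > -1`. -/
theorem S_rec {a ζ : ℂ} (b : ℂ) (ha : -1 < a.re) (hζ : 0 < ζ.re) :
    S a b ζ = (ζ - I * b) * S (a + 1) (b + 1) ζ + I * ζ * (a + 1) * S (a + 2) (b + 2) ζ := by
  have ha1 : 0 < (a + 1).re := by simp; linarith
  have ha2 : 0 < (a + 2).re := by simp; linarith
  have ha10 : a + 1 ≠ 0 := by intro h; rw [h] at ha1; simp at ha1
  rw [S_eq_of_pos (b + 1) ha1 hζ, S_eq_of_pos (b + 2) ha2 hζ, S,
    show b + 1 - (a + 1) - 1 = b - a - 1 by ring, show b + 2 - (a + 2) - 1 = b - a - 1 by ring,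
    show a + 2 = a + 1 + 1 by ring, Complex.Gamma_add_one (a + 1) ha10]
  have hG : Gamma (a + 1) ≠ 0 := Complex.Gamma_ne_zero_of_re_pos ha1
  field_simp

/-- Second contiguous relation (gives the time translation mode). -/
theorem S_contig {a ζ : ℂ} (b : ℂ) (ha : -1 < a.re) (hζ : 0 < ζ.re) :
    S a b ζ = ζ * S (a + 1) (b + 1) ζ + I * (1 + a - b) * S (a + 1) b ζ := by
  have ha1 : 0 < (a + 1).re := by simp; linarith
  have hG : Gamma (a + 1) ≠ 0 := Complex.Gamma_ne_zero_of_re_pos ha1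
  have h1 := J_rec_a (b - a - 1) ha1 hζ
  have h2 := J_rec_c (b - a - 1) ha1 hζ
  rw [add_assoc, one_add_one_eq_two] at h1 h2
  rw [S_eq_of_pos (b + 1) ha1 hζ, S_eq_of_pos b ha1 hζ, S,
    show b + 1 - (a + 1) - 1 = b - a - 1 by ring, show b - (a + 1) - 1 = b - a - 1 - 1 by ring,
    mul_div_assoc', mul_div_assoc', ← add_div]
  congr 1
  linear_combination (-I) * h1 + (-I) * (b - a - 1) * h2

/-- The region where `S` is defined and holomorphic. -/
def domS : Set (ℂ × ℂ × ℂ) := {p | -1 < p.1.re ∧ 0 < p.2.2.re}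

lemma isOpen_domS : IsOpen domS := by
  apply IsOpen.inter
  · exact isOpen_lt continuous_const (Complex.continuous_re.comp continuous_fst)
  · exact isOpen_lt continuous_const (Complex.continuous_re.comp (continuous_snd.comp continuous_snd))

/-- `(a,b,ζ) ↦ S a b ζ` is jointly complex differentiable on `{Re a > -1, Re ζ > 0}`. -/
theorem differentiableAt_S {p : ℂ × ℂ × ℂ} (hp : p ∈ domS) :
    DifferentiableAt ℂ (fun q : ℂ × ℂ × ℂ => S q.1 q.2.1 q.2.2) p := by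
  obtain ⟨h1, h2⟩ := hp
  have e1 : DifferentiableAt ℂ (fun q : ℂ × ℂ × ℂ => J (q.1 + 1) (q.2.1 - q.1 - 1) q.2.2) p := by
    have hd : ((p.1 + 1, p.2.1 - p.1 - 1, p.2.2) : ℂ × ℂ × ℂ) ∈ dom :=
      ⟨by simp; linarith, h2⟩
    have hJ := (hasFDerivAt_J hd).differentiableAt
    exact DifferentiableAt.comp p (g := fun q : ℂ × ℂ × ℂ => J q.1 q.2.1 q.2.2)
      (f := fun q : ℂ × ℂ × ℂ => ((q.1 + 1, q.2.1 - q.1 - 1, q.2.2) : ℂ × ℂ × ℂ)) hJ
      (by fun_prop)
  have e2 : DifferentiableAt ℂ (fun q : ℂ × ℂ × ℂ => J (q.1 + 2) (q.2.1 - q.1 - 1) q.2.2) p := by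
    have hd : ((p.1 + 2, p.2.1 - p.1 - 1, p.2.2) : ℂ × ℂ × ℂ) ∈ dom :=
      ⟨by simp; linarith, h2⟩
    have hJ := (hasFDerivAt_J hd).differentiableAt
    exact DifferentiableAt.comp p (g := fun q : ℂ × ℂ × ℂ => J q.1 q.2.1 q.2.2)
      (f := fun q : ℂ × ℂ × ℂ => ((q.1 + 2, q.2.1 - q.1 - 1, q.2.2) : ℂ × ℂ × ℂ)) hJ
      (by fun_prop)
  have e3 : DifferentiableAt ℂ (fun q : ℂ × ℂ × ℂ => (Gamma (q.1 + 1))⁻¹) p :=
    DifferentiableAt.comp p (g := fun z : ℂ => (Gamma z)⁻¹) (f := fun q : ℂ × ℂ × ℂ => q.1 + 1)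
      (Complex.differentiable_one_div_Gamma _) (by fun_prop)
  simp only [S, div_eq_mul_inv]
  exact ((((by fun_prop : DifferentiableAt ℂ (fun q : ℂ × ℂ × ℂ => q.2.2 - I * q.2.1) p).mul e1).add
    ((by fun_prop : DifferentiableAt ℂ (fun q : ℂ × ℂ × ℂ => I * q.2.2) p).mul e2))).mul e3

theorem differentiableOn_S : DifferentiableOn ℂ (fun q : ℂ × ℂ × ℂ => S q.1 q.2.1 q.2.2) domS :=
  fun _ hp => (differentiableAt_S hp).differentiableWithinAt

theorem continuousOn_S : ContinuousOn (fun q : ℂ × ℂ × ℂ => S q.1 q.2.1 q.2.2) domS :=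
  differentiableOn_S.continuousOn

/-- `∂_ζ S(a,b) = -a S(a+1,b+1)`. -/
theorem hasDerivAt_S {a ζ : ℂ} (b : ℂ) (ha : -1 < a.re) (hζ : 0 < ζ.re) :
    HasDerivAt (fun ζ => S a b ζ) (-a * S (a + 1) (b + 1) ζ) ζ := by
  have ha1 : 0 < (a + 1).re := by simp; linarith
  have ha2 : 0 < (a + 2).re := by simp; linarith
  have d1 := hasDerivAt_J (b - a - 1) ha1 hζ
  have d2 := hasDerivAt_J (b - a - 1) ha2 hζ
  have l1 : HasDerivAt (fun ζ : ℂ => ζ - I * b) 1 ζ := (hasDerivAt_id ζ).sub_const _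
  have l2 : HasDerivAt (fun ζ : ℂ => I * ζ) (I * 1) ζ := (hasDerivAt_id ζ).const_mul I
  have h := (((l1.mul d1).add (l2.mul d2)).div_const (Gamma (a + 1)))
  refine h.congr_deriv ?_
  have hode := J_low (b - a - 1) ha1 hζ
  rw [show a + 1 + (b - a - 1) + 1 = b + 1 by ring, show a + 1 + 2 = a + 3 by ring,
    show a + 1 + 1 = a + 2 by ring] at hode
  rw [S_eq_of_pos (b + 1) ha1 hζ, show b + 1 - (a + 1) - 1 = b - a - 1 by ring,
    show a + 1 + 1 = a + 2 by ring, show a + 2 + 1 = a + 3 by ring, mul_div_assoc']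
  congr 1
  linear_combination hode

/-- The Kummer equation `ζ S'' + (b + iζ) S' + i a S = 0`. -/
theorem S_ode {a ζ : ℂ} (b : ℂ) (ha : -1 < a.re) (hζ : 0 < ζ.re) :
    ζ * (a * (a + 1) * S (a + 2) (b + 2) ζ) + (b + I * ζ) * (-a * S (a + 1) (b + 1) ζ)
      + I * a * S a b ζ = 0 := by
  have h := S_rec b ha hζ
  rw [h]
  linear_combination (a * ζ * (a + 1) * S (a + 2) (b + 2) ζ - a * b * S (a + 1) (b + 1) ζ) *
    Complex.I_sq

theorem hasDerivAt_S' {a ζ : ℂ} (b : ℂ) (ha : -1 < a.re) (hζ : 0 < ζ.re) :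
    HasDerivAt (fun ζ => -a * S (a + 1) (b + 1) ζ) (a * (a + 1) * S (a + 2) (b + 2) ζ) ζ := by
  have ha1 : -1 < (a + 1).re := by simp; linarith
  have h := (hasDerivAt_S (b + 1) ha1 hζ).const_mul (-a)
  refine h.congr_deriv ?_
  rw [show a + 1 + 1 = a + 2 by ring, show b + 1 + 1 = b + 2 by ring]
  ring

end Vale.Agent.P139.KU
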