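import Vale.Agent.P139.KU.Asym761

noncomputable section

open MeasureTheory Set Filter Topology Complex

namespace Vale.Agent.P139.KU.H761

lemma mul_ker (a c ζ : ℂ) {s : ℝ} (hs : 0 < s) : (s:ℂ) * ker a c ζ s = ker (a + 1) c ζ s := by
  unfold ker
  have h0 : (s:ℂ) ≠ 0 := by exact_mod_cast hs.ne'
  have h1 : (s:ℂ) ^ (a + 1 - 1) = (s:ℂ) * (s:ℂ) ^ (a - 1) := by
    rw [show a + 1 - 1 = (a - 1) + 1 by ring, Complex.cpow_add _ _ h0, Complex.cpow_one]
    ring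
  rw [h1]; ring

/-- primitive used for the ODE -/
def Hp (a c ζ : ℂ) (s : ℝ) : ℂ := cexp (-(ζ * s)) * (s : ℂ) ^ a * (1 + I * s) ^ (c + 1)

lemma norm_Hp_le (a c ζ : ℂ) {s : ℝ} (hs : 0 < s) :
    ‖Hp a c ζ s‖ ≤ Real.exp (|(c + 1).im| * (Real.pi / 2)) *
      (Real.exp (-(ζ.re * s)) * s ^ a.re * (1 + s) ^ |(c + 1).re|) := by
  have h := norm_ker_le (a + 1) (c + 1) ζ hs
  have e : Hp a c ζ s = ker (a + 1) (c + 1) ζ s := by
    unfold Hp ker; rw [show a + 1 - 1 = a by ring]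
  rw [e]
  simpa using h

lemma hasDerivAt_Hp (a c ζ : ℂ) {s : ℝ} (hs : 0 < s) :
    HasDerivAt (Hp a c ζ) (ker a c ζ s * (-ζ * s * (1 + I * s) + a * (1 + I * s) +
      I * (c + 1) * s)) s := by
  have h0 : (s:ℂ) ≠ 0 := by exact_mod_cast hs.ne'
  have hsl : (s:ℂ) ∈ slitPlane := by left; simpa using hs
  have hc : HasDerivAt (fun z : ℂ => cexp (-(ζ * z)) * z ^ a * (1 + I * z) ^ (c + 1))
      (((cexp (-(ζ * (s:ℂ))) * (-(ζ * 1))) * (s:ℂ) ^ a + cexp (-(ζ * (s:ℂ))) *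
        (a * (s:ℂ) ^ (a - 1) * 1)) * (1 + I * (s:ℂ)) ^ (c + 1) +
        cexp (-(ζ * (s:ℂ))) * (s:ℂ) ^ a * ((c + 1) * (1 + I * (s:ℂ)) ^ (c + 1 - 1) * (I * 1)))
      (s:ℂ) := by
    have h1 : HasDerivAt (fun z : ℂ => cexp (-(ζ * z))) (cexp (-(ζ * (s:ℂ))) * (-(ζ * 1))) (s:ℂ) :=
      (((hasDerivAt_id (s:ℂ)).const_mul ζ).neg).cexp
    have h2 : HasDerivAt (fun z : ℂ => z ^ a) (a * (s:ℂ) ^ (a - 1) * 1) (s:ℂ) :=
      (hasDerivAt_id (s:ℂ)).cpow_const hsl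
    have h3 : HasDerivAt (fun z : ℂ => (1 + I * z) ^ (c + 1))
        ((c + 1) * (1 + I * (s:ℂ)) ^ (c + 1 - 1) * (I * 1)) (s:ℂ) :=
      (((hasDerivAt_id (s:ℂ)).const_mul I).const_add 1).cpow_const (one_add_slit s)
    exact (h1.mul h2).mul h3
  have h4 := hc.comp_ofReal
  have e1 : (s:ℂ) ^ a = (s:ℂ) ^ (a - 1) * s := by
    have : (s:ℂ) ^ (a - 1 + 1) = (s:ℂ) ^ (a - 1) * s := by
      rw [Complex.cpow_add _ _ h0, Complex.cpow_one]
    rwa [sub_add_cancel] at this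
  have e2 : (1 + I * (s:ℂ)) ^ (c + 1) = (1 + I * (s:ℂ)) ^ c * (1 + I * s) := by
    rw [Complex.cpow_add _ _ (one_add_ne s), Complex.cpow_one]
  have e3 : (1 + I * (s:ℂ)) ^ (c + 1 - 1) = (1 + I * (s:ℂ)) ^ c := by
    rw [show c + 1 - 1 = c by ring]
  rw [e3, e2, e1] at h4
  show HasDerivAt (fun s : ℝ => Hp a c ζ s) _ s
  unfold Hp
  refine h4.congr_deriv ?_
  unfold ker
  ring

lemma tendsto_Hp_atTop {a c ζ : ℂ} (hζ : 0 < ζ.re) : Tendsto (Hp a c ζ) atTop (𝓝 0) := by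
  set m : ℝ := |(c + 1).re| with hm
  have h1 : Tendsto (fun s : ℝ => Real.exp (|(c + 1).im| * (Real.pi / 2)) *
      (Real.exp (-(ζ.re * s)) * s ^ a.re * (1 + s) ^ m)) atTop (𝓝 0) := by
    rw [show (0:ℝ) = Real.exp (|(c + 1).im| * (Real.pi / 2)) * 0 by simp]
    refine Tendsto.const_mul _ ?_
    have h2 : Tendsto (fun s : ℝ => s ^ (a.re + m) * Real.exp (-(ζ.re) * s)) atTop (𝓝 0) :=
      tendsto_rpow_mul_exp_neg_mul_atTop_nhds_zero _ _ hζ
    have h3 : Tendsto (fun s : ℝ => (2:ℝ) ^ m * (s ^ (a.re + m) * Real.exp (-(ζ.re) * s)))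
        atTop (𝓝 0) := by
      simpa using h2.const_mul ((2:ℝ) ^ m)
    refine squeeze_zero' ?_ ?_ h3
    · filter_upwards [eventually_gt_atTop 0] with s hs
      positivity
    · filter_upwards [eventually_ge_atTop 1] with s hs
      have hs0 : 0 < s := by linarith
      have h4 : (1 + s) ^ m ≤ (2:ℝ) ^ m * s ^ m := by
        rw [← Real.mul_rpow (by norm_num) hs0.le]
        exact Real.rpow_le_rpow (by linarith) (by linarith) (abs_nonneg _)
      rw [Real.rpow_add hs0]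
      calc Real.exp (-(ζ.re * s)) * s ^ a.re * (1 + s) ^ m
          ≤ Real.exp (-(ζ.re * s)) * s ^ a.re * ((2:ℝ) ^ m * s ^ m) := by gcongr
        _ = _ := by rw [neg_mul]; ring
  refine squeeze_zero_norm' ?_ h1
  filter_upwards [eventually_gt_atTop 0] with s hs
  exact norm_Hp_le a c ζ hs

lemma continuousWithinAt_Hp_zero {a c ζ : ℂ} (ha : 0 < a.re) :
    ContinuousWithinAt (Hp a c ζ) (Ici 0) 0 := by
  have ha0 : a ≠ 0 := by rintro rfl; simp at ha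
  have hval : Hp a c ζ 0 = 0 := by
    unfold Hp; simp [Complex.zero_cpow ha0]
  unfold ContinuousWithinAt
  rw [hval]
  have h1 : Tendsto (fun s : ℝ => ‖cexp (-(ζ * s))‖ * s ^ a.re * ‖(1 + I * (s:ℂ)) ^ (c + 1)‖)
      (𝓝[Ici 0] 0) (𝓝 0) := by
    have h2 : ContinuousAt (fun s : ℝ => ‖cexp (-(ζ * s))‖ * s ^ a.re *
        ‖(1 + I * (s:ℂ)) ^ (c + 1)‖) 0 := by
      refine ContinuousAt.mul (ContinuousAt.mul (by fun_prop) ?_) ?_
      · exact Real.continuousAt_rpow_const _ _ (Or.inr ha.le)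
      · have hq : ContinuousAt (fun s : ℝ => 1 + I * (s:ℂ)) 0 := by fun_prop
        exact (ContinuousAt.cpow hq continuousAt_const (one_add_slit 0)).norm
    have h3 := h2.tendsto
    have e : (fun s : ℝ => ‖cexp (-(ζ * s))‖ * s ^ a.re * ‖(1 + I * (s:ℂ)) ^ (c + 1)‖) 0 = 0 := by
      simp [Real.zero_rpow ha.ne']
    have h4 : ‖cexp (-(ζ * ((0:ℝ):ℂ)))‖ * (0:ℝ) ^ a.re * ‖(1 + I * ((0:ℝ):ℂ)) ^ (c + 1)‖ = 0 := e
    rw [h4] at h3
    exact h3.mono_left nhdsWithin_le_nhds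
  refine squeeze_zero_norm' ?_ h1
  filter_upwards [self_mem_nhdsWithin] with s hs
  have hs0 : (0:ℝ) ≤ s := hs
  unfold Hp
  rw [norm_mul, norm_mul]
  have : ‖(s:ℂ) ^ a‖ = s ^ a.re := by
    rcases hs0.eq_or_lt with h | h
    · rw [← h]; simp [Complex.zero_cpow ha0, Real.zero_rpow ha.ne']
    · exact Complex.norm_cpow_eq_rpow_re_of_pos h a
  rw [this]

/-- the Kummer ODE in integrated form -/
theorem J_ode761 {a ζ : ℂ} (c : ℂ) (ha : 0 < a.re) (hζ : 0 < ζ.re) :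
    ζ * J (a + 1 + 1) c ζ - (a + c + 1 + I * ζ) * J (a + 1) c ζ + I * a * J a c ζ = 0 := by
  have ha1 : 0 < (a + 1).re := by simp only [Complex.add_re, Complex.one_re]; linarith
  have ha2 : 0 < (a + 1 + 1).re := by simp only [Complex.add_re, Complex.one_re]; linarith
  have i0 := integrableOn_ker c ha hζ
  have i1 := integrableOn_ker c ha1 hζ
  have i2 := integrableOn_ker c ha2 hζ
  have hcomb : ∀ s ∈ Ioi (0:ℝ), I * (ker a c ζ s * (-ζ * s * (1 + I * s) + a * (1 + I * s) +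
      I * (c + 1) * s)) = ζ * ker (a + 1 + 1) c ζ s - (a + c + 1 + I * ζ) * ker (a + 1) c ζ s +
        I * a * ker a c ζ s := by
    intro s hs
    have hs0 : 0 < s := hs
    rw [← mul_ker (a + 1) c ζ hs0, ← mul_ker a c ζ hs0]
    have hI : I * I = -1 := Complex.I_mul_I
    linear_combination (ker a c ζ s * (-ζ * s * s + a * s + (c + 1) * s)) * hI
  have hint : IntegrableOn (fun s : ℝ => ker a c ζ s * (-ζ * s * (1 + I * s) +
      a * (1 + I * s) + I * (c + 1) * s)) (Ioi 0) := by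
    have h1 : IntegrableOn (fun s : ℝ => -I * (ζ * ker (a + 1 + 1) c ζ s -
        (a + c + 1 + I * ζ) * ker (a + 1) c ζ s + I * a * ker a c ζ s)) (Ioi 0) :=
      (((i2.const_mul ζ).sub (i1.const_mul (a + c + 1 + I * ζ))).add
        (i0.const_mul (I * a))).const_mul (-I)
    refine h1.congr_fun (fun s hs => ?_) measurableSet_Ioi
    show -I * (ζ * ker (a + 1 + 1) c ζ s - (a + c + 1 + I * ζ) * ker (a + 1) c ζ s +
      I * a * ker a c ζ s) = _
    rw [← hcomb s hs, ← mul_assoc, neg_mul, Complex.I_mul_I, neg_neg, one_mul]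
  have hFTC := integral_Ioi_of_hasDerivAt_of_tendsto (a := 0) (m := (0:ℂ))
    (continuousWithinAt_Hp_zero (c := c) (ζ := ζ) ha)
    (fun s hs => hasDerivAt_Hp a c ζ hs) hint (tendsto_Hp_atTop hζ)
  have ha0 : a ≠ 0 := by rintro rfl; simp at ha
  have hval : Hp a c ζ 0 = 0 := by
    unfold Hp; simp [Complex.zero_cpow ha0]
  rw [hval, sub_zero] at hFTC
  have h2 : ∫ s in Ioi (0:ℝ), (ζ * ker (a + 1 + 1) c ζ s - (a + c + 1 + I * ζ) *
      ker (a + 1) c ζ s + I * a * ker a c ζ s) = 0 := by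
    rw [← setIntegral_congr_fun measurableSet_Ioi hcomb, integral_const_mul, hFTC, mul_zero]
  have h3 : ∫ s in Ioi (0:ℝ), (ζ * ker (a + 1 + 1) c ζ s - (a + c + 1 + I * ζ) *
      ker (a + 1) c ζ s + I * a * ker a c ζ s) = ζ * J (a + 1 + 1) c ζ -
        (a + c + 1 + I * ζ) * J (a + 1) c ζ + I * a * J a c ζ := by
    unfold J
    have j2 : IntegrableOn (fun s : ℝ => ζ * ker (a + 1 + 1) c ζ s) (Ioi 0) := i2.const_mul ζ
    have j1 : IntegrableOn (fun s : ℝ => (a + c + 1 + I * ζ) * ker (a + 1) c ζ s) (Ioi 0) :=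
      i1.const_mul _
    have j0 : IntegrableOn (fun s : ℝ => I * a * ker a c ζ s) (Ioi 0) := i0.const_mul _
    have j21 : IntegrableOn (fun s : ℝ => ζ * ker (a + 1 + 1) c ζ s -
      (a + c + 1 + I * ζ) * ker (a + 1) c ζ s) (Ioi 0) := j2.sub j1
    rw [integral_add j21 j0, integral_sub j2 j1,
      integral_const_mul, integral_const_mul, integral_const_mul]
  rw [← h3, h2]

end Vale.Agent.P139.KU.H761
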