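import Vale.Agent.P139.KU.Radial
import Vale.Agent.P139.KU.Lead
import Vale.Agent.P139.KU.Holo

/-!
# Derivative of `J (a+z) (c-z) ζ` in the spectral parameter `z`

`dJ a c ζ = ∫ ker a c ζ s * (log s - log (1+is)) ds`.
-/

noncomputable section

open MeasureTheory Set Filter Topology Complex

namespace Vale.Agent.P139.KU

/-- Majorant integral bound, for `ρ` bounded below by any positive number. -/
lemma majorant_integral_le_of_pos {β ρ₀ : ℝ} (m : ℝ) (hβ : 0 < β) (h0 : 0 < ρ₀) :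
    ∃ C : ℝ, 0 ≤ C ∧ ∀ ρ : ℝ, ρ₀ ≤ ρ →
      ∫ s in Ioi (0 : ℝ), Real.exp (-(ρ * s)) * s ^ (β - 1) * (1 + s) ^ m ≤ C * ρ ^ (-β) := by
  obtain ⟨C, hC0, hC⟩ := majorant_integral_le m hβ
  set D : ℝ := ∫ s in Ioi (0 : ℝ), Real.exp (-(ρ₀ * s)) * s ^ (β - 1) * (1 + s) ^ |m| with hD
  have hD0 : 0 ≤ D := by
    apply setIntegral_nonneg measurableSet_Ioi
    intro s hs
    have hs' : (0 : ℝ) < s := hs
    positivity
  refine ⟨C + D, by positivity, fun ρ hρ => ?_⟩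
  have hρ0 : 0 < ρ := h0.trans_le hρ
  rcases le_total 1 ρ with h1 | h1
  · refine (hC ρ h1).trans ?_
    have : 0 ≤ D * ρ ^ (-β) := by positivity
    linarith [add_mul C D (ρ ^ (-β))]
  · have hstep : ∫ s in Ioi (0 : ℝ), Real.exp (-(ρ * s)) * s ^ (β - 1) * (1 + s) ^ m ≤ D := by
      rw [hD]
      refine integral_mono_of_nonneg ?_ (majorant_integrable |m| hβ h0) ?_
      · refine (ae_restrict_iff' measurableSet_Ioi).mpr (Eventually.of_forall fun x hx => ?_)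
        have hx' : (0 : ℝ) < x := hx
        simp only [Pi.zero_apply]
        positivity
      · refine (ae_restrict_iff' measurableSet_Ioi).mpr (Eventually.of_forall fun x hx => ?_)
        have hx' : (0 : ℝ) < x := hx
        have h1 : (1 + x) ^ m ≤ (1 + x) ^ |m| :=
          Real.rpow_le_rpow_of_exponent_le (by linarith) (le_abs_self _)
        have h2 : Real.exp (-(ρ * x)) ≤ Real.exp (-(ρ₀ * x)) := by
          apply Real.exp_le_exp.mpr
          have := mul_le_mul_of_nonneg_right hρ hx'.le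
          linarith
        show Real.exp (-(ρ * x)) * x ^ (β - 1) * (1 + x) ^ m ≤
          Real.exp (-(ρ₀ * x)) * x ^ (β - 1) * (1 + x) ^ |m|
        gcongr
    have h2 : 1 ≤ ρ ^ (-β) := by
      rw [Real.rpow_neg hρ0.le]
      exact (one_le_inv₀ (Real.rpow_pos_of_pos hρ0 _)).mpr (Real.rpow_le_one hρ0.le h1 hβ.le)
    have h3 : D ≤ D * ρ ^ (-β) := le_mul_of_one_le_right hD0 h2
    have h4 : 0 ≤ C * ρ ^ (-β) := by positivity
    linarith [add_mul C D (ρ ^ (-β))]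

/-- `‖J a c ρ‖ ≤ C ρ^{-Re a}` on `[ρ₀,∞)`. -/
theorem norm_J_rpow_le_of_pos {a : ℂ} (c : ℂ) (ha : 0 < a.re) {ρ₀ : ℝ} (h0 : 0 < ρ₀) :
    ∃ C : ℝ, 0 ≤ C ∧ ∀ ρ : ℝ, ρ₀ ≤ ρ → ‖J a c ρ‖ ≤ C * ρ ^ (-a.re) := by
  obtain ⟨C, hC0, hC⟩ := majorant_integral_le_of_pos |c.re| ha h0
  refine ⟨Real.exp (|c.im| * (Real.pi / 2)) * C, by positivity, fun ρ hρ => ?_⟩
  have hρ0 : 0 < ρ := h0.trans_le hρ
  refine (norm_J_le c ha (ζ := (ρ : ℂ)) (by simpa using hρ0)).trans ?_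
  rw [mul_assoc, ofReal_re]
  gcongr
  exact hC ρ hρ

/-- The logarithmic weight of the parameter derivative. -/
def Lgs (s : ℝ) : ℂ := (Real.log s : ℂ) - Complex.log (1 + I * s)

lemma measurable_Lgs : Measurable Lgs := by
  unfold Lgs
  have h1 : Measurable fun s : ℝ => (Real.log s : ℂ) :=
    Complex.measurable_ofReal.comp Real.measurable_log
  have h2 : Measurable fun s : ℝ => Complex.log (1 + I * (s:ℂ)) :=
    Complex.measurable_log.comp (by fun_prop)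
  exact h1.sub h2

/-- The parameter derivative of `J`. -/
def dJ (a c ζ : ℂ) : ℂ := ∫ s in Ioi (0 : ℝ), ker a c ζ s * Lgs s

lemma norm_Lgs_le_add {s : ℝ} : ‖Lgs s‖ ≤ |Real.log s| + ‖Complex.log (1 + I * s)‖ := by
  unfold Lgs
  refine (norm_sub_le _ _).trans ?_
  rw [Complex.norm_real, Real.norm_eq_abs]

lemma norm_Lgs_le {ε s : ℝ} (hε : 0 < ε) (hε1 : ε ≤ 1) (hs : 0 < s) :
    ‖Lgs s‖ ≤ (2 / ε + 3) * (s ^ (-ε) * (1 + s) ^ (2 : ℝ)) := by
  have h1s : (1 : ℝ) ≤ 1 + s := by linarith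
  have hsε : 0 < s ^ (-ε) := Real.rpow_pos_of_pos hs _
  have hX : (1 : ℝ) ≤ (1 + s) ^ (2 : ℝ) := Real.one_le_rpow h1s (by norm_num)
  have hA : s ^ ε ≤ s ^ (-ε) * (1 + s) ^ (2 : ℝ) := by
    have e : s ^ ε = s ^ (-ε) * s ^ (2 * ε) := by
      rw [← Real.rpow_add hs]; ring_nf
    rw [e]
    have : s ^ (2 * ε) ≤ (1 + s) ^ (2 : ℝ) :=
      (Real.rpow_le_rpow hs.le (by linarith) (by positivity)).trans
        (Real.rpow_le_rpow_of_exponent_le h1s (by linarith))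
    gcongr
  have hB : s ^ (-ε) ≤ s ^ (-ε) * (1 + s) ^ (2 : ℝ) := le_mul_of_one_le_right hsε.le hX
  have h1 : |Real.log s| ≤ (2 / ε) * (s ^ (-ε) * (1 + s) ^ (2 : ℝ)) := by
    refine (abs_log_le hs hε).trans ?_
    rw [div_mul_eq_mul_div]
    gcongr
    linarith
  have h2 : ‖Complex.log (1 + I * s)‖ ≤ 3 * (s ^ (-ε) * (1 + s) ^ (2 : ℝ)) := by
    have h3 : ‖Complex.log (1 + I * s)‖ ≤ Real.log ‖(1 + I * s : ℂ)‖ + Real.pi / 2 := by
      have := Complex.norm_le_abs_re_add_abs_im (Complex.log (1 + I * s))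
      rw [Complex.log_re, Complex.log_im, abs_of_nonneg (log_norm_nonneg hs.le)] at this
      linarith [abs_arg_le s]
    have h4 : Real.log ‖(1 + I * s : ℂ)‖ ≤ s := by
      refine (log_norm_le hs.le).trans ?_
      have := Real.log_le_sub_one_of_pos (show (0:ℝ) < 1 + s by linarith)
      linarith
    have h5 : s + Real.pi / 2 ≤ 3 * (1 + s) ^ (1 : ℝ) := by
      rw [Real.rpow_one]
      have := Real.pi_le_four
      linarith
    have h6 : (1 + s) ^ (1 : ℝ) ≤ s ^ (-ε) * (1 + s) ^ (2 : ℝ) := by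
      have e : (1 + s) ^ (2 : ℝ) = (1 + s) ^ (1 : ℝ) * (1 + s) ^ (1 : ℝ) := by
        rw [← Real.rpow_add (by linarith)]; norm_num
      rw [e, ← mul_assoc, mul_comm (s ^ (-ε)), mul_assoc]
      refine le_mul_of_one_le_right (by positivity) ?_
      rcases le_total s 1 with h | h
      · have : 1 ≤ s ^ (-ε) := by
          rw [Real.rpow_neg hs.le]
          exact (one_le_inv₀ (Real.rpow_pos_of_pos hs _)).mpr (Real.rpow_le_one hs.le h hε.le)
        have h7 : (1 : ℝ) ≤ (1 + s) ^ (1 : ℝ) := Real.one_le_rpow h1s (by norm_num)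
        exact one_le_mul_of_one_le_of_one_le this h7
      · have : s ^ (-1 : ℝ) ≤ s ^ (-ε) := Real.rpow_le_rpow_of_exponent_le h (by linarith)
        rw [Real.rpow_neg_one] at this
        rw [Real.rpow_one]
        calc (1 : ℝ) = s⁻¹ * s := by field_simp
          _ ≤ s ^ (-ε) * (1 + s) := by gcongr; linarith
    linarith
  refine norm_Lgs_le_add.trans ?_
  rw [add_mul]
  exact add_le_add h1 h2

lemma norm_ker_mul_Lgs_le {ε : ℝ} (hε : 0 < ε) (hε1 : ε ≤ 1) (a c ζ : ℂ) {s : ℝ} (hs : 0 < s) :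
    ‖ker a c ζ s * Lgs s‖ ≤ ((2 / ε + 3) * Real.exp (|c.im| * (Real.pi / 2))) *
      (Real.exp (-(ζ.re * s)) * s ^ ((a.re - ε) - 1) * (1 + s) ^ (|c.re| + 2)) := by
  rw [norm_mul]
  have h1 := norm_ker_le a c ζ hs
  have h2 := norm_Lgs_le hε hε1 hs
  calc ‖ker a c ζ s‖ * ‖Lgs s‖
      ≤ (Real.exp (|c.im| * (Real.pi / 2)) *
        (Real.exp (-(ζ.re * s)) * s ^ (a.re - 1) * (1 + s) ^ |c.re|)) *
        ((2 / ε + 3) * (s ^ (-ε) * (1 + s) ^ (2 : ℝ))) := by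
        gcongr
    _ = _ := by
      have e1 : s ^ ((a.re - ε) - 1) = s ^ (a.re - 1) * s ^ (-ε) := by
        rw [← Real.rpow_add hs]; ring_nf
      have e2 : (1 + s) ^ (|c.re| + 2) = (1 + s) ^ |c.re| * (1 + s) ^ (2 : ℝ) := by
        rw [← Real.rpow_add (by linarith)]
      rw [e1, e2]; ring

lemma integrableOn_ker_mul_Lgs {a ζ : ℂ} (c : ℂ) (ha : 0 < a.re) (hζ : 0 < ζ.re) :
    IntegrableOn (fun s => ker a c ζ s * Lgs s) (Ioi 0) := by
  set ε : ℝ := min (a.re / 2) 1 with hε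
  have hε0 : 0 < ε := lt_min (by linarith) one_pos
  have hε1 : ε ≤ 1 := min_le_right _ _
  have hε2 : ε ≤ a.re / 2 := min_le_left _ _
  have hint := (majorant_integrable (|c.re| + 2) (show 0 < a.re - ε by linarith) hζ).const_mul
    ((2 / ε + 3) * Real.exp (|c.im| * (Real.pi / 2)))
  refine Integrable.mono' hint ?_ ?_
  · exact ((measurable_ker a c ζ).mul measurable_Lgs).aestronglyMeasurable
  · exact (ae_restrict_iff' measurableSet_Ioi).mpr
      (Eventually.of_forall fun s hs => norm_ker_mul_Lgs_le hε0 hε1 a c ζ hs)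

/-- `‖dJ a c ρ‖ ≤ C ρ^{-(Re a - ε)}` on `[ρ₀,∞)`. -/
theorem norm_dJ_le {a : ℂ} (c : ℂ) {ε : ℝ} (hε : 0 < ε) (hε1 : ε ≤ 1) (hεa : ε < a.re) {ρ₀ : ℝ}
    (h0 : 0 < ρ₀) :
    ∃ C : ℝ, 0 ≤ C ∧ ∀ ρ : ℝ, ρ₀ ≤ ρ → ‖dJ a c ρ‖ ≤ C * ρ ^ (-(a.re - ε)) := by
  obtain ⟨C, hC0, hC⟩ := majorant_integral_le_of_pos (|c.re| + 2)
    (show 0 < a.re - ε by linarith) h0
  refine ⟨((2 / ε + 3) * Real.exp (|c.im| * (Real.pi / 2))) * C, by positivity, fun ρ hρ => ?_⟩
  have hρ0 : 0 < ρ := h0.trans_le hρ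
  have hint := (majorant_integrable (|c.re| + 2) (show 0 < a.re - ε by linarith) hρ0).const_mul
    ((2 / ε + 3) * Real.exp (|c.im| * (Real.pi / 2)))
  unfold dJ
  refine (norm_integral_le_of_norm_le hint ?_).trans ?_
  · refine (ae_restrict_iff' measurableSet_Ioi).mpr (Eventually.of_forall fun s hs => ?_)
    have := norm_ker_mul_Lgs_le hε hε1 a c (ρ : ℂ) (show 0 < s from hs)
    simpa only [ofReal_re] using this
  · rw [integral_const_mul, mul_assoc _ C]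
    have := hC ρ hρ
    gcongr

/-- `∂_ζ dJ a c = - dJ (a+1) c`. -/
theorem hasDerivAt_dJ {a ζ : ℂ} (c : ℂ) (ha : 0 < a.re) (hζ : 0 < ζ.re) :
    HasDerivAt (fun z => dJ a c z) (-dJ (a + 1) c ζ) ζ := by
  have ha1 : 0 < (a + 1).re := by simp; linarith
  obtain ⟨U, hU, g, hg, hb⟩ := exists_local_majorant (p₀ := (a + 1, c, ζ)) ⟨ha1, hζ⟩
  have hU' : {z : ℂ | (a + 1, c, z) ∈ U} ∈ 𝓝 ζ := by
    have hcont : ContinuousAt (fun z : ℂ => ((a + 1, c, z) : ℂ × ℂ × ℂ)) ζ := by fun_prop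
    exact hcont.preimage_mem_nhds hU
  have key := hasDerivAt_integral_of_dominated_loc_of_deriv_le (𝕜 := ℂ)
    (μ := volume.restrict (Ioi (0 : ℝ)))
    (F := fun z s => ker a c z s * Lgs s) (F' := fun z s => -(ker (a + 1) c z s * Lgs s))
    (x₀ := ζ) (bound := g) hU'
    (Eventually.of_forall fun z =>
      ((measurable_ker a c z).mul measurable_Lgs).aestronglyMeasurable)
    (integrableOn_ker_mul_Lgs c ha hζ)
    ((measurable_ker (a + 1) c ζ).mul measurable_Lgs).neg.aestronglyMeasurable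
    ?_ hg ?_
  · refine key.2.congr_deriv ?_
    rw [integral_neg]; rfl
  · refine (ae_restrict_iff' measurableSet_Ioi).mpr (Eventually.of_forall fun s hs z hz => ?_)
    have hs' : 0 < s := hs
    have h1 := hb _ hz s hs'
    rw [kint_eq_cpow hs'] at h1
    rw [norm_neg, norm_mul]
    refine le_trans ?_ h1
    have e : ker (a + 1) c z s = cexp (-z * s) * (s : ℂ) ^ (a + 1 - 1) * (1 + I * s) ^ c := by
      rw [ker, neg_mul]
    rw [e]
    gcongr
    have := norm_Lgs_le_add (s := s)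
    linarith
  · refine (ae_restrict_iff' measurableSet_Ioi).mpr (Eventually.of_forall fun s hs z hz => ?_)
    have hs' : 0 < s := hs
    have h1 : HasDerivAt (fun z : ℂ => ker a c z s) (-ker (a + 1) c z s) z := by
      have h2 : HasDerivAt (fun z : ℂ => cexp (-(z * s))) (cexp (-(z * s)) * (-s)) z := by
        have := ((hasDerivAt_id z).mul_const (s : ℂ)).neg.cexp
        simpa using this
      have h3 := (h2.mul_const ((s : ℂ) ^ (a - 1))).mul_const ((1 + I * s) ^ c)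
      refine h3.congr_deriv ?_
      rw [ker_succ a c z hs', ker]
      ring
    have h4 := h1.mul_const (Lgs s)
    refine h4.congr_deriv ?_
    ring

/-- `dJ` is the derivative of `z ↦ J (a+z) (c-z) ζ`. -/
theorem hasDerivAt_J_param {a ζ : ℂ} (c : ℂ) (ha : 0 < a.re) (hζ : 0 < ζ.re) :
    HasDerivAt (fun z : ℂ => J (a + z) (c - z) ζ) (dJ a c ζ) 0 := by
  have h1 : HasFDerivAt (fun q : ℂ × ℂ × ℂ => J q.1 q.2.1 q.2.2)
      (∫ s in Ioi (0:ℝ), dkint (a, c, ζ) s) ((fun z : ℂ => ((a + z, c - z, ζ) : ℂ × ℂ × ℂ)) 0) := by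
    simpa using hasFDerivAt_J (p := (a, c, ζ)) ⟨ha, hζ⟩
  have h2 : HasDerivAt (fun z : ℂ => ((a + z, c - z, ζ) : ℂ × ℂ × ℂ)) ((1, -1, 0) : ℂ × ℂ × ℂ) 0 :=
    ((hasDerivAt_id (0 : ℂ)).const_add a).prodMk
      (((hasDerivAt_id (0 : ℂ)).const_sub c).prodMk (hasDerivAt_const _ _))
  have h3 := h1.comp_hasDerivAt (0 : ℂ) h2
  refine h3.congr_deriv ?_
  rw [ContinuousLinearMap.integral_apply (dkint_integrable ⟨ha, hζ⟩)]
  unfold dJ
  refine setIntegral_congr_fun measurableSet_Ioi fun s hs => ?_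
  have hs' : 0 < s := hs
  simp only [dkint, smul_apply, add_apply,
    ContinuousLinearMap.coe_fst', ContinuousLinearMap.comp_apply, ContinuousLinearMap.coe_snd',
    smul_eq_mul]
  rw [kint_eq_cpow hs', ker, Lgs, neg_mul]
  ring

end Vale.Agent.P139.KU
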