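import Vale.Agent.P139.KU.Basic
import Vale.Agent.P139.Helper761.KU.Param

noncomputable section

open MeasureTheory Set Filter Topology Complex

namespace Vale.Agent.P139.KU.H761

open Vale.Agent.P139.Helper761.KU in
lemma ker_eq_G (a c ζ : ℂ) (s : ℝ) : ker a c ζ s = G a (a + c + 1) ζ s := by
  unfold ker G q
  rw [show a + c + 1 - a - 1 = c by ring]
  ring

open Vale.Agent.P139.Helper761.KU in
lemma J_eq_F (a c ζ : ℂ) : J a c ζ = F a (a + c + 1) ζ := by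
  unfold J F
  exact integral_congr_ae (Eventually.of_forall fun s => ker_eq_G a c ζ s)

/-- complex derivative in `ζ` -/
theorem hasDerivAt_J {a ζ : ℂ} (c : ℂ) (ha : 0 < a.re) (hζ : 0 < ζ.re) :
    HasDerivAt (fun ζ => J a c ζ) (-J (a + 1) c ζ) ζ := by
  have h := Vale.Agent.P139.Helper761.KU.hasDerivAt_F_z (b := a + c + 1) ha hζ
  have e : Vale.Agent.P139.Helper761.KU.F (a + 1) (a + c + 1 + 1) ζ = J (a + 1) c ζ := by
    rw [J_eq_F, show a + 1 + c + 1 = a + c + 1 + 1 by ring]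
  rw [e] at h
  simpa only [J_eq_F] using h

/-- `log s - log (1 + i s)` -/
def Lgq (s : ℝ) : ℂ := Complex.log (s : ℂ) - Complex.log (1 + I * s)

/-- holomorphy along `b = a + c + 1` fixed: the derivative of `a ↦ J a (c₀ - a) ζ` -/
theorem hasDerivAt_J_a {a ζ : ℂ} (c₀ : ℂ) (ha : 0 < a.re) (hζ : 0 < ζ.re) :
    HasDerivAt (fun a => J a (c₀ - a) ζ)
      (∫ s in Ioi (0 : ℝ), ker a (c₀ - a) ζ s * Lgq s) a := by
  have h := Vale.Agent.P139.Helper761.KU.hasDerivAt_F_a (b := c₀ + 1) ha hζ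
  have e : Vale.Agent.P139.Helper761.KU.Fa a (c₀ + 1) ζ =
      ∫ s in Ioi (0 : ℝ), ker a (c₀ - a) ζ s * Lgq s := by
    unfold Vale.Agent.P139.Helper761.KU.Fa
    refine integral_congr_ae (Eventually.of_forall fun s => ?_)
    show Vale.Agent.P139.Helper761.KU.G a (c₀ + 1) ζ s * Vale.Agent.P139.Helper761.KU.Lg s =
      ker a (c₀ - a) ζ s * Lgq s
    rw [ker_eq_G, show a + (c₀ - a) + 1 = c₀ + 1 by ring]
    rfl
  rw [e] at h
  refine h.congr_of_eventuallyEq (Eventually.of_forall fun x => ?_)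
  show J x (c₀ - x) ζ = _
  rw [J_eq_F, show x + (c₀ - x) + 1 = c₀ + 1 by ring]

/-- joint continuity -/
theorem continuousAt_J {a c ζ : ℂ} (ha : 0 < a.re) (hζ : 0 < ζ.re) :
    ContinuousAt (fun p : ℂ × ℂ × ℂ => J p.1 p.2.1 p.2.2) (a, c, ζ) := by
  have h := Vale.Agent.P139.Helper761.KU.continuousAt_F (b := a + c + 1) ha hζ
  have h2 : ContinuousAt (fun p : ℂ × ℂ × ℂ => ((p.1, p.1 + p.2.1 + 1, p.2.2) : ℂ × ℂ × ℂ))
      (a, c, ζ) := by fun_prop
  have h3 := ContinuousAt.comp (f := fun p : ℂ × ℂ × ℂ =>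
    ((p.1, p.1 + p.2.1 + 1, p.2.2) : ℂ × ℂ × ℂ)) (x := (a, c, ζ)) h h2
  refine h3.congr (Eventually.of_forall fun p => ?_)
  show _ = J p.1 p.2.1 p.2.2
  rw [J_eq_F]
  rfl

end Vale.Agent.P139.KU.H761
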