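import Vale.Agent.P139.KU.Slow761

noncomputable section

open MeasureTheory Set Filter Topology Complex
open scoped ContDiff

namespace Vale.Agent.P139.KU.H761

/-! ### Symbol classes on `(r₁, ∞)` -/

/-- `g` has `K` derivatives on `(R, ∞)`, all bounded by `C r^{-p}`. -/
def Sy (R : ℝ) : ℕ → ℝ → (ℝ → ℂ) → Prop
  | 0, p, g => ∃ C : ℝ, ∀ r, R < r → ‖g r‖ ≤ C * r ^ (-p)
  | K + 1, p, g => (∃ C : ℝ, ∀ r, R < r → ‖g r‖ ≤ C * r ^ (-p)) ∧
      (∀ r, R < r → DifferentiableAt ℝ g r) ∧ Sy R K p (deriv g)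

lemma Sy.bound {R : ℝ} {K : ℕ} {p : ℝ} {g : ℝ → ℂ} (h : Sy R K p g) :
    ∃ C : ℝ, ∀ r, R < r → ‖g r‖ ≤ C * r ^ (-p) := by
  cases K with
  | zero => exact h
  | succ K => exact h.1

lemma Sy.congr {R : ℝ} : ∀ {K : ℕ} {p : ℝ} {g h : ℝ → ℂ}, Sy R K p g →
    (∀ r, R < r → g r = h r) → Sy R K p h
  | 0, _, _, _, hg, e => by
    obtain ⟨C, hC⟩ := hg
    exact ⟨C, fun r hr => by rw [← e r hr]; exact hC r hr⟩
  | K + 1, _, g, h, hg, e => by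
    obtain ⟨⟨C, hC⟩, hd, hs⟩ := hg
    have hev : ∀ r, R < r → g =ᶠ[𝓝 r] h := fun r hr => by
      filter_upwards [isOpen_Ioi.mem_nhds hr] with x hx
      exact e x hx
    refine ⟨⟨C, fun r hr => by rw [← e r hr]; exact hC r hr⟩, fun r hr => ?_, ?_⟩
    · exact (hd r hr).congr_of_eventuallyEq (hev r hr).symm
    · exact Sy.congr hs fun r hr => (hev r hr).deriv_eq

lemma Sy.mono {R : ℝ} : ∀ {K : ℕ} {p : ℝ} {g : ℝ → ℂ}, Sy R (K + 1) p g → Sy R K p g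
  | 0, _, _, h => h.1
  | _ + 1, _, _, h => ⟨h.1, h.2.1, Sy.mono h.2.2⟩

lemma bound_weaken {R p p' : ℝ} (hR : 1 ≤ R) (hp : p' ≤ p) {g : ℝ → ℂ}
    (h : ∃ C : ℝ, ∀ r, R < r → ‖g r‖ ≤ C * r ^ (-p)) :
    ∃ C : ℝ, ∀ r, R < r → ‖g r‖ ≤ C * r ^ (-p') := by
  obtain ⟨C, hC⟩ := h
  refine ⟨|C|, fun r hr => (hC r hr).trans ?_⟩
  have hr1 : 1 ≤ r := by linarith
  have h1 : r ^ (-p) ≤ r ^ (-p') := Real.rpow_le_rpow_of_exponent_le hr1 (by linarith)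
  calc C * r ^ (-p) ≤ |C| * r ^ (-p) := by gcongr; exact le_abs_self C
    _ ≤ |C| * r ^ (-p') := by gcongr

lemma Sy.weaken {R : ℝ} (hR : 1 ≤ R) : ∀ {K : ℕ} {p p' : ℝ} {g : ℝ → ℂ}, p' ≤ p → Sy R K p g →
    Sy R K p' g
  | 0, _, _, _, hp, h => bound_weaken hR hp h
  | _ + 1, _, _, _, hp, h => ⟨bound_weaken hR hp h.1, h.2.1, Sy.weaken hR hp h.2.2⟩

lemma Sy.sub {R : ℝ} : ∀ {K : ℕ} {p : ℝ} {g h : ℝ → ℂ}, Sy R K p g → Sy R K p h →
    Sy R K p (fun r => g r - h r)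
  | 0, _, _, _, hg, hh => by
    obtain ⟨C, hC⟩ := hg
    obtain ⟨D, hD⟩ := hh
    refine ⟨C + D, fun r hr => (norm_sub_le _ _).trans ?_⟩
    rw [add_mul]; exact add_le_add (hC r hr) (hD r hr)
  | K + 1, _, g, h, hg, hh => by
    obtain ⟨⟨C, hC⟩, hd, hs⟩ := hg
    obtain ⟨⟨D, hD⟩, hd', hs'⟩ := hh
    refine ⟨⟨C + D, fun r hr => (norm_sub_le _ _).trans ?_⟩, fun r hr => (hd r hr).sub (hd' r hr),
      ?_⟩
    · rw [add_mul]; exact add_le_add (hC r hr) (hD r hr)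
    · exact (Sy.sub hs hs').congr fun r hr => (deriv_fun_sub (hd r hr) (hd' r hr)).symm

lemma Sy.const_mul {R : ℝ} (c : ℂ) : ∀ {K : ℕ} {p : ℝ} {g : ℝ → ℂ}, Sy R K p g →
    Sy R K p (fun r => c * g r)
  | 0, _, _, hg => by
    obtain ⟨C, hC⟩ := hg
    refine ⟨‖c‖ * C, fun r hr => ?_⟩
    rw [norm_mul, mul_assoc]
    exact mul_le_mul_of_nonneg_left (hC r hr) (norm_nonneg _)
  | K + 1, _, g, hg => by
    obtain ⟨⟨C, hC⟩, hd, hs⟩ := hg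
    refine ⟨⟨‖c‖ * C, fun r hr => ?_⟩, fun r hr => (hd r hr).const_mul c, ?_⟩
    · rw [norm_mul, mul_assoc]
      exact mul_le_mul_of_nonneg_left (hC r hr) (norm_nonneg _)
    · exact (Sy.const_mul c hs).congr fun r hr => (deriv_const_mul c (hd r hr)).symm

lemma bound_div {R p : ℝ} (hR : 1 ≤ R) {g : ℝ → ℂ}
    (h : ∃ C : ℝ, ∀ r, R < r → ‖g r‖ ≤ C * r ^ (-p)) :
    ∃ C : ℝ, ∀ r, R < r → ‖g r / (r : ℂ)‖ ≤ C * r ^ (-(p + 1)) := by
  obtain ⟨C, hC⟩ := h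
  refine ⟨C, fun r hr => ?_⟩
  have hr0 : 0 < r := by linarith
  rw [norm_div, Complex.norm_real, Real.norm_of_nonneg hr0.le, div_le_iff₀ hr0]
  have e : r ^ (-(p + 1)) * r = r ^ (-p) := by
    rw [show -(p + 1) = -p + (-1) by ring, Real.rpow_add hr0, Real.rpow_neg_one, mul_assoc,
      inv_mul_cancel₀ hr0.ne', mul_one]
  rw [mul_assoc, e]
  exact hC r hr

lemma Sy.div {R : ℝ} (hR : 1 ≤ R) : ∀ {K : ℕ} {p : ℝ} {g : ℝ → ℂ}, Sy R K p g →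
    Sy R K (p + 1) (fun r => g r / (r : ℂ))
  | 0, _, _, h => bound_div hR h
  | K + 1, p, g, h => by
    have hd := h.2.1
    refine ⟨bound_div hR h.1, fun r hr => ?_, ?_⟩
    · have hr0 : (r:ℂ) ≠ 0 := by
        have : 0 < r := by linarith
        exact_mod_cast this.ne'
      exact (hd r hr).div (by fun_prop) hr0
    · have h1 : Sy R K (p + 1) (fun r => deriv g r / (r:ℂ)) := Sy.div hR h.2.2
      have h2 : Sy R K (p + 1) (fun r => (g r / (r:ℂ)) / (r:ℂ)) :=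
        Sy.weaken hR (by linarith) (Sy.div hR (Sy.div hR h.mono))
      refine (h1.sub h2).congr fun r hr => ?_
      have hr0 : (r:ℂ) ≠ 0 := by
        have : 0 < r := by linarith
        exact_mod_cast this.ne'
      have h3 : HasDerivAt (fun r : ℝ => (r:ℂ)) 1 r := by
        simpa using (hasDerivAt_id (r:ℂ)).comp_ofReal
      have h4 : HasDerivAt (fun r : ℝ => g r / (r:ℂ)) ((deriv g r * r - g r * 1) / (r:ℂ) ^ 2) r :=
        (hd r hr).hasDerivAt.div h3 hr0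
      rw [h4.deriv]
      field_simp

/-- the operator `(2/r) d/dr = d/dρ`, iterated -/
def Dρ (g : ℝ → ℂ) : ℕ → ℝ → ℂ
  | 0 => g
  | k + 1 => fun r => (2 / (r : ℂ)) * deriv (Dρ g k) r

lemma Sy_Dρ {R : ℝ} (hR : 1 ≤ R) {N : ℕ} {p : ℝ} {g : ℝ → ℂ} (h : Sy R N p g) :
    ∀ k j, k + j = N → Sy R j (p + k) (Dρ g k) := by
  intro k
  induction k with
  | zero => intro j hj; simp at hj; subst hj; simpa [Dρ] using h
  | succ k ih =>
    intro j hj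
    have h1 := ih (j + 1) (by omega)
    have h2 : Sy R j (p + k + 1) (fun r : ℝ => deriv (Dρ g k) r / (r:ℂ)) := Sy.div hR h1.2.2
    have h3 := h2.const_mul 2
    have e : p + ((k + 1 : ℕ) : ℝ) = p + k + 1 := by push_cast; ring
    rw [e]
    refine h3.congr fun r _ => ?_
    show 2 * (deriv (Dρ g k) r / (r:ℂ)) = (2 / (r : ℂ)) * deriv (Dρ g k) r
    ring

lemma contDiffOn_Dρ {R : ℝ} (hR : 0 ≤ R) {N : ℕ} {g : ℝ → ℂ} (h : ContDiffOn ℝ N g (Ioi R)) :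
    ∀ k j : ℕ, k + j = N → ContDiffOn ℝ j (Dρ g k) (Ioi R) := by
  intro k
  induction k with
  | zero => intro j hj; simp at hj; subst hj; simpa [Dρ] using h
  | succ k ih =>
    intro j hj
    have h1 := ih (j + 1) (by omega)
    have h2 : ContDiffOn ℝ j (deriv (Dρ g k)) (Ioi R) :=
      h1.deriv_of_isOpen isOpen_Ioi (by norm_cast)
    show ContDiffOn ℝ j (fun r : ℝ => (2 / (r : ℂ)) * deriv (Dρ g k) r) (Ioi R)
    refine ContDiffOn.mul ?_ h2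
    have h3 : ContDiffOn ℝ j (fun r : ℝ => (r:ℂ)) (Ioi R) :=
      Complex.ofRealCLM.contDiff.contDiffOn
    have h4 : ContDiffOn ℝ j (fun r : ℝ => (r:ℂ)⁻¹) (Ioi R) := h3.inv fun r hr => by
      have : 0 < r := lt_of_le_of_lt hR hr
      exact_mod_cast this.ne'
    have h5 : ContDiffOn ℝ j (fun r : ℝ => (2:ℂ) * (r:ℂ)⁻¹) (Ioi R) :=
      contDiffOn_const.mul h4
    simpa only [div_eq_mul_inv] using h5

/-- bounded derivatives give `Sy` with `p = 0` -/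
lemma Sy_of_bdd {R : ℝ} : ∀ {K : ℕ} {g : ℝ → ℂ}, ContDiffOn ℝ K g (Ioi R) →
    (∀ k ≤ K, ∃ C : ℝ, ∀ r, R < r → ‖iteratedDeriv k g r‖ ≤ C) → Sy R K 0 g
  | 0, g, _, h => by
    obtain ⟨C, hC⟩ := h 0 le_rfl
    exact ⟨C, fun r hr => by simpa using hC r hr⟩
  | K + 1, g, hc, h => by
    obtain ⟨C, hC⟩ := h 0 (Nat.zero_le _)
    refine ⟨⟨C, fun r hr => by simpa using hC r hr⟩, fun r hr => ?_, ?_⟩
    · exact (hc.differentiableOn (by norm_num)).differentiableAt (isOpen_Ioi.mem_nhds hr)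
    · refine Sy_of_bdd (hc.deriv_of_isOpen isOpen_Ioi (by norm_cast)) fun k hk => ?_
      obtain ⟨D, hD⟩ := h (k + 1) (by omega)
      refine ⟨D, fun r hr => ?_⟩
      have := hD r hr
      rwa [iteratedDeriv_succ'] at this

lemma Sy_div_pow {R : ℝ} (hR : 1 ≤ R) {K : ℕ} {p : ℝ} {g : ℝ → ℂ} (h : Sy R K p g) :
    ∀ l : ℕ, Sy R K (p + l) (fun r => g r / (r:ℂ) ^ l) := by
  intro l
  induction l with
  | zero => simpa using h
  | succ l ih =>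
    have h1 := Sy.div hR ih
    have e : p + ((l + 1 : ℕ) : ℝ) = p + l + 1 := by push_cast; ring
    rw [e]
    refine h1.congr fun r _ => ?_
    rw [div_div, ← pow_succ]

/-- **Uniqueness of the slow solution, radial form.**  `M` is `C^K` on `(R,∞)`, `K = N + 2`,
derivatives up to order `K` bounded near infinity, and solves
`M'' + ((d-1)/r + i r/2) M' - l(l+d-2)/r² M + i κ M = 0` for `r > R`; if `Re κ + l/2 > 0` and
`d < K + 2 Re κ` then `M = k r^l J(κ + l/2, d/2 + l/2 - κ - 1, r²/4)` on `(R,∞)`. -/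
theorem slow_unique {d l K : ℕ} {κ : ℂ} (hκ : 0 < κ.re + l / 2) (hK : (d:ℝ) < K + 2 * κ.re)
    (hK3 : 2 ≤ K) {R R' : ℝ} (hR : 0 ≤ R) {M : ℝ → ℂ} (hM : ContDiffOn ℝ K M (Ioi R))
    (hb : ∀ k ≤ K, ∃ C : ℝ, ∀ r, R' < r → ‖iteratedDeriv k M r‖ ≤ C)
    (hode : ∀ r, R < r → deriv (deriv M) r + (((d:ℂ) - 1) / r + I * r / 2) * deriv M r -
      ((l:ℂ) * ((l:ℂ) + d - 2) / (r:ℂ) ^ 2) * M r + I * κ * M r = 0) :
    ∃ k : ℂ, ∀ r, R < r →
      M r = k * (r:ℂ) ^ l * J (κ + l / 2) (d / 2 + l / 2 - κ - 1) ((r ^ 2 / 4 : ℝ) : ℂ) := by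
  obtain ⟨N, rfl⟩ : ∃ N, K = N + 2 := ⟨K - 2, by omega⟩
  set a : ℂ := κ + l / 2 with ha_def
  set c : ℂ := d / 2 + l / 2 - κ - 1 with hc_def
  have ha : 0 < a.re := by rw [ha_def]; simpa using hκ
  set g : ℝ → ℂ := fun r => M r / (r:ℂ) ^ l with hg
  have hgc : ContDiffOn ℝ (N + 2 : ℕ) g (Ioi R) := by
    have h3 : ContDiffOn ℝ (N + 2 : ℕ) (fun r : ℝ => (r:ℂ)) (Ioi R) :=
      Complex.ofRealCLM.contDiff.contDiffOn
    have h4 : ContDiffOn ℝ (N + 2 : ℕ) (fun r : ℝ => (r:ℂ) ^ l) (Ioi R) := h3.pow l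
    have h5 : ContDiffOn ℝ (N + 2 : ℕ) (fun r : ℝ => ((r:ℂ) ^ l)⁻¹) (Ioi R) :=
      h4.inv fun r hr => by
        have : 0 < r := lt_of_le_of_lt hR hr
        exact pow_ne_zero _ (by exact_mod_cast this.ne')
    have h6 : ContDiffOn ℝ (N + 2 : ℕ) (fun r : ℝ => M r * ((r:ℂ) ^ l)⁻¹) (Ioi R) := hM.mul h5
    simpa only [hg, div_eq_mul_inv] using h6
  set Y : ℕ → ℝ → ℂ := fun k ρ => Dρ g k (2 * Real.sqrt ρ) with hY
  have hR4 : 0 ≤ R ^ 2 / 4 := by positivity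
  have hsq : ∀ ρ, R ^ 2 / 4 < ρ → R < 2 * Real.sqrt ρ := by
    intro ρ hρ
    have h1 : (R / 2) ^ 2 < ρ := by linarith [show (R / 2) ^ 2 = R ^ 2 / 4 by ring]
    have h2 : R / 2 < Real.sqrt ρ := Real.lt_sqrt_of_sq_lt h1
    linarith
  have hd : ∀ k, k < N + 2 → ∀ ρ, R ^ 2 / 4 < ρ → HasDerivAt (Y k) (Y (k + 1) ρ) ρ := by
    intro k hk ρ hρ
    have hρ0 : 0 < ρ := by linarith
    have hr := hsq ρ hρ
    have hs0 : 0 < Real.sqrt ρ := Real.sqrt_pos.mpr hρ0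
    have h1 : HasDerivAt (fun ρ : ℝ => 2 * Real.sqrt ρ) (2 * (1 / (2 * Real.sqrt ρ))) ρ :=
      (Real.hasDerivAt_sqrt hρ0.ne').const_mul 2
    have h2 : ContDiffOn ℝ ((N + 2 - k : ℕ)) (Dρ g k) (Ioi R) :=
      contDiffOn_Dρ hR hgc k (N + 2 - k) (by omega)
    have h3 : DifferentiableAt ℝ (Dρ g k) (2 * Real.sqrt ρ) := by
      refine (h2.differentiableOn ?_).differentiableAt (isOpen_Ioi.mem_nhds hr)
      have : N + 2 - k ≠ 0 := by omega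
      exact_mod_cast this
    have h4 := h3.hasDerivAt.scomp ρ h1
    have h5 : (2 * (1 / (2 * Real.sqrt ρ))) • deriv (Dρ g k) (2 * Real.sqrt ρ) = Y (k + 1) ρ := by
      rw [hY]
      show (2 * (1 / (2 * Real.sqrt ρ))) • deriv (Dρ g k) (2 * Real.sqrt ρ) =
        (2 / ((2 * Real.sqrt ρ : ℝ) : ℂ)) * deriv (Dρ g k) (2 * Real.sqrt ρ)
      rw [Complex.real_smul]
      congr 1
      push_cast
      have : (Real.sqrt ρ : ℂ) ≠ 0 := by exact_mod_cast hs0.ne'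
      field_simp
    rw [h5] at h4
    exact h4
  -- the ODE for `g`
  have hMg : ∀ r, R < r → M r = (r:ℂ) ^ l * g r := by
    intro r hr
    have hr0 : (r:ℂ) ≠ 0 := by
      have : 0 < r := lt_of_le_of_lt hR hr
      exact_mod_cast this.ne'
    rw [hg]; field_simp
  have hgd : ∀ r, R < r → HasDerivAt g (deriv g r) r := fun r hr =>
    ((hgc.differentiableOn (by norm_num)).differentiableAt (isOpen_Ioi.mem_nhds hr)).hasDerivAt
  have hgc1 : ContDiffOn ℝ (N + 1 : ℕ) (deriv g) (Ioi R) :=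
    hgc.deriv_of_isOpen isOpen_Ioi (by norm_cast)
  have hgdd : ∀ r, R < r → HasDerivAt (deriv g) (deriv (deriv g) r) r := fun r hr =>
    ((hgc1.differentiableOn (by norm_num)).differentiableAt (isOpen_Ioi.mem_nhds hr)).hasDerivAt
  have hpow : ∀ (n : ℕ) (r : ℝ), HasDerivAt (fun r : ℝ => (r:ℂ) ^ n) (n * (r:ℂ) ^ (n - 1)) r := by
    intro n r
    exact (hasDerivAt_pow n (r:ℂ)).comp_ofReal
  have hM1 : ∀ r, R < r → deriv M r = l * (r:ℂ) ^ (l - 1) * g r + (r:ℂ) ^ l * deriv g r := by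
    intro r hr
    have h1 : HasDerivAt (fun r : ℝ => (r:ℂ) ^ l * g r)
      (l * (r:ℂ) ^ (l - 1) * g r + (r:ℂ) ^ l * deriv g r) r := (hpow l r).mul (hgd r hr)
    have h2 : M =ᶠ[𝓝 r] fun r : ℝ => (r:ℂ) ^ l * g r := by
      filter_upwards [isOpen_Ioi.mem_nhds hr] with x hx
      exact hMg x hx
    rw [h2.deriv_eq, h1.deriv]
  have hM2 : ∀ r, R < r → deriv (deriv M) r = l * (((l - 1 : ℕ) : ℂ) * (r:ℂ) ^ (l - 1 - 1)) * g r +
      2 * (l * (r:ℂ) ^ (l - 1) * deriv g r) + (r:ℂ) ^ l * deriv (deriv g) r := by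
    intro r hr
    have h1 : HasDerivAt (fun r : ℝ => l * (r:ℂ) ^ (l - 1) * g r + (r:ℂ) ^ l * deriv g r)
      ((l * (((l - 1 : ℕ) : ℂ) * (r:ℂ) ^ (l - 1 - 1)) * g r + l * (r:ℂ) ^ (l - 1) * deriv g r) +
        (l * (r:ℂ) ^ (l - 1) * deriv g r + (r:ℂ) ^ l * deriv (deriv g) r)) r :=
      (((hpow (l - 1) r).const_mul (l:ℂ)).mul (hgd r hr)).add ((hpow l r).mul (hgdd r hr))
    have h2 : deriv M =ᶠ[𝓝 r] fun r : ℝ => l * (r:ℂ) ^ (l - 1) * g r + (r:ℂ) ^ l * deriv g r := by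
      filter_upwards [isOpen_Ioi.mem_nhds hr] with x hx
      exact hM1 x hx
    rw [h2.deriv_eq, h1.deriv]; ring
  have hgode : ∀ r, R < r → deriv (deriv g) r + (((d:ℂ) - 1 + 2 * l) / r + I * r / 2) * deriv g r +
      I * a * g r = 0 := by
    intro r hr
    have hr0 : (r:ℂ) ≠ 0 := by
      have : 0 < r := lt_of_le_of_lt hR hr
      exact_mod_cast this.ne'
    have h1 := hode r hr
    rw [hM1 r hr, hM2 r hr, hMg r hr] at h1
    have hl1 : (l:ℂ) * (r:ℂ) ^ (l - 1) * r = l * (r:ℂ) ^ l := by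
      rcases Nat.eq_zero_or_pos l with h | h
      · subst h; simp
      · rw [mul_assoc, ← pow_succ, Nat.sub_add_cancel h]
    have hl2 : (l:ℂ) * (((l - 1 : ℕ) : ℂ) * (r:ℂ) ^ (l - 1 - 1)) * r ^ 2 =
        l * ((l:ℂ) - 1) * (r:ℂ) ^ l := by
      rcases Nat.lt_or_ge l 2 with h | h
      · interval_cases l <;> simp
      · have e1 : ((l - 1 : ℕ) : ℂ) = (l:ℂ) - 1 := by
          rw [Nat.cast_sub (by omega)]; simp
        have e2 : (r:ℂ) ^ l = (r:ℂ) ^ (l - 1 - 1) * (r:ℂ) ^ 2 := by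
          rw [← pow_add]; congr 1; omega
        rw [e1, e2]; ring
    have hrl : (r:ℂ) ^ l ≠ 0 := pow_ne_zero _ hr0
    have h2 : (r:ℂ) ^ l * r ^ 2 * (deriv (deriv g) r + (((d:ℂ) - 1 + 2 * l) / r + I * r / 2) *
        deriv g r + I * a * g r) = 0 := by
      have h3 : (r:ℂ) ^ 2 * (l * (((l - 1 : ℕ) : ℂ) * (r:ℂ) ^ (l - 1 - 1)) * g r +
          2 * (l * (r:ℂ) ^ (l - 1) * deriv g r) + (r:ℂ) ^ l * deriv (deriv g) r +
          (((d:ℂ) - 1) / r + I * r / 2) * (l * (r:ℂ) ^ (l - 1) * g r + (r:ℂ) ^ l * deriv g r) -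
          ((l:ℂ) * ((l:ℂ) + d - 2) / (r:ℂ) ^ 2) * ((r:ℂ) ^ l * g r) +
          I * κ * ((r:ℂ) ^ l * g r)) = 0 := by
        rw [h1, mul_zero]
      have h4 : (r:ℂ) ^ 2 * ((((d:ℂ) - 1) / r + I * r / 2) * (l * (r:ℂ) ^ (l - 1) * g r +
          (r:ℂ) ^ l * deriv g r)) = (((d:ℂ) - 1) + I * r ^ 2 / 2) *
          ((l * (r:ℂ) ^ (l - 1) * r) * g r + (r:ℂ) ^ l * r * deriv g r) := by
        field_simp
      have h5 : (r:ℂ) ^ 2 * (((l:ℂ) * ((l:ℂ) + d - 2) / (r:ℂ) ^ 2) * ((r:ℂ) ^ l * g r)) =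
          (l:ℂ) * ((l:ℂ) + d - 2) * ((r:ℂ) ^ l * g r) := by
        field_simp
      have h6 : (r:ℂ) ^ l * r ^ 2 * ((((d:ℂ) - 1 + 2 * l) / r + I * r / 2) * deriv g r) =
          (r:ℂ) ^ l * (((d:ℂ) - 1 + 2 * l) * r + I * r ^ 3 / 2) * deriv g r := by
        field_simp
      have h7 : (r:ℂ) ^ 2 * (2 * (l * (r:ℂ) ^ (l - 1) * deriv g r)) =
          2 * (l * (r:ℂ) ^ (l - 1) * r) * r * deriv g r := by ring
      rw [hl1] at h4 h7
      rw [ha_def]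
      linear_combination h3 - h4 + h5 + h6 - h7 - (g r) * hl2
    rcases mul_eq_zero.mp h2 with h | h
    · exact absurd h (mul_ne_zero hrl (pow_ne_zero _ hr0))
    · exact h
  -- the ODE in `ρ`
  have hodeρ : ∀ ρ, R ^ 2 / 4 < ρ → (ρ : ℂ) * Y 2 ρ + (a + c + 1 + I * ρ) * Y 1 ρ +
      I * a * Y 0 ρ = 0 := by
    intro ρ hρ
    have hρ0 : 0 < ρ := by linarith
    set r : ℝ := 2 * Real.sqrt ρ with hr_def
    have hr := hsq ρ hρ
    have hr0' : 0 < r := lt_of_le_of_lt hR hr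
    have hr0 : (r:ℂ) ≠ 0 := by exact_mod_cast hr0'.ne'
    have hρr : (ρ:ℂ) = (r:ℂ) ^ 2 / 4 := by
      have : ρ = r ^ 2 / 4 := by
        rw [hr_def, mul_pow, Real.sq_sqrt hρ0.le]; ring
      rw [this]; push_cast; ring
    have y0 : Y 0 ρ = g r := rfl
    have y1 : Y 1 ρ = (2 / (r:ℂ)) * deriv g r := rfl
    have y2 : Y 2 ρ = (2 / (r:ℂ)) * ((2 / (r:ℂ)) * deriv (deriv g) r - (2 / (r:ℂ) ^ 2) *
        deriv g r) := by
      show (2 / (r:ℂ)) * deriv (fun r : ℝ => (2 / (r : ℂ)) * deriv g r) r = _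
      congr 1
      have h3 : HasDerivAt (fun r : ℝ => (r:ℂ)) 1 r := by
        simpa using (hasDerivAt_id (r:ℂ)).comp_ofReal
      have h4 : HasDerivAt (fun r : ℝ => 2 / (r:ℂ)) ((0 * (r:ℂ) - 2 * 1) / (r:ℂ) ^ 2) r :=
        (hasDerivAt_const r (2:ℂ)).div h3 hr0
      have h5 : HasDerivAt (fun r : ℝ => (2 / (r:ℂ)) * deriv g r)
        ((0 * (r:ℂ) - 2 * 1) / (r:ℂ) ^ 2 * deriv g r + (2 / (r:ℂ)) * deriv (deriv g) r) r :=
        h4.mul (hgdd r hr)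
      rw [h5.deriv]; ring
    have h6 := hgode r hr
    have hb2 : a + c + 1 = (d:ℂ) / 2 + l := by rw [ha_def, hc_def]; ring
    rw [y0, y1, y2, hρr, hb2]
    have h7 : (r:ℂ) ^ 2 / 4 * ((2 / (r:ℂ)) * ((2 / (r:ℂ)) * deriv (deriv g) r -
        (2 / (r:ℂ) ^ 2) * deriv g r)) + ((d:ℂ) / 2 + l + I * ((r:ℂ) ^ 2 / 4)) *
        ((2 / (r:ℂ)) * deriv g r) = deriv (deriv g) r + (((d:ℂ) - 1 + 2 * l) / r + I * r / 2) *
        deriv g r := by
      field_simp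
      ring
    linear_combination h6 + h7
  -- decay
  set R₂ : ℝ := max 1 (max R R') with hR₂
  have hR21 : 1 ≤ R₂ := le_max_left _ _
  have hR2R : R ≤ R₂ := (le_max_left _ _).trans (le_max_right _ _)
  have hR2R' : R' ≤ R₂ := (le_max_right _ _).trans (le_max_right _ _)
  have hSM : Sy R₂ (N + 2) 0 M := Sy_of_bdd (hM.mono (Ioi_subset_Ioi hR2R)) fun k hk => by
    obtain ⟨C, hC⟩ := hb k hk
    exact ⟨C, fun r hr => hC r (lt_of_le_of_lt hR2R' hr)⟩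
  have hSg : Sy R₂ (N + 2) (0 + l) g := Sy_div_pow hR21 hSM l
  have hdec : ∀ k, k ≤ N + 2 → ∃ C : ℝ, ∀ᶠ ρ : ℝ in atTop, ‖Y k ρ‖ ≤ C * ρ ^ (-((k + l : ℝ) / 2)) := by
    intro k hk
    obtain ⟨C, hC⟩ := (Sy_Dρ hR21 hSg k (N + 2 - k) (by omega)).bound
    refine ⟨C * 2 ^ (-((k:ℝ) + l)), ?_⟩
    filter_upwards [eventually_gt_atTop (R₂ ^ 2 / 4), eventually_gt_atTop 0] with ρ hρ hρ0
    have h1 : R₂ < 2 * Real.sqrt ρ := by
      have h1 : (R₂ / 2) ^ 2 < ρ := by linarith [show (R₂ / 2) ^ 2 = R₂ ^ 2 / 4 by ring]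
      have h2 : R₂ / 2 < Real.sqrt ρ := Real.lt_sqrt_of_sq_lt h1
      linarith
    have h2 := hC _ h1
    have e : (2 * Real.sqrt ρ) ^ (-(0 + (l:ℝ) + k)) =
        2 ^ (-((k:ℝ) + l)) * ρ ^ (-((k + l : ℝ) / 2)) := by
      rw [Real.mul_rpow (by norm_num) (Real.sqrt_nonneg _), Real.sqrt_eq_rpow,
        ← Real.rpow_mul hρ0.le]
      congr 1
      · congr 1; ring
      · congr 1; ring
    rw [e] at h2
    rw [hY]
    calc ‖Dρ g k (2 * Real.sqrt ρ)‖ ≤ C * (2 ^ (-((k:ℝ) + l)) * ρ ^ (-((k + l : ℝ) / 2))) := h2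
      _ = _ := by ring
  obtain ⟨C1, hC1⟩ := hdec (N + 2) le_rfl
  obtain ⟨C2, hC2⟩ := hdec (N + 1) (by omega)
  have hmain := eq_smul_J_of_derivs (a := a) c ha hR4 N Y hd hodeρ
    (β := ((N + 2 : ℕ) + l : ℝ) / 2) (C := max |C1| |C2|) ?_ ?_ ?_
  · obtain ⟨k, hk⟩ := hmain
    refine ⟨k, fun r hr => ?_⟩
    have hr0' : 0 < r := lt_of_le_of_lt hR hr
    have h1 : R ^ 2 / 4 < r ^ 2 / 4 := by
      have : R ^ 2 < r ^ 2 := by nlinarith
      linarith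
    have h2 := (hk (r ^ 2 / 4) h1).1
    have h3 : 2 * Real.sqrt (r ^ 2 / 4) = r := by
      rw [show r ^ 2 / 4 = (r / 2) ^ 2 by ring, Real.sqrt_sq (by positivity)]; ring
    have h4 : Y 0 (r ^ 2 / 4) = g r := by
      rw [hY]; show g (2 * Real.sqrt (r ^ 2 / 4)) = g r; rw [h3]
    rw [h4] at h2
    rw [hMg r hr, h2]; ring
  · -- exponent
    have hb2 : (a + c + 1).re = (d:ℝ) / 2 + l := by
      have : a + c + 1 = (((d:ℝ) / 2 + l : ℝ) : ℂ) := by rw [ha_def, hc_def]; push_cast; ring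
      rw [this, Complex.ofReal_re]
    have ha2 : a.re = κ.re + l / 2 := by rw [ha_def]; simp
    rw [hb2, ha2]
    push_cast at hK ⊢
    linarith
  · filter_upwards [hC1, eventually_gt_atTop 0] with ρ h hρ0
    refine h.trans ?_
    have : C1 ≤ max |C1| |C2| := (le_abs_self _).trans (le_max_left _ _)
    gcongr
  · filter_upwards [hC2, eventually_ge_atTop 1] with ρ h hρ1
    refine h.trans ?_
    have h1 : C2 ≤ max |C1| |C2| := (le_abs_self _).trans (le_max_right _ _)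
    have h2 : ρ ^ (-((((N + 1 : ℕ) : ℝ) + l) / 2)) ≤
        ρ ^ (1 - (((N + 2 : ℕ) : ℝ) + l) / 2) :=
      Real.rpow_le_rpow_of_exponent_le hρ1 (by push_cast; linarith)
    have h3 : 0 ≤ max |C1| |C2| := (abs_nonneg _).trans (le_max_left _ _)
    calc C2 * ρ ^ (-((((N + 1 : ℕ) : ℝ) + l) / 2))
        ≤ max |C1| |C2| * ρ ^ (-((((N + 1 : ℕ) : ℝ) + l) / 2)) := by gcongr
      _ ≤ _ := by gcongr

end Vale.Agent.P139.KU.H761
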