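import Vale.Agent.P139.KU.Rec

/-!
# Rapid decay of `J (a+j) (c-j) ζ` as `j → ∞`
-/

noncomputable section

open MeasureTheory Set Filter Topology Complex

namespace Vale.Agent.P139.KU

lemma ker_shift (a c ζ : ℂ) {s : ℝ} (hs : 0 < s) (j : ℕ) :
    ker (a + j) (c - j) ζ s = ker a c ζ s * ((s : ℂ) / (1 + I * s)) ^ j := by
  induction j with
  | zero => simp
  | succ j ih =>
    have e1 : (a + ((j + 1 : ℕ) : ℂ)) = (a + j) + 1 := by push_cast; ring
    have e2 : (c - ((j + 1 : ℕ) : ℂ)) = (c - j) - 1 := by push_cast; ring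
    rw [e1, e2, ker_succ _ _ _ hs, pow_succ, ← mul_assoc, ← ih, ker_c_pred (a + j) (c - j) ζ s]
    have h := one_add_ne s
    rw [show (1 + I * (s : ℂ)) * ker (a + j) (c - j - 1) ζ s * ((s : ℂ) / (1 + I * s)) =
      (s : ℂ) * ker (a + j) (c - j - 1) ζ s * ((1 + I * s) / (1 + I * s)) by ring,
      div_self h, mul_one]

lemma norm_quot_sq (s : ℝ) : ‖(s : ℂ) / (1 + I * s)‖ ^ 2 = s ^ 2 / (1 + s ^ 2) := by
  rw [norm_div, div_pow, Complex.norm_real, Real.norm_eq_abs, sq_abs]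
  congr 1
  rw [← Complex.normSq_eq_norm_sq, Complex.normSq_apply]
  simp
  ring

lemma norm_quot_le_exp (s : ℝ) :
    ‖(s : ℂ) / (1 + I * s)‖ ≤ Real.exp (-(1 / (2 * (1 + s ^ 2)))) := by
  have h1 : ‖(s : ℂ) / (1 + I * s)‖ ^ 2 ≤ (Real.exp (-(1 / (2 * (1 + s ^ 2))))) ^ 2 := by
    rw [norm_quot_sq, ← Real.exp_nat_mul]
    have hpos : 0 < 1 + s ^ 2 := by positivity
    have e : s ^ 2 / (1 + s ^ 2) = -(1 / (1 + s ^ 2)) + 1 := by field_simp; ring
    have e2 : ((2 : ℕ) : ℝ) * -(1 / (2 * (1 + s ^ 2))) = -(1 / (1 + s ^ 2)) := by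
      push_cast; field_simp
    rw [e, e2]
    exact Real.add_one_le_exp _
  exact le_of_sq_le_sq h1 (Real.exp_pos _).le

lemma norm_quot_pow_le (s : ℝ) (j K : ℕ) :
    ((j : ℝ) + 1) ^ K * ‖((s : ℂ) / (1 + I * s)) ^ j‖ ≤
      (K.factorial : ℝ) * 2 ^ K * Real.exp 1 * (1 + s ^ 2) ^ K := by
  have hpos : 0 < 1 + s ^ 2 := by positivity
  set u : ℝ := 1 / (2 * (1 + s ^ 2)) with hu
  have hupos : 0 < u := by positivity
  have hu1 : u ≤ 1 := by
    rw [hu, div_le_one (by positivity)]; nlinarith [sq_nonneg s]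
  have h1 : ‖((s : ℂ) / (1 + I * s)) ^ j‖ ≤ Real.exp (-(j * u)) := by
    rw [norm_pow]
    calc ‖(s : ℂ) / (1 + I * s)‖ ^ j ≤ (Real.exp (-u)) ^ j :=
          pow_le_pow_left₀ (norm_nonneg _) (norm_quot_le_exp s) j
      _ = Real.exp (-(j * u)) := by rw [← Real.exp_nat_mul]; ring_nf
  have h2 : ((((j : ℝ) + 1) * u) ^ K) / K.factorial ≤ Real.exp (((j : ℝ) + 1) * u) :=
    Real.pow_div_factorial_le_exp _ (by positivity) K
  have h3 : (((j : ℝ) + 1) * u) ^ K ≤ K.factorial * Real.exp (((j : ℝ) + 1) * u) := by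
    rw [div_le_iff₀ (by positivity)] at h2; linarith
  have h4 : ((j : ℝ) + 1) ^ K = (2 * (1 + s ^ 2)) ^ K * (((j : ℝ) + 1) * u) ^ K := by
    rw [← mul_pow, hu]; congr 1; field_simp
  calc ((j : ℝ) + 1) ^ K * ‖((s : ℂ) / (1 + I * s)) ^ j‖
      ≤ ((j : ℝ) + 1) ^ K * Real.exp (-(j * u)) := by gcongr
    _ = (2 * (1 + s ^ 2)) ^ K * (((j : ℝ) + 1) * u) ^ K * Real.exp (-(j * u)) := by rw [h4]
    _ ≤ (2 * (1 + s ^ 2)) ^ K * (K.factorial * Real.exp (((j : ℝ) + 1) * u)) *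
        Real.exp (-(j * u)) := by gcongr
    _ = (K.factorial : ℝ) * 2 ^ K * Real.exp u * (1 + s ^ 2) ^ K := by
        have : Real.exp (((j : ℝ) + 1) * u) * Real.exp (-(j * u)) = Real.exp u := by
          rw [← Real.exp_add]; ring_nf
        rw [mul_pow, ← this]; ring
    _ ≤ (K.factorial : ℝ) * 2 ^ K * Real.exp 1 * (1 + s ^ 2) ^ K := by gcongr

/-- `J (a+j) (c-j) ζ` decays faster than every power of `j`. -/
theorem norm_J_shift_le {a ζ : ℂ} (c : ℂ) (ha : 0 < a.re) (hζ : 0 < ζ.re) (K : ℕ) :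
    ∃ C : ℝ, 0 ≤ C ∧ ∀ j : ℕ, ((j : ℝ) + 1) ^ K * ‖J (a + j) (c - j) ζ‖ ≤ C := by
  set m : ℝ := |c.re| + 2 * K with hm
  have hint := majorant_integrable m ha hζ
  set A : ℝ := Real.exp (|c.im| * (Real.pi / 2)) * ((K.factorial : ℝ) * 2 ^ K * Real.exp 1) with hA
  refine ⟨A * ∫ s in Ioi (0 : ℝ), Real.exp (-(ζ.re * s)) * s ^ (a.re - 1) * (1 + s) ^ m, ?_, ?_⟩
  · apply mul_nonneg (by positivity)
    apply setIntegral_nonneg measurableSet_Ioi
    intro s hs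
    have hs' : (0 : ℝ) < s := hs
    positivity
  · intro j
    have hj : ((j : ℝ) + 1) ^ K * ‖J (a + j) (c - j) ζ‖ =
        ‖∫ s in Ioi (0 : ℝ), ((((j : ℝ) + 1) ^ K : ℝ) : ℂ) * ker (a + j) (c - j) ζ s‖ := by
      rw [integral_const_mul, norm_mul, Complex.norm_real, Real.norm_of_nonneg (by positivity)]
      rfl
    rw [hj, ← integral_const_mul]
    refine norm_integral_le_of_norm_le (hint.const_mul _) ?_
    refine (ae_restrict_iff' measurableSet_Ioi).mpr (Eventually.of_forall fun s hs => ?_)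
    have hs' : (0 : ℝ) < s := hs
    rw [ker_shift a c ζ hs' j, norm_mul, norm_mul, Complex.norm_real,
      Real.norm_of_nonneg (by positivity)]
    have h1 := norm_ker_le a c ζ hs'
    have h2 := norm_quot_pow_le s j K
    have h3 : (1 + s ^ 2) ^ K ≤ (1 + s) ^ (2 * (K : ℝ)) := by
      rw [Real.rpow_mul (by linarith), Real.rpow_natCast]
      apply pow_le_pow_left₀ (by positivity)
      rw [show (2 : ℝ) = ((2 : ℕ) : ℝ) by norm_num, Real.rpow_natCast]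
      nlinarith
    have h4 : (1 + s) ^ m = (1 + s) ^ |c.re| * (1 + s) ^ (2 * (K : ℝ)) := by
      rw [hm, Real.rpow_add (by linarith)]
    calc ((j : ℝ) + 1) ^ K * (‖ker a c ζ s‖ * ‖((s : ℂ) / (1 + I * s)) ^ j‖)
        = ‖ker a c ζ s‖ * (((j : ℝ) + 1) ^ K * ‖((s : ℂ) / (1 + I * s)) ^ j‖) := by ring
      _ ≤ (Real.exp (|c.im| * (Real.pi / 2)) *
          (Real.exp (-(ζ.re * s)) * s ^ (a.re - 1) * (1 + s) ^ |c.re|)) *
          ((K.factorial : ℝ) * 2 ^ K * Real.exp 1 * (1 + s) ^ (2 * (K : ℝ))) := by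
          have h5 : ((j : ℝ) + 1) ^ K * ‖((s : ℂ) / (1 + I * s)) ^ j‖ ≤
              (K.factorial : ℝ) * 2 ^ K * Real.exp 1 * (1 + s) ^ (2 * (K : ℝ)) :=
            h2.trans (mul_le_mul_of_nonneg_left h3 (by positivity))
          exact mul_le_mul h1 h5 (by positivity) (by positivity)
      _ = A * (Real.exp (-(ζ.re * s)) * s ^ (a.re - 1) * (1 + s) ^ m) := by
          rw [h4, hA]; ring

end Vale.Agent.P139.KU
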