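import Vale.Agent.P139.KU.Uniq761

noncomputable section

open MeasureTheory Set Filter Topology Complex

namespace Vale.Agent.P139.KU.H761

/-! ### Higher derivatives in `ρ` -/

/-- `k`-th `ρ`-derivative of `J a c`. -/
def Jd (a c : ℂ) (k : ℕ) (ρ : ℝ) : ℂ := (-1) ^ k * J (a + k) c (ρ : ℂ)

lemma hasDerivAt_Jd {a : ℂ} (c : ℂ) (ha : 0 < a.re) (k : ℕ) {ρ : ℝ} (hρ : 0 < ρ) :
    HasDerivAt (Jd a c k) (Jd a c (k + 1) ρ) ρ := by
  have hk : 0 < (a + k).re := by simp; positivity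
  have h := (hasDerivAt_J_real c hk hρ).const_mul ((-1 : ℂ) ^ k)
  have e : Jd a c (k + 1) ρ = (-1 : ℂ) ^ k * (-J (a + k + 1) c (ρ : ℂ)) := by
    unfold Jd
    rw [pow_succ]; push_cast
    rw [show a + (k + 1 : ℂ) = a + k + 1 by ring]
    ring
  rw [e]
  exact h

lemma Jd_ode {a : ℂ} (c : ℂ) (ha : 0 < a.re) (k : ℕ) {ρ : ℝ} (hρ : 0 < ρ) :
    (ρ : ℂ) * Jd a c (k + 2) ρ + (a + c + 1 + k + I * ρ) * Jd a c (k + 1) ρ +
      I * (a + k) * Jd a c k ρ = 0 := by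
  have hk : 0 < (a + k).re := by simp; positivity
  have h := J_ode761 (a := a + k) (ζ := (ρ : ℂ)) c hk (by simpa using hρ)
  unfold Jd
  push_cast
  rw [pow_succ, pow_succ, show a + ((k : ℂ) + 2) = a + k + 1 + 1 by ring,
    show a + ((k : ℂ) + 1) = a + k + 1 by ring]
  linear_combination ((-1 : ℂ) ^ k) * h

lemma norm_Jd_le {a : ℂ} (c : ℂ) (ha : 0 < a.re) (k : ℕ) :
    ∃ C : ℝ, 0 ≤ C ∧ ∀ ρ : ℝ, 1 ≤ ρ → ‖Jd a c k ρ‖ ≤ C * ρ ^ (-(a.re + k)) := by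
  have hk : 0 < (a + k).re := by simp; positivity
  refine ⟨Real.exp (|c.im| * (Real.pi / 2)) * Mj (a + k).re |c.re|,
    mul_nonneg (Real.exp_pos _).le (Mj_nonneg _ _), fun ρ hρ => ?_⟩
  have h := norm_J_le (a := a + k) (ζ := (ρ : ℂ)) c hk (by simpa using hρ)
  unfold Jd
  rw [norm_mul, norm_pow, norm_neg, norm_one, one_pow, one_mul]
  simpa using h

/-- **Uniqueness of the slow solution, higher derivative form (variable `ρ`).**
`Y 0` solves Kummer's equation on `(ρ₀,∞)` and `Y k` (`k ≤ N+2`) are its derivatives; if the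
derivatives of order `N+2` and `N+1` decay like `ρ^{-β}`, `ρ^{1-β}` with `β > Re b - Re a`, then
`Y 0` is a multiple of `J`. -/
theorem eq_smul_J_of_derivs {a : ℂ} (c : ℂ) (ha : 0 < a.re) {ρ₀ : ℝ} (hρ₀ : 0 ≤ ρ₀) (N : ℕ)
    (Y : ℕ → ℝ → ℂ)
    (hd : ∀ k, k < N + 2 → ∀ ρ, ρ₀ < ρ → HasDerivAt (Y k) (Y (k + 1) ρ) ρ)
    (hode : ∀ ρ, ρ₀ < ρ → (ρ : ℂ) * Y 2 ρ + (a + c + 1 + I * ρ) * Y 1 ρ + I * a * Y 0 ρ = 0)
    {β C : ℝ} (hβ : (a + c + 1).re - a.re < β)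
    (h1 : ∀ᶠ ρ : ℝ in atTop, ‖Y (N + 2) ρ‖ ≤ C * ρ ^ (-β))
    (h2 : ∀ᶠ ρ : ℝ in atTop, ‖Y (N + 1) ρ‖ ≤ C * ρ ^ (1 - β)) :
    ∃ k : ℂ, ∀ ρ, ρ₀ < ρ → Y 0 ρ = k * J a c (ρ:ℂ) ∧ Y 1 ρ = -(k * J (a + 1) c (ρ:ℂ)) := by
  -- the differentiated equations
  have hodek : ∀ k, k ≤ N → ∀ ρ, ρ₀ < ρ → (ρ : ℂ) * Y (k + 2) ρ +
      (a + c + 1 + k + I * ρ) * Y (k + 1) ρ + I * (a + k) * Y k ρ = 0 := by
    intro k
    induction k with
    | zero => intro _ ρ hρ; simpa using hode ρ hρ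
    | succ k ih =>
      intro hk ρ hρ
      have hg : HasDerivAt (fun ρ : ℝ => (ρ : ℂ) * Y (k + 2) ρ +
          (a + c + 1 + k + I * ρ) * Y (k + 1) ρ + I * (a + k) * Y k ρ)
          ((1 * Y (k + 2) ρ + (ρ:ℂ) * Y (k + 3) ρ) +
            ((I * 1) * Y (k + 1) ρ + (a + c + 1 + k + I * ρ) * Y (k + 2) ρ) +
            I * (a + k) * Y (k + 1) ρ) ρ := by
        have t1 : HasDerivAt (fun ρ : ℝ => (ρ:ℂ)) 1 ρ := by
          simpa using (hasDerivAt_id (ρ:ℂ)).comp_ofReal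
        have t2 : HasDerivAt (fun ρ : ℝ => a + c + 1 + k + I * (ρ:ℂ)) (I * 1) ρ :=
          (t1.const_mul I).const_add _
        exact ((t1.mul (hd (k + 2) (by omega) ρ hρ)).add
          (t2.mul (hd (k + 1) (by omega) ρ hρ))).add ((hd k (by omega) ρ hρ).const_mul _)
      have hz : HasDerivAt (fun ρ : ℝ => (ρ : ℂ) * Y (k + 2) ρ +
          (a + c + 1 + k + I * ρ) * Y (k + 1) ρ + I * (a + k) * Y k ρ) 0 ρ := by
        refine (hasDerivAt_const ρ (0:ℂ)).congr_of_eventuallyEq ?_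
        filter_upwards [isOpen_Ioi.mem_nhds hρ] with x hx
        exact ih (by omega) x hx
      have := hg.unique hz
      push_cast
      linear_combination this
  -- Wronskian relation
  have hWk : ∀ k, k ≤ N + 1 → ∀ ρ, ρ₀ < ρ → (ρ:ℂ) ^ k *
      (Y (k + 1) ρ * Jd a c k ρ - Y k ρ * Jd a c (k + 1) ρ) =
      (∏ j ∈ Finset.range k, (I * (a + j))) *
        (Y 1 ρ * Jd a c 0 ρ - Y 0 ρ * Jd a c 1 ρ) := by
    intro k
    induction k with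
    | zero => intro _ ρ hρ; simp
    | succ k ih =>
      intro hk ρ hρ
      have hρ0 : 0 < ρ := by linarith
      have o1 := hodek k (by omega) ρ hρ
      have o2 := Jd_ode c ha k hρ0
      have h3 := ih (by omega) ρ hρ
      rw [Finset.prod_range_succ]
      have e : (ρ:ℂ) ^ (k + 1) * (Y (k + 1 + 1) ρ * Jd a c (k + 1) ρ -
          Y (k + 1) ρ * Jd a c (k + 1 + 1) ρ) = I * (a + k) * ((ρ:ℂ) ^ k *
          (Y (k + 1) ρ * Jd a c k ρ - Y k ρ * Jd a c (k + 1) ρ)) := by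
        rw [pow_succ]
        linear_combination ((ρ:ℂ) ^ k * Jd a c (k + 1) ρ) * o1 - ((ρ:ℂ) ^ k * Y (k + 1) ρ) * o2
      rw [e, h3]; ring
  have hsol : IsSol a (a + c + 1) ρ₀ (Y 0) (Y 1) (Y 2) :=
    ⟨fun ρ hρ => hd 0 (by omega) ρ hρ, fun ρ hρ => hd 1 (by omega) ρ hρ, hode⟩
  have hJs := isSol_J c ha hρ₀
  have hW1 := hWk (N + 1) le_rfl
  obtain ⟨n, hn⟩ : ∃ n, n = N + 1 := ⟨_, rfl⟩
  have hn2 : N + 2 = n + 1 := by omega
  rw [← hn] at hW1 h2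
  rw [hn2] at h1
  -- the limit
  set Pr : ℝ := ∏ j ∈ Finset.range n, ‖I * (a + (j:ℂ))‖ with hPr
  have hPr0 : 0 < Pr := by
    refine Finset.prod_pos fun j _ => norm_pos_iff.mpr (mul_ne_zero Complex.I_ne_zero ?_)
    intro h
    have := congrArg Complex.re h
    simp at this
    have hj : (0:ℝ) ≤ j := Nat.cast_nonneg j
    linarith
  obtain ⟨C1, hC1, hb1⟩ := norm_Jd_le c ha n
  obtain ⟨C2, hC2, hb2⟩ := norm_Jd_le c ha (n + 1)
  have hlim : Tendsto (fun ρ : ℝ => ρ ^ (a + c + 1).re * ‖Wr (Y 0) (Y 1)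
      (fun ρ => J a c (ρ:ℂ)) (fun ρ => -J (a + 1) c (ρ:ℂ)) ρ‖) atTop (𝓝 0) := by
    set γ : ℝ := β - ((a + c + 1).re - a.re) with hγ
    have hγ0 : 0 < γ := by rw [hγ]; linarith
    have hl : Tendsto (fun ρ : ℝ => (|C| * (C1 + C2) / Pr) * ρ ^ (-γ)) atTop (𝓝 0) := by
      simpa using (tendsto_rpow_neg_atTop hγ0).const_mul (|C| * (C1 + C2) / Pr)
    refine squeeze_zero' ?_ ?_ hl
    · filter_upwards [eventually_gt_atTop 0] with ρ hρ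
      positivity
    · filter_upwards [eventually_gt_atTop ρ₀, eventually_ge_atTop 1, h1, h2] with ρ g0 g1 g2 g3
      have hρ0 : 0 < ρ := by linarith
      have e0 : Wr (Y 0) (Y 1) (fun ρ => J a c (ρ:ℂ)) (fun ρ => -J (a + 1) c (ρ:ℂ)) ρ =
          Y 1 ρ * Jd a c 0 ρ - Y 0 ρ * Jd a c 1 ρ := by
        unfold Wr Jd; simp
      have h4 := congrArg norm (hW1 ρ g0)
      rw [norm_mul, norm_mul, norm_pow, norm_prod, Complex.norm_real, Real.norm_of_nonneg hρ0.le,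
        ← hPr] at h4
      rw [e0]
      have h5 : ‖Y 1 ρ * Jd a c 0 ρ - Y 0 ρ * Jd a c 1 ρ‖ =
          ρ ^ n * ‖Y (n + 1) ρ * Jd a c n ρ - Y n ρ * Jd a c (n + 1) ρ‖ / Pr := by
        rw [h4]; field_simp
      rw [h5]
      have b1 := hb1 ρ g1
      have b2 := hb2 ρ g1
      have g2' : ‖Y (n + 1) ρ‖ ≤ |C| * ρ ^ (-β) :=
        g2.trans (by gcongr; exact le_abs_self C)
      have g3' : ‖Y n ρ‖ ≤ |C| * ρ ^ (1 - β) :=
        g3.trans (by gcongr; exact le_abs_self C)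
      have h6 : ‖Y (n + 1) ρ * Jd a c n ρ - Y n ρ * Jd a c (n + 1) ρ‖ ≤
          |C| * (C1 + C2) * ρ ^ (-β - a.re - n) := by
        refine (norm_sub_le _ _).trans ?_
        rw [norm_mul, norm_mul]
        have k1 : ‖Y (n + 1) ρ‖ * ‖Jd a c n ρ‖ ≤ (|C| * ρ ^ (-β)) * (C1 * ρ ^ (-(a.re + n))) :=
          mul_le_mul g2' b1 (norm_nonneg _) (by positivity)
        have k2 : ‖Y n ρ‖ * ‖Jd a c (n + 1) ρ‖ ≤ (|C| * ρ ^ (1 - β)) *
            (C2 * ρ ^ (-(a.re + ((n + 1 : ℕ) : ℝ)))) :=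
          mul_le_mul g3' b2 (norm_nonneg _) (by positivity)
        have m1 : ρ ^ (-β) * ρ ^ (-(a.re + n)) = ρ ^ (-β - a.re - n) := by
          rw [← Real.rpow_add hρ0]; congr 1; ring
        have m2 : ρ ^ (1 - β) * ρ ^ (-(a.re + ((n + 1 : ℕ) : ℝ))) = ρ ^ (-β - a.re - n) := by
          rw [← Real.rpow_add hρ0]; congr 1; push_cast; ring
        calc ‖Y (n + 1) ρ‖ * ‖Jd a c n ρ‖ + ‖Y n ρ‖ * ‖Jd a c (n + 1) ρ‖
            ≤ (|C| * ρ ^ (-β)) * (C1 * ρ ^ (-(a.re + n))) + (|C| * ρ ^ (1 - β)) *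
            (C2 * ρ ^ (-(a.re + ((n + 1 : ℕ) : ℝ)))) := add_le_add k1 k2
          _ = |C| * C1 * (ρ ^ (-β) * ρ ^ (-(a.re + n))) +
              |C| * C2 * (ρ ^ (1 - β) * ρ ^ (-(a.re + ((n + 1 : ℕ) : ℝ)))) := by ring
          _ = _ := by rw [m1, m2]; ring
      have m3 : ρ ^ (a + c + 1).re * (ρ ^ n * ρ ^ (-β - a.re - n)) = ρ ^ (-γ) := by
        rw [← Real.rpow_natCast ρ n, ← Real.rpow_add hρ0, ← Real.rpow_add hρ0]
        congr 1; rw [hγ]; ring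
      calc ρ ^ (a + c + 1).re * (ρ ^ n * ‖Y (n + 1) ρ * Jd a c n ρ -
            Y n ρ * Jd a c (n + 1) ρ‖ / Pr)
          ≤ ρ ^ (a + c + 1).re * (ρ ^ n * (|C| * (C1 + C2) * ρ ^ (-β - a.re - n)) / Pr) := by
            gcongr
        _ = (|C| * (C1 + C2) / Pr) * (ρ ^ (a + c + 1).re * (ρ ^ n * ρ ^ (-β - a.re - n))) := by
            ring
        _ = _ := by rw [m3]
  exact eq_smul_J_of_wr c ha hρ₀ hsol fun s hs => wr_eq_zero hρ₀ hsol hJs hlim hs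

end Vale.Agent.P139.KU.H761
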