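import Vale.Agent.P139.KU.Ode761

noncomputable section

open MeasureTheory Set Filter Topology Complex

namespace Vale.Agent.P139.KU.H761

/-- real-variable derivative of `J` -/
theorem hasDerivAt_J_real {a : ℂ} (c : ℂ) (ha : 0 < a.re) {ρ : ℝ} (hρ : 0 < ρ) :
    HasDerivAt (fun ρ : ℝ => J a c (ρ : ℂ)) (-J (a + 1) c (ρ : ℂ)) ρ :=
  (hasDerivAt_J c ha (by simpa using hρ)).comp_ofReal

/-- `y` solves `ρ y'' + (b + i ρ) y' + i a y = 0` on `(ρ₀, ∞)`; `y1, y2` are its derivatives -/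
structure IsSol (a b : ℂ) (ρ₀ : ℝ) (y y1 y2 : ℝ → ℂ) : Prop where
  d0 : ∀ ρ, ρ₀ < ρ → HasDerivAt y (y1 ρ) ρ
  d1 : ∀ ρ, ρ₀ < ρ → HasDerivAt y1 (y2 ρ) ρ
  ode : ∀ ρ, ρ₀ < ρ → (ρ : ℂ) * y2 ρ + (b + I * ρ) * y1 ρ + I * a * y ρ = 0

theorem isSol_J {a : ℂ} (c : ℂ) (ha : 0 < a.re) {ρ₀ : ℝ} (hρ₀ : 0 ≤ ρ₀) :
    IsSol a (a + c + 1) ρ₀ (fun ρ => J a c (ρ : ℂ)) (fun ρ => -J (a + 1) c (ρ : ℂ))
      (fun ρ => J (a + 1 + 1) c (ρ : ℂ)) where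
  d0 := fun ρ h => hasDerivAt_J_real c ha (by linarith)
  d1 := fun ρ h => by
    have h1 : HasDerivAt (fun ρ : ℝ => -J (a + 1) c (ρ : ℂ)) (-(-J (a + 1 + 1) c (ρ : ℂ))) ρ :=
      (hasDerivAt_J_real (a := a + 1) c (by simp; linarith) (show 0 < ρ by linarith)).neg
    rwa [neg_neg] at h1
  ode := fun ρ h => by
    have := J_ode761 (a := a) (ζ := (ρ : ℂ)) c ha (by simp; linarith)
    linear_combination this

/-- Wronskian -/
def Wr (y y1 z z1 : ℝ → ℂ) (ρ : ℝ) : ℂ := y1 ρ * z ρ - y ρ * z1 ρ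

theorem wr_const {a b : ℂ} {ρ₀ : ℝ} (hρ₀ : 0 ≤ ρ₀) {y y1 y2 z z1 z2 : ℝ → ℂ}
    (hy : IsSol a b ρ₀ y y1 y2) (hz : IsSol a b ρ₀ z z1 z2) {s t : ℝ} (hs : ρ₀ < s)
    (ht : ρ₀ < t) :
    (s : ℂ) ^ b * cexp (I * s) * Wr y y1 z z1 s = (t : ℂ) ^ b * cexp (I * t) * Wr y y1 z z1 t := by
  have key : ∀ ρ, ρ₀ < ρ → HasDerivAt (fun ρ : ℝ => (ρ : ℂ) ^ b * cexp (I * ρ) *
      Wr y y1 z z1 ρ) 0 ρ := by
    intro ρ hρ
    have hρ0 : 0 < ρ := by linarith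
    have h0 : (ρ:ℂ) ≠ 0 := by exact_mod_cast hρ0.ne'
    have hsl : (ρ:ℂ) ∈ slitPlane := by left; simpa using hρ0
    have h1 : HasDerivAt (fun ρ : ℝ => (ρ : ℂ) ^ b) (b * (ρ:ℂ) ^ (b - 1) * 1) ρ :=
      ((hasDerivAt_id (ρ:ℂ)).cpow_const hsl).comp_ofReal
    have h2 : HasDerivAt (fun ρ : ℝ => cexp (I * ρ)) (cexp (I * (ρ:ℂ)) * (I * 1)) ρ :=
      (((hasDerivAt_id (ρ:ℂ)).const_mul I).cexp).comp_ofReal
    have h3 : HasDerivAt (Wr y y1 z z1) ((y2 ρ * z ρ + y1 ρ * z1 ρ) -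
        (y1 ρ * z1 ρ + y ρ * z2 ρ)) ρ :=
      ((hy.d1 ρ hρ).mul (hz.d0 ρ hρ)).sub ((hy.d0 ρ hρ).mul (hz.d1 ρ hρ))
    have h4 : HasDerivAt (fun ρ : ℝ => (ρ : ℂ) ^ b * cexp (I * ρ) * Wr y y1 z z1 ρ)
        ((b * (ρ:ℂ) ^ (b - 1) * 1 * cexp (I * (ρ:ℂ)) +
          (ρ:ℂ) ^ b * (cexp (I * (ρ:ℂ)) * (I * 1))) * Wr y y1 z z1 ρ +
          (ρ:ℂ) ^ b * cexp (I * (ρ:ℂ)) * ((y2 ρ * z ρ + y1 ρ * z1 ρ) -
            (y1 ρ * z1 ρ + y ρ * z2 ρ))) ρ := (h1.mul h2).mul h3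
    refine h4.congr_deriv ?_
    have e1 : (ρ:ℂ) ^ b = (ρ:ℂ) ^ (b - 1) * ρ := by
      have : (ρ:ℂ) ^ (b - 1 + 1) = (ρ:ℂ) ^ (b - 1) * ρ := by
        rw [Complex.cpow_add _ _ h0, Complex.cpow_one]
      rwa [sub_add_cancel] at this
    have oy := hy.ode ρ hρ
    have oz := hz.ode ρ hρ
    rw [e1]
    unfold Wr
    linear_combination ((ρ:ℂ) ^ (b - 1) * cexp (I * ρ)) * (z ρ * oy - y ρ * oz)
  have hd : DifferentiableOn ℝ (fun ρ : ℝ => (ρ : ℂ) ^ b * cexp (I * ρ) *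
      Wr y y1 z z1 ρ) (Ioi ρ₀) :=
    fun x hx => (key x hx).differentiableAt.differentiableWithinAt
  exact isOpen_Ioi.is_const_of_deriv_eq_zero isPreconnected_Ioi hd
    (fun x hx => (key x hx).deriv) hs ht

/-- criterion for the vanishing of the Wronskian: `ρ^{Re b} |W(ρ)|` is small along a sequence -/
theorem wr_eq_zero {a b : ℂ} {ρ₀ : ℝ} (hρ₀ : 0 ≤ ρ₀) {y y1 y2 z z1 z2 : ℝ → ℂ}
    (hy : IsSol a b ρ₀ y y1 y2) (hz : IsSol a b ρ₀ z z1 z2)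
    (hlim : Tendsto (fun ρ : ℝ => ρ ^ b.re * ‖Wr y y1 z z1 ρ‖) atTop (𝓝 0)) {s : ℝ}
    (hs : ρ₀ < s) : Wr y y1 z z1 s = 0 := by
  have hs0 : 0 < s := by linarith
  have h1 : Tendsto (fun ρ : ℝ => ρ ^ b.re * ‖Wr y y1 z z1 ρ‖) atTop
      (𝓝 (s ^ b.re * ‖Wr y y1 z z1 s‖)) := by
    refine tendsto_const_nhds.congr' ?_
    filter_upwards [eventually_gt_atTop ρ₀] with ρ hρ
    have hρ0 : 0 < ρ := by linarith
    have h2 := congrArg norm (wr_const hρ₀ hy hz hs hρ)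
    rw [norm_mul, norm_mul, norm_mul, norm_mul, Complex.norm_cpow_eq_rpow_re_of_pos hs0,
      Complex.norm_cpow_eq_rpow_re_of_pos hρ0] at h2
    have e : ∀ x : ℝ, ‖cexp (I * (x:ℂ))‖ = 1 := fun x => by
      rw [mul_comm]; exact Complex.norm_exp_ofReal_mul_I x
    rw [e, e, mul_one, mul_one] at h2
    exact h2
  have h3 := tendsto_nhds_unique h1 hlim
  have h4 : s ^ b.re ≠ 0 := (Real.rpow_pos_of_pos hs0 _).ne'
  have h5 : ‖Wr y y1 z z1 s‖ = 0 := by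
    rcases mul_eq_zero.mp h3 with h | h
    · exact absurd h h4
    · exact h
  exact norm_eq_zero.mp h5

/-- a solution with vanishing Cauchy data vanishes -/
theorem sol_unique {a b : ℂ} {ρ₀ : ℝ} (hρ₀ : 0 ≤ ρ₀) {y y1 y2 : ℝ → ℂ}
    (hy : IsSol a b ρ₀ y y1 y2) {s : ℝ} (hs : ρ₀ < s) (h0 : y s = 0) (h1 : y1 s = 0) :
    ∀ t, ρ₀ < t → y t = 0 ∧ y1 t = 0 := by
  intro t ht
  set A : ℝ := (ρ₀ + min s t) / 2 with hA
  set B : ℝ := max s t + 1 with hB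
  have hm : ρ₀ < min s t := lt_min hs ht
  have hA1 : ρ₀ < A := by rw [hA]; linarith
  have hA0 : 0 < A := by linarith
  have hAs : A < s := by rw [hA]; have := min_le_left s t; linarith
  have hAt : A < t := by rw [hA]; have := min_le_right s t; linarith
  have hsB : s < B := by rw [hB]; have := le_max_left s t; linarith
  have htB : t < B := by rw [hB]; have := le_max_right s t; linarith
  set v : ℝ → ℂ × ℂ → ℂ × ℂ := fun r p => (p.2, -((b + I * r) * p.2 + I * a * p.1) / r) with hv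
  set K : ℝ := 1 + (‖b‖ + B + ‖a‖) / A with hK
  have hB0 : 0 < B := by linarith
  have hK0 : 0 ≤ K := by rw [hK]; positivity
  have hlip : ∀ r ∈ Ioo A B, LipschitzOnWith K.toNNReal (v r) univ := by
    intro r hr
    have hr0 : 0 < r := hA0.trans hr.1
    rw [lipschitzOnWith_univ]
    refine LipschitzWith.of_dist_le_mul fun p q => ?_
    rw [dist_eq_norm, dist_eq_norm, Real.coe_toNNReal K hK0]
    have e : v r p - v r q = (p.2 - q.2, -((b + I * r) * (p.2 - q.2) + I * a * (p.1 - q.1)) / r) := by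
      rw [hv]
      ext
      · simp
      · simp; ring
    rw [e, Prod.norm_def]
    have n1 : ‖p.1 - q.1‖ ≤ ‖p - q‖ := norm_fst_le (p - q)
    have n2 : ‖p.2 - q.2‖ ≤ ‖p - q‖ := norm_snd_le (p - q)
    show max ‖p.2 - q.2‖ _ ≤ K * ‖p - q‖
    refine max_le ?_ ?_
    · have : 1 ≤ K := by rw [hK]; have : 0 ≤ (‖b‖ + B + ‖a‖) / A := by positivity
                         linarith
      nlinarith [norm_nonneg (p - q)]
    · rw [norm_div, norm_neg]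
      have hrn : ‖(r:ℂ)‖ = r := by simp [abs_of_pos hr0]
      rw [hrn, div_le_iff₀ hr0]
      have h2 : ‖(b + I * r) * (p.2 - q.2) + I * a * (p.1 - q.1)‖ ≤
          (‖b‖ + B) * ‖p - q‖ + ‖a‖ * ‖p - q‖ := by
        refine (norm_add_le _ _).trans (add_le_add ?_ ?_)
        · rw [norm_mul]
          refine mul_le_mul ?_ n2 (norm_nonneg _) (by positivity)
          refine (norm_add_le _ _).trans ?_
          rw [norm_mul, Complex.norm_I, one_mul, hrn]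
          linarith [hr.2]
        · rw [norm_mul, norm_mul, Complex.norm_I, one_mul]
          gcongr
      have h3 : (‖b‖ + B + ‖a‖) ≤ (‖b‖ + B + ‖a‖) / A * r := by
        rw [div_mul_eq_mul_div, le_div_iff₀ hA0]
        have : 0 ≤ ‖b‖ + B + ‖a‖ := by positivity
        nlinarith [hr.1]
      calc ‖(b + I * r) * (p.2 - q.2) + I * a * (p.1 - q.1)‖
          ≤ (‖b‖ + B + ‖a‖) * ‖p - q‖ := by linarith
        _ ≤ ((‖b‖ + B + ‖a‖) / A * r) * ‖p - q‖ := by gcongr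
        _ ≤ (1 * r + (‖b‖ + B + ‖a‖) / A * r) * ‖p - q‖ := by
            have := norm_nonneg (p - q)
            nlinarith
        _ = K * ‖p - q‖ * r := by rw [hK]; ring
  have hsol : ∀ r ∈ Ioo A B, HasDerivAt (fun r => (y r, y1 r)) (v r ((fun r => (y r, y1 r)) r)) r ∧
      (fun r => (y r, y1 r)) r ∈ (univ : Set (ℂ × ℂ)) := by
    intro r hr
    have hr1 : ρ₀ < r := hA1.trans hr.1
    have hr0 : 0 < r := hA0.trans hr.1
    have hrc : (r:ℂ) ≠ 0 := by exact_mod_cast hr0.ne'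
    refine ⟨?_, mem_univ _⟩
    have h2 := (hy.d0 r hr1).prodMk (hy.d1 r hr1)
    refine h2.congr_deriv ?_
    rw [hv]
    show (y1 r, y2 r) = (y1 r, -((b + I * r) * y1 r + I * a * y r) / r)
    congr 1
    rw [eq_div_iff hrc]
    linear_combination hy.ode r hr1
  have hzero : ∀ r ∈ Ioo A B, HasDerivAt (fun _ : ℝ => ((0:ℂ), (0:ℂ)))
      (v r ((fun _ : ℝ => ((0:ℂ), (0:ℂ))) r)) r ∧
      (fun _ : ℝ => ((0:ℂ), (0:ℂ))) r ∈ (univ : Set (ℂ × ℂ)) := by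
    intro r _
    refine ⟨?_, mem_univ _⟩
    have : v r ((0:ℂ), (0:ℂ)) = 0 := by rw [hv]; simp
    show HasDerivAt (fun _ : ℝ => ((0:ℂ), (0:ℂ))) (v r ((0:ℂ), (0:ℂ))) r
    rw [this]
    exact hasDerivAt_const r _
  have huniq := ODE_solution_unique_of_mem_Ioo hlip (⟨hAs, hsB⟩ : s ∈ Ioo A B) hsol hzero
    (by show (y s, y1 s) = (0, 0); rw [h0, h1])
  have h5 := huniq (⟨hAt, htB⟩ : t ∈ Ioo A B)
  have h6 : (y t, y1 t) = ((0:ℂ), (0:ℂ)) := h5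
  exact ⟨congrArg Prod.fst h6, congrArg Prod.snd h6⟩

/-- `J` does not vanish for large `ρ` -/
theorem J_ne_zero_eventually {a : ℂ} (c : ℂ) (ha : 0 < a.re) :
    ∀ᶠ ρ : ℝ in atTop, J a c (ρ : ℂ) ≠ 0 := by
  set K : ℝ := ‖c‖ * Real.exp (|c.im| * (Real.pi / 2)) * Mj (a.re + 1) |c.re - 1| with hK
  have hG : 0 < ‖Complex.Gamma a‖ := norm_pos_iff.mpr (Complex.Gamma_ne_zero_of_re_pos ha)
  filter_upwards [eventually_ge_atTop 1, eventually_gt_atTop (K / ‖Complex.Gamma a‖)]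
    with ρ h1 h2 h3
  have hρ0 : 0 < ρ := by linarith
  have h4 := norm_J_sub_le (a := a) (ζ := (ρ:ℂ)) c ha (by simpa using h1)
  rw [h3, zero_sub, norm_neg, norm_mul] at h4
  have e1 : ‖(1 / (ρ:ℂ)) ^ a‖ = ρ ^ (-a.re) := by
    have : (1 / (ρ:ℂ)) = ((ρ⁻¹ : ℝ) : ℂ) := by push_cast; rw [one_div]
    rw [this, Complex.norm_cpow_eq_rpow_re_of_pos (by positivity), Real.inv_rpow hρ0.le,
      Real.rpow_neg hρ0.le]
  rw [e1, Complex.ofReal_re] at h4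
  have e2 : ρ ^ (-(a.re + 1)) = ρ ^ (-a.re) * ρ⁻¹ := by
    rw [show -(a.re + 1) = -a.re + (-1) by ring, Real.rpow_add hρ0, Real.rpow_neg_one]
  rw [e2] at h4
  have h5 : 0 < ρ ^ (-a.re) := Real.rpow_pos_of_pos hρ0 _
  have h6 : ‖Complex.Gamma a‖ ≤ K * ρ⁻¹ := by
    have : ρ ^ (-a.re) * ‖Complex.Gamma a‖ ≤ ρ ^ (-a.re) * (K * ρ⁻¹) := by
      calc ρ ^ (-a.re) * ‖Complex.Gamma a‖ ≤ K * (ρ ^ (-a.re) * ρ⁻¹) := h4
        _ = _ := by ring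
    exact le_of_mul_le_mul_left this h5
  rw [div_lt_iff₀ hG] at h2
  have h7 : ‖Complex.Gamma a‖ * ρ ≤ K := by
    have := mul_le_mul_of_nonneg_right h6 hρ0.le
    rwa [mul_assoc, inv_mul_cancel₀ hρ0.ne', mul_one] at this
  linarith

/-- **Uniqueness of the slow solution, Wronskian form.** -/
theorem eq_smul_J_of_wr {a : ℂ} (c : ℂ) (ha : 0 < a.re) {ρ₀ : ℝ} (hρ₀ : 0 ≤ ρ₀)
    {y y1 y2 : ℝ → ℂ} (hy : IsSol a (a + c + 1) ρ₀ y y1 y2)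
    (hW : ∀ s, ρ₀ < s → Wr y y1 (fun ρ => J a c (ρ:ℂ)) (fun ρ => -J (a + 1) c (ρ:ℂ)) s = 0) :
    ∃ k : ℂ, ∀ ρ, ρ₀ < ρ → y ρ = k * J a c (ρ:ℂ) ∧ y1 ρ = -(k * J (a + 1) c (ρ:ℂ)) := by
  obtain ⟨s, hs, hJs⟩ := ((eventually_gt_atTop ρ₀).and (J_ne_zero_eventually c ha)).exists
  set k : ℂ := y s / J a c (s:ℂ) with hk
  have hJ := isSol_J c ha hρ₀
  have hu : IsSol a (a + c + 1) ρ₀ (fun ρ => y ρ - k * J a c (ρ:ℂ))
      (fun ρ => y1 ρ - k * (-J (a + 1) c (ρ:ℂ))) (fun ρ => y2 ρ - k * J (a + 1 + 1) c (ρ:ℂ)) := by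
    refine ⟨fun ρ hρ => (hy.d0 ρ hρ).sub ((hJ.d0 ρ hρ).const_mul k),
      fun ρ hρ => (hy.d1 ρ hρ).sub ((hJ.d1 ρ hρ).const_mul k), fun ρ hρ => ?_⟩
    have o1 := hy.ode ρ hρ
    have o2 := hJ.ode ρ hρ
    linear_combination o1 - k * o2
  have h0 : y s - k * J a c (s:ℂ) = 0 := by rw [hk]; field_simp; ring
  have hWs := hW s hs
  have h1 : y1 s - k * (-J (a + 1) c (s:ℂ)) = 0 := by
    have h2 : (y1 s - k * (-J (a + 1) c (s:ℂ))) * J a c (s:ℂ) = 0 := by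
      have h3 : y s = k * J a c (s:ℂ) := by linear_combination h0
      unfold Wr at hWs
      have h4 : y1 s * J a c (s:ℂ) - y s * (-J (a + 1) c (s:ℂ)) = 0 := hWs
      rw [h3] at h4
      linear_combination h4
    rcases mul_eq_zero.mp h2 with h | h
    · exact h
    · exact absurd h hJs
  have h2 := sol_unique hρ₀ hu hs h0 h1
  refine ⟨k, fun ρ hρ => ?_⟩
  obtain ⟨h3, h4⟩ := h2 ρ hρ
  constructor
  · linear_combination h3
  · linear_combination h4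

end Vale.Agent.P139.KU.H761
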